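-- KEEP
import Claimed.Agent.R252.S7b.HorLink
import Claimed.Agent.R252.S7b.CoreB
import Claimed.Agent.R252.Sheet.HsContract

/-!
# Row 252 (Kakeya in R^4), Sec. 7.5, post BP-252-S7b-S2 = `a06:horizontal-affine-approximation` (07 l.1085-1240): VOCABULARY      (sub-architect helper1; prefix `k7f` / `K7fSh`)

DEFINITIONS + trivial algebra, no sorry.   Everything is over the one-scale horizontal record `H : K7bHor` (`S7b/HorDefs`), its part `H.Ok0 c K` (`S7b/HorLink`, exit of S1) and a CURRENT selection `E0 ⊆ H.Sp`.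
* `k7fCen tc Zc Yc h`      the centring map (a06:centered-horizontal-box), values in `Fin 3 → ℝ` (the domain of the sheet kit `R252/Sheet`, `R252/Heis`)
* `k7fAffOf`               an affine function of the centred coordinates, written as an entry `(c, α₁, α₂, γ)` of `k7bAff` in the coordinates of `H`
* `K7fSh H`                SHEET ENTRIES: finitely many entries `σ`; each has a true label `lq σ`, a sheet `f_σ = sh2_val m α β D` IN THE CENTRED COORDINATES of its label and a cube `|x - cc σ| ≤ r` on which `D` is stable;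
                           + a fine position label `fc` (v2, 20:50Z: ANY countable label; two incidences with the same entry and the same `fc` are `eta`-close in centred coordinates)
* `T.Ok c K r d m E0`      what the adaptor (`AdContract`) extracts from `KsRef.Ok` (stable graphs): facts at the incidences of `E0` only
* `T.tm`, `T.Long`, `T.Wit3`, `T.Full`     the stored witnesses of the proof:  On-times of a line in its entry, long lines, three separated long witnesses in one fine state, well filled entries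
* `T.aff`, `T.out`         the affine entries (tangent planes at the centres of the cubes) and the output record
STRUCTURE OF THE BLOCK (all paper-free except `AdContract`):
  `AnContract`  (analysis)  chord estimate, Hessian / transfer bounds, interpolation, absorption           ⟹ `k7f_an`
  `MeContract`  (measure)   long lines, three witnesses, light entries, filling                            ⟹ `k7f_sel`
  `AbsContract` (glue)      `k7f_entry` (a well filled entry is affine up to `K a_s`), `k7f_extrap`, `k7f_abs` : `Ok0 + T.Ok ⟹ OkE` on a selection of almost full mass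
  `AdContract`  (adaptor)   `KsRef.Ok + K7bDat + link ⟹ T.Ok`;   top `k7f_S2`.
-/

set_option autoImplicit false

namespace Claimed.Agent.R252

open MeasureTheory
open scoped ENNReal BigOperators

noncomputable section

/-- the centring map of the horizontal box with centre `(tc, Zc, Yc)` and scale `h`:   `ẑ = (z - z_c)/h`, `Ŷ = (Y - Y_c - J z_c · (z - z_c))/h²` -/
def k7fCen (tc Zc Yc h : ℝ) (u : ℝ × ℝ × ℝ) : Fin 3 → ℝ :=
  ![(u.1 - tc) / h, (u.2.1 - Zc) / h, (u.2.2 - Yc - (-Zc * (u.1 - tc) + tc * (u.2.1 - Zc))) / h ^ 2]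

/-- the entry of `u ↦ a0 + ∑ g i * (k7fCen tc Zc Yc h u) i` -/
def k7fAffOf (tc Zc Yc h a0 : ℝ) (g : Fin 3 → ℝ) : ℝ × ℝ × ℝ × ℝ :=
  (a0 - g 0 * tc / h - g 1 * Zc / h - g 2 * Yc / h ^ 2, g 0 / h + g 2 * Zc / h ^ 2, g 1 / h - g 2 * tc / h ^ 2, g 2 / h ^ 2)

theorem k7f_affOf_eval (tc Zc Yc h a0 : ℝ) (g : Fin 3 → ℝ) (u : ℝ × ℝ × ℝ) :
    k7bAff (k7fAffOf tc Zc Yc h a0 g) u = a0 + ∑ i, g i * k7fCen tc Zc Yc h u i := by
  simp only [k7bAff, k7fAffOf, k7fCen, Fin.sum_univ_three, Matrix.cons_val_zero, Matrix.cons_val_one, Matrix.cons_val]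
  ring

/-- the closed cube -/
def k7fCube (c : Fin 3 → ℝ) (r : ℝ) : Set (Fin 3 → ℝ) := Set.Icc (fun i => c i - r) (fun i => c i + r)

/-- the horizontal direction `(1, v, J z · V₁ + δ)` at the point `u`, with defect `δ` -/
def k7fDir (u : Fin 3 → ℝ) (v δ : ℝ) : Fin 3 → ℝ := ![1, v, -u 1 + u 0 * v + δ]

/-- the centred coordinates of the true label `q` of relative depth `s` -/
def k7fCenQ (H : K7bHor) (c : K7bPar) (s : ℝ) (q : H.Q) (u : ℝ × ℝ × ℝ) : Fin 3 → ℝ := k7fCen (H.ct q) (H.cZ q) (H.cY q) (c.h s) u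

/-- the centred base point of an incidence at the relative depth `s` -/
def k7fCb (H : K7bHor) (c : K7bPar) (s : ℝ) (z : H.Lam × ℝ) : Fin 3 → ℝ := k7fCenQ H c s (H.lab s z) (H.base z)

/-- **sheet entries over a horizontal record** (data only) -/
structure K7fSh (H : K7bHor) where
  /-- the entries (ball / branch / cube choices of all labels of all depths) -/
  Sg : Type
  [fS : Fintype Sg]
  /-- the entry of an incidence at the relative depth `s` -/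
  se : ℝ → H.Lam × ℝ → Sg
  /-- the true label of an entry -/
  lq : Sg → H.Q
  /-- the sheet `α + β √D / D^m`, a function of the CENTRED coordinates of the label, predicting the residual `x` of `H` -/
  al : Sg → MvPolynomial (Fin 3) ℝ
  be : Sg → MvPolynomial (Fin 3) ℝ
  Di : Sg → MvPolynomial (Fin 3) ℝ
  /-- the centre of the cube of the entry, centred coordinates -/
  cc : Sg → Fin 3 → ℝ
  /-- the fine position label (ANY countable label: cells of a fine mesh in any coordinates) and its accuracy in centred coordinates -/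
  Fc : Type
  [cF : Countable Fc]
  fc : ℝ → H.Lam × ℝ → Fc
  eta : ℝ

attribute [instance] K7fSh.fS K7fSh.cF

namespace K7fSh

variable {H : K7bHor} (T : K7fSh H)

/-- the sheet of an entry -/
def f (m : ℕ) (σ : T.Sg) : (Fin 3 → ℝ) → ℝ := sh2_val m (T.al σ) (T.be σ) (T.Di σ)

/-- the fine state: entry and fine position -/
def fs (s : ℝ) (z : H.Lam × ℝ) : T.Sg × T.Fc := (T.se s z, T.fc s z)

/-- **the standing hypotheses on sheet entries**, on the selection `E0`; slack `K`, radius `r` of the cubes, degree `d`, class `m` -/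
structure Ok (c : K7bPar) (K r : ℝ) (d m : ℕ) (E0 : Set (H.Lam × ℝ)) : Prop where
  mse : ∀ s ∈ c.G, KsLab (T.se s)
  mfc : ∀ s ∈ c.G, KsLab (T.fc s)
  /-- the entry knows the true label -/
  lab : ∀ s ∈ c.G, ∀ z ∈ E0, T.lq (T.se s z) = H.lab s z
  /-- `≤ K` entries per label -/
  card : ∀ q, (Set.ncard {σ | T.lq σ = q} : ℝ) ≤ K
  deg : ∀ s ∈ c.G, ∀ z ∈ E0, (T.al (T.se s z)).totalDegree ≤ d ∧ (T.be (T.se s z)).totalDegree ≤ d ∧ (T.Di (T.se s z)).totalDegree ≤ d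
  /-- the discriminant is stable on the cube -/
  stab : ∀ s ∈ c.G, ∀ z ∈ E0, sh2Stable K (T.Di (T.se s z)) (fun i => T.cc (T.se s z) i - r) (fun i => T.cc (T.se s z) i + r)
  /-- the incidences of an entry lie over the quarter cube -/
  cube : ∀ s ∈ c.G, ∀ z ∈ E0, ∀ i, |k7fCb H c s z i - T.cc (T.se s z) i| ≤ r / 4
  /-- the sheet predicts the residual to the fitted width -/
  fit : ∀ s ∈ c.G, ∀ z ∈ E0, |H.X z - T.f m (T.se s z) (k7fCb H c s z)| ≤ K * c.a s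
  /-- two incidences in one fine state are `eta`-close in centred coordinates -/
  close : ∀ s ∈ c.G, ∀ z ∈ E0, ∀ z' ∈ E0, T.fs s z = T.fs s z' → ‖k7fCb H c s z - k7fCb H c s z'‖ ≤ T.eta
  /-- an end history leaves `≤ K` options for the fine state -/
  opt : ∀ s ∈ c.G, ∃ n : ℕ, (n : ℝ) ≤ K ∧ KsOpt (H.lam.restrict E0) H.eh (T.fs s) n

/-- the On-times of the line of `z` in the entry of `z`, inside the selection `E0` -/
def tm (E0 : Set (H.Lam × ℝ)) (s : ℝ) (z : H.Lam × ℝ) : Set ℝ := {t | (z.1, t) ∈ E0 ∧ T.se s (z.1, t) = T.se s z}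

/-- long lines: the On-times have relative length `≥ τ` in the block -/
def Long (E0 : Set (H.Lam × ℝ)) (τ s : ℝ) (z : H.Lam × ℝ) : Prop := ENNReal.ofReal (τ * H.bl (H.lab s z)) ≤ volume (T.tm E0 s z)

/-- three long witnesses in the fine state of `z`, with velocities separated by `ρ` -/
def Wit3 (E0 : Set (H.Lam × ℝ)) (τ ρ s : ℝ) (z : H.Lam × ℝ) : Prop :=
  ∃ w : Fin 3 → H.Lam × ℝ, (∀ i, w i ∈ E0 ∧ T.Long E0 τ s (w i) ∧ T.fs s (w i) = T.fs s z) ∧ ∀ i j, i ≠ j → ρ ≤ |H.v (w i).1 - H.v (w j).1|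

/-- well filled entries: incidences of mass `≥ τ m_Q`, all with three witnesses -/
def Full (E0 : Set (H.Lam × ℝ)) (τ ρ s : ℝ) (σ : T.Sg) : Prop :=
  ∃ W ⊆ E0, (∀ z ∈ W, T.se s z = σ ∧ T.Wit3 E0 τ ρ s z) ∧ ENNReal.ofReal τ * H.mQ (T.lq σ) ≤ H.lam W

/-- the gradient of the sheet at the centre of the cube -/
def gr (m : ℕ) (σ : T.Sg) (i : Fin 3) : ℝ := fderiv ℝ (T.f m σ) (T.cc σ) (Pi.single i 1)

/-- **the affine entry**: the tangent plane of the sheet at the centre of the cube, in the coordinates of `H` -/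
def aff (m : ℕ) (c : K7bPar) (s : ℝ) (σ : T.Sg) : ℝ × ℝ × ℝ × ℝ :=
  k7fAffOf (H.ct (T.lq σ)) (H.cZ (T.lq σ)) (H.cY (T.lq σ)) (c.h s) (T.f m σ (T.cc σ) - ∑ i, T.gr m σ i * T.cc σ i) (T.gr m σ)

open Classical in
/-- **the output record**: selection `E`, affine entries of the sheet entries -/
def out (m : ℕ) (c : K7bPar) (E : Set (H.Lam × ℝ)) : K7bHor :=
  { H with
    Sp := E
    ent := fun q => (c.G ×ˢ Finset.univ.filter fun σ => T.lq σ = q).image fun x => T.aff m c x.1 x.2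
    entOf := fun s z => T.aff m c s (T.se s z) }

end K7fSh

theorem k7f_defs_eqns_cite : True := by
  have := @k7fCen.eq_1
  have := @k7fAffOf.eq_1
  have := @k7fCube.eq_1
  have := @k7fDir.eq_1
  have := @k7fCenQ.eq_1
  have := @k7fCb.eq_1
  have := @K7fSh.f.eq_1
  have := @K7fSh.fs.eq_1
  have := @K7fSh.tm.eq_1
  have := @K7fSh.Long.eq_1
  have := @K7fSh.Wit3.eq_1
  have := @K7fSh.Full.eq_1
  have := @K7fSh.gr.eq_1
  have := @K7fSh.aff.eq_1
  have := @K7fSh.out.eq_1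
  trivial

end

end Claimed.Agent.R252

/-!
# Row 252, Sec. 7.5, post BP-252-S7b-S2, file 2: THE ANALYTIC CORE (07 l.1131-1227).   CONTRACT: the `sorry`s are the leaves L-252-S7f-A1 .. A5      (sub-architect helper1; prefix `k7f_`)

PAPER-FREE.   Read only: `R252/Sheet/{Defs,MvContract,HsContract,AbsContract}` (class `sh2_val m α β D = α + β √D / D^m`, exits `sh2_interval`, `sh2_remez`, `sh2_hessian_affine`, `sh2_Bd_cube`, `sh2_heis_affine`, closure `sh2_hsb_A_val` ..),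
`R252/Heis/HeisContract` (`hsb_H`, `hsb_A B C`, `hsb_six`, `hsb_H_line`, `hsb_H_symm`), `S7b/CoreA` (`k7b_quad_interp`, `k7b_absorb`), `S7f/Defs` (`k7fCube`, `k7fDir`).   All of these are sorry-free black boxes.
Prove IN PLACE (replace your `sorry`, helper lemmas directly above your theorem, prefix `k7f_a<i>_`).   Statements are frozen; defects: one line to helper1.
Domain `Fin 3 → ℝ` (sup norm), `u = (t, Z, Y)`.   `f = sh2_val m α β D`, `D` stable on the cube `|x - c| ≤ r`.   NO bound on `f` or on its affine part is ever used.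
-/

set_option autoImplicit false

namespace Claimed.Agent.R252

open MeasureTheory

noncomputable section

/-- the second derivative along a line is the Hessian -/
theorem k7f_a1_line {U : Set (Fin 3 → ℝ)} (hU : IsOpen U) {g : (Fin 3 → ℝ) → ℝ} (hg : ContDiffOn ℝ 2 g U) (x W : Fin 3 → ℝ) (t : ℝ)
    (hmem : x + t • W ∈ U) : iteratedDeriv 2 (fun s : ℝ => g (x + s • W)) t = hsb_H g (x + t • W) W W := by
  rw [hsb_H_line hU hg hmem W]
  have := iteratedDeriv_comp_const_add 2 (fun s : ℝ => g (x + s • W)) t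
  have e3 := congrFun this 0
  simp only [add_zero] at e3
  rw [← e3]
  congr 1
  funext s
  rw [add_smul, add_assoc]

/-- hull of a bounded set of positive measure -/
theorem k7f_a1_hull (E : Set ℝ) (ℓ θ : ℝ) (hθ : 0 < θ) (hdiam : ∀ s ∈ E, ∀ s' ∈ E, |s - s'| ≤ ℓ) (hvol : ENNReal.ofReal θ ≤ volume E) :
    ∃ lo hi : ℝ, E ⊆ Set.Icc lo hi ∧ lo ∈ closure E ∧ hi ∈ closure E ∧ θ ≤ hi - lo ∧ hi - lo ≤ ℓ := by
  have hne : E.Nonempty := by
    by_contra hcon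
    rw [Set.not_nonempty_iff_eq_empty] at hcon
    rw [hcon, measure_empty, nonpos_iff_eq_zero, ENNReal.ofReal_eq_zero] at hvol
    linarith
  obtain ⟨s₀, hs₀⟩ := hne
  have hbb : BddBelow E := ⟨s₀ - ℓ, fun s hs => by have := abs_le.1 (hdiam s hs s₀ hs₀); linarith [this.1]⟩
  have hba : BddAbove E := ⟨s₀ + ℓ, fun s hs => by have := abs_le.1 (hdiam s hs s₀ hs₀); linarith [this.2]⟩
  have hsub : E ⊆ Set.Icc (sInf E) (sSup E) := fun s hs => ⟨csInf_le hbb hs, le_csSup hba hs⟩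
  refine ⟨sInf E, sSup E, hsub, csInf_mem_closure ⟨s₀, hs₀⟩ hbb, csSup_mem_closure ⟨s₀, hs₀⟩ hba, ?_, ?_⟩
  · have h1 := hvol.trans (measure_mono hsub)
    rw [Real.volume_Icc] at h1
    exact (ENNReal.ofReal_le_ofReal_iff' .. |>.1 h1).resolve_right (by linarith)
  · have h1 : sSup E ≤ sInf E + ℓ := by
      refine csSup_le ⟨s₀, hs₀⟩ fun s hs => ?_
      have h2 : s - ℓ ≤ sInf E := le_csInf ⟨s₀, hs₀⟩ fun s' hs' => by
        have := abs_le.1 (hdiam s hs s' hs')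
        linarith [this.2]
      linarith
    linarith

/-- **L-252-S7f-A1 (chord estimate, 07 l.1140-1152; ~200 l.).**   Along a line `s ↦ x + s • W` the sheet is within `Δ` of an affine function on a parameter set `E` of measure `≥ θ` and diameter `≤ ℓ` whose points lie in the box.
Then the second derivative along the line is `≤ C (kap ℓ/θ)^p Δ/θ²` at the points of `E`.
PROOF.  `E ≠ ∅`, bounded; `lo = sInf E`, `hi = sSup E`, `θ ≤ hi - lo ≤ ℓ` (`volume E ≤ volume (Icc lo hi)`).   The box is closed and convex, `lo, hi ∈ closure E`: the segment over `Icc lo hi` lies in the box.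
`sh2_val_line` gives `A B Dl`; replace `A` by `A - (C w0 + C w1 * X)` (`natDegree ≤ d` since `1 ≤ d`); `sh2_interval d 2 m` with `t0 = (lo+hi)/2`, `r = (hi-lo)/2`, relative measure `θ/(hi-lo)`, `j = 2`.
The second derivative of the affine part vanishes (as in `sh2_affine_deriv`), and `iteratedDeriv 2 (s ↦ f (x + s • W)) s = hsb_H f (x + s • W) W W` (`hsb_H_line` + `iteratedDeriv_comp_const_add`, exactly as at the end of the proof of `sh2_heis_affine`). -/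
theorem k7f_chord (d m : ℕ) (hd : 1 ≤ d) : ∃ (p : ℕ) (C : ℝ), 1 ≤ C ∧
    ∀ (kap : ℝ) (α β D : MvPolynomial (Fin 3) ℝ) (a b x W : Fin 3 → ℝ) (w0 w1 ℓ θ Δ : ℝ) (E : Set ℝ), 1 ≤ kap →
      α.totalDegree ≤ d → β.totalDegree ≤ d → D.totalDegree ≤ d → sh2Stable kap D a b → 0 < θ →
      (∀ s ∈ E, x + s • W ∈ Set.Icc a b) → (∀ s ∈ E, ∀ s' ∈ E, |s - s'| ≤ ℓ) → ENNReal.ofReal θ ≤ volume E →
      (∀ s ∈ E, |sh2_val m α β D (x + s • W) - (w0 + w1 * s)| ≤ Δ) →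
      ∀ s ∈ E, |hsb_H (sh2_val m α β D) (x + s • W) W W| ≤ C * (kap * ℓ / θ) ^ p * Δ / θ ^ 2 := by
  obtain ⟨p, C₀, hC₀, hint⟩ := sh2_interval d 2 m
  refine ⟨p, 4 * C₀, by linarith, ?_⟩
  intro kap α β D a b x W w0 w1 ℓ θ Δ E hkap hα hβ hD hst hθ hbox hdiam hvol hfit s hs
  have hkap0 : 0 < kap := by linarith
  have hΔ : 0 ≤ Δ := (abs_nonneg _).trans (hfit s hs)
  obtain ⟨lo, hi, hsub, hlo, hhi, h1, h2⟩ := k7f_a1_hull E ℓ θ hθ hdiam hvol
  have hlh : 0 < hi - lo := by linarith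
  -- the segment lies in the box
  have hcl : IsClosed {s : ℝ | x + s • W ∈ Set.Icc a b} := by
    have hc : Continuous fun s : ℝ => x + s • W := by fun_prop
    exact isClosed_Icc.preimage hc
  have hclE : closure E ⊆ {s : ℝ | x + s • W ∈ Set.Icc a b} := closure_minimal hbox hcl
  have hseg : ∀ t ∈ Set.Icc lo hi, x + t • W ∈ Set.Icc a b := by
    intro t ht
    have l1 : x + lo • W ∈ Set.Icc a b := hclE hlo
    have l2 : x + hi • W ∈ Set.Icc a b := hclE hhi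
    refine ⟨fun i => ?_, fun i => ?_⟩
    · have a1 := l1.1 i
      have a2 := l2.1 i
      simp only [Pi.add_apply, Pi.smul_apply, smul_eq_mul] at a1 a2 ⊢
      rcases le_total 0 (W i) with hw | hw
      · nlinarith [mul_le_mul_of_nonneg_right ht.1 hw]
      · nlinarith [mul_le_mul_of_nonpos_right ht.2 hw]
    · have a1 := l1.2 i
      have a2 := l2.2 i
      simp only [Pi.add_apply, Pi.smul_apply, smul_eq_mul] at a1 a2 ⊢
      rcases le_total 0 (W i) with hw | hw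
      · nlinarith [mul_le_mul_of_nonneg_right ht.2 hw]
      · nlinarith [mul_le_mul_of_nonpos_right ht.1 hw]
  obtain ⟨A, B, Dl, dA, dB, dD, hDl, hval⟩ := sh2_val_line m α β D x W
  obtain ⟨D0, hD0, hstab⟩ := hst
  have e1 : (lo + hi) / 2 - (hi - lo) / 2 = lo := by ring
  have e2 : (lo + hi) / 2 + (hi - lo) / 2 = hi := by ring
  have hdeg : (A - (Polynomial.C w0 + Polynomial.C w1 * Polynomial.X)).natDegree ≤ d := by
    refine (Polynomial.natDegree_sub_le _ _).trans (max_le (dA.trans hα) ?_)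
    refine le_trans ?_ hd
    refine (Polynomial.natDegree_add_le _ _).trans (max_le (by simp) ?_)
    exact (Polynomial.natDegree_C_mul_le _ _).trans (by simp)
  have key := hint kap (A - (Polynomial.C w0 + Polynomial.C w1 * Polynomial.X)) B Dl D0 ((lo + hi) / 2) ((hi - lo) / 2)
    (θ / (hi - lo)) Δ E hkap hdeg (dB.trans hβ) (dD.trans hD) hD0 (by linarith)
    (by
      rw [e1, e2]
      intro t ht
      rw [← hDl t]
      exact hstab _ (hseg t ht))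
    (by positivity) (by rw [e1, e2]; exact hsub)
    (by
      have : θ / (hi - lo) * (2 * ((hi - lo) / 2)) = θ := by field_simp
      rw [this]
      exact hvol)
    (by
      intro t ht
      have := hfit t ht
      rw [hval t] at this
      simp only [Polynomial.eval_sub, Polynomial.eval_add, Polynomial.eval_mul, Polynomial.eval_C, Polynomial.eval_X]
      have e : A.eval t - (w0 + w1 * t) + B.eval t * Real.sqrt (Dl.eval t) / Dl.eval t ^ m
          = A.eval t + B.eval t * Real.sqrt (Dl.eval t) / Dl.eval t ^ m - (w0 + w1 * t) := by ring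
      rw [e]
      exact this)
    2 le_rfl s (by rw [e1, e2]; exact hsub hs)
  -- identify the second derivative
  have hU := sh2_pos_isOpen D
  have hf : ContDiffOn ℝ 2 (sh2_val m α β D) {u : Fin 3 → ℝ | 0 < MvPolynomial.eval u D} := sh2_val_contDiffOn m α β D 2
  have hmem : x + s • W ∈ {u : Fin 3 → ℝ | 0 < MvPolynomial.eval u D} :=
    lt_of_lt_of_le (by positivity) (hstab _ (hbox s hs)).1
  have hfun : (fun t : ℝ => (A - (Polynomial.C w0 + Polynomial.C w1 * Polynomial.X)).eval t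
      + B.eval t * Real.sqrt (Dl.eval t) / Dl.eval t ^ m)
      = fun t : ℝ => sh2_val m α β D (x + t • W) - (Polynomial.C w0 + Polynomial.C w1 * Polynomial.X).eval t := by
    funext t
    rw [hval t, Polynomial.eval_sub]
    ring
  have hc1 : ContDiffAt ℝ 2 (fun t : ℝ => sh2_val m α β D (x + t • W)) s := by
    have h3 : ContDiffAt ℝ 2 (sh2_val m α β D) (x + s • W) := hf.contDiffAt (hU.mem_nhds hmem)
    have h4 : ContDiffAt ℝ 2 (fun s : ℝ => x + s • W) s := by fun_prop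
    exact h3.comp s h4
  have hc2 : ContDiffAt ℝ 2 (fun t : ℝ => (Polynomial.C w0 + Polynomial.C w1 * Polynomial.X).eval t) s := by
    have := (Polynomial.contDiff_aeval (𝕜 := ℝ) (Polynomial.C w0 + Polynomial.C w1 * Polynomial.X) 2).contDiffAt (x := s)
    simpa using this
  have hzero : iteratedDeriv 2 (fun t : ℝ => (Polynomial.C w0 + Polynomial.C w1 * Polynomial.X).eval t) s = 0 := by
    rw [sh2_iteratedDeriv_poly]
    simp
  rw [hfun, iteratedDeriv_fun_sub hc1 hc2, hzero, sub_zero, k7f_a1_line hU hf x W s hmem] at key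
  refine key.trans ?_
  have hb1 : kap / (θ / (hi - lo)) ≤ kap * ℓ / θ := by
    rw [div_div_eq_mul_div]
    gcongr
  have hb0 : 0 ≤ kap / (θ / (hi - lo)) := by positivity
  have hb2 : (kap / (θ / (hi - lo))) ^ p ≤ (kap * ℓ / θ) ^ p := pow_le_pow_left₀ hb0 hb1 p
  have hb3 : θ ^ 2 ≤ 4 * ((hi - lo) / 2) ^ 2 := by nlinarith
  have hC0 : 0 ≤ C₀ := by linarith
  have hℓ : 0 ≤ ℓ := by linarith
  rw [div_le_div_iff₀ (by positivity) (by positivity)]
  calc C₀ * (kap / (θ / (hi - lo))) ^ p * Δ * θ ^ 2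
      ≤ C₀ * (kap * ℓ / θ) ^ p * Δ * (4 * ((hi - lo) / 2) ^ 2) := by gcongr
    _ = 4 * C₀ * (kap * ℓ / θ) ^ p * Δ * ((hi - lo) / 2) ^ 2 := by ring

/-- polarisation -/
theorem k7f_a2_polar (β : (Fin 3 → ℝ) →L[ℝ] (Fin 3 → ℝ) →L[ℝ] ℝ) (hs : ∀ u w, β u w = β w u) (B : ℝ)
    (hB : ∀ v, |β v v| ≤ B * ‖v‖ ^ 2) (u w : Fin 3 → ℝ) : |β u w| ≤ 2 * B * ‖u‖ * ‖w‖ := by
  by_cases hu : u = 0
  · subst hu
    simp
  by_cases hw : w = 0
  · subst hw
    simp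
  have ha : 0 < ‖u‖ := norm_pos_iff.2 hu
  have hb : 0 < ‖w‖ := norm_pos_iff.2 hw
  have hB0 : 0 ≤ B := by
    have h1 := (abs_nonneg _).trans (hB u)
    have h2 : 0 < ‖u‖ ^ 2 := by positivity
    by_contra hc
    push Not at hc
    nlinarith
  obtain ⟨u₁, hu₁⟩ : ∃ u₁, u₁ = ‖w‖ • u := ⟨_, rfl⟩
  obtain ⟨w₁, hw₁⟩ : ∃ w₁, w₁ = ‖u‖ • w := ⟨_, rfl⟩
  have nu : ‖u₁‖ = ‖u‖ * ‖w‖ := by rw [hu₁, norm_smul, norm_norm, mul_comm]
  have nw : ‖w₁‖ = ‖u‖ * ‖w‖ := by rw [hw₁, norm_smul, norm_norm]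
  have e : 4 * β u₁ w₁ = β (u₁ + w₁) (u₁ + w₁) - β (u₁ - w₁) (u₁ - w₁) := by
    simp only [map_add, map_sub, add_apply, sub_apply]
    rw [hs w₁ u₁]
    ring
  have e2 : β u₁ w₁ = ‖u‖ * ‖w‖ * β u w := by
    rw [hu₁, hw₁]
    simp only [map_smul, smul_apply, smul_eq_mul]
    ring
  have b1 := hB (u₁ + w₁)
  have b2 := hB (u₁ - w₁)
  have n1 : ‖u₁ + w₁‖ ≤ 2 * (‖u‖ * ‖w‖) := by
    have := norm_add_le u₁ w₁
    rw [nu, nw] at this
    linarith
  have n2 : ‖u₁ - w₁‖ ≤ 2 * (‖u‖ * ‖w‖) := by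
    have := norm_sub_le u₁ w₁
    rw [nu, nw] at this
    linarith
  have c1 : B * ‖u₁ + w₁‖ ^ 2 ≤ B * (2 * (‖u‖ * ‖w‖)) ^ 2 := by gcongr
  have c2 : B * ‖u₁ - w₁‖ ^ 2 ≤ B * (2 * (‖u‖ * ‖w‖)) ^ 2 := by gcongr
  have h4 : |4 * β u₁ w₁| ≤ 2 * (B * (2 * (‖u‖ * ‖w‖)) ^ 2) := by
    rw [e]
    have := abs_sub (β (u₁ + w₁) (u₁ + w₁)) (β (u₁ - w₁) (u₁ - w₁))
    linarith
  rw [e2, abs_mul, abs_mul, abs_mul, abs_of_pos ha, abs_of_pos hb] at h4
  have e4 : |(4 : ℝ)| = 4 := by norm_num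
  rw [e4] at h4
  have hab : 0 < ‖u‖ * ‖w‖ := mul_pos ha hb
  have : ‖u‖ * ‖w‖ * |β u w| ≤ ‖u‖ * ‖w‖ * (2 * B * ‖u‖ * ‖w‖) := by nlinarith
  exact le_of_mul_le_mul_left this hab

/-- **L-252-S7f-A2 (the Hessian is bounded by the distance to ANY affine function; ~150 l.).**
PROOF.  `sh2_hessian_affine 3 d 2 m hd` with `E =` the whole cube, `θ = 1`, `lam = ‖v‖ / r` : `|hsb_H f x v v| ≤ B ‖v‖²`, `B = C₀ kap^p M / r²` (`hsb_H_line`; `v = 0` trivial).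
Polarisation: `hsb_H f x` is bilinear (`fderiv ℝ (fderiv ℝ f) x` is a continuous bilinear map) and symmetric (`hsb_H_symm`), `4 H(a,b) = H(a+b,a+b) - H(a-b,a-b)`; for `‖a‖ = ‖b‖ = 1` this gives `|H(a,b)| ≤ 2 B`; homogeneity.   `C = 2 C₀`. -/
theorem k7f_hess_bd (d m : ℕ) (hd : 1 ≤ d) : ∃ (p : ℕ) (C : ℝ), 1 ≤ C ∧
    ∀ (kap : ℝ) (α L β D : MvPolynomial (Fin 3) ℝ) (c : Fin 3 → ℝ) (r M : ℝ), 1 ≤ kap →
      α.totalDegree ≤ d → L.totalDegree ≤ 1 → β.totalDegree ≤ d → D.totalDegree ≤ d → 0 < r → sh2Stable kap D (fun i => c i - r) (fun i => c i + r) →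
      (∀ x ∈ k7fCube c r, |sh2_val m α β D x - MvPolynomial.eval x L| ≤ M) →
      ∀ x : Fin 3 → ℝ, (∀ i, |x i - c i| ≤ r / 2) → ∀ u w : Fin 3 → ℝ,
        |hsb_H (sh2_val m α β D) x u w| ≤ C * kap ^ p * M / r ^ 2 * ‖u‖ * ‖w‖ := by
  obtain ⟨p, C₀, hC₀, hh⟩ := sh2_hessian_affine 3 d 2 m hd
  refine ⟨p, 2 * C₀, by linarith, ?_⟩
  intro kap α L β D c r M hkap hα hL hβ hD hr hst hM x hx u w
  have hU := sh2_pos_isOpen D
  have hf : ContDiffOn ℝ 2 (sh2_val m α β D) {u : Fin 3 → ℝ | 0 < MvPolynomial.eval u D} := sh2_val_contDiffOn m α β D 2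
  have hxbox : x ∈ Set.Icc (fun i => c i - r) (fun i => c i + r) := by
    refine ⟨fun i => ?_, fun i => ?_⟩
    · have := abs_le.1 (hx i)
      show c i - r ≤ x i
      linarith [this.1]
    · have := abs_le.1 (hx i)
      show x i ≤ c i + r
      linarith [this.2]
  have hmem : x ∈ {u : Fin 3 → ℝ | 0 < MvPolynomial.eval u D} := sh2_stable_pos hkap hst hxbox
  have hdiag : ∀ v : Fin 3 → ℝ, |fderiv ℝ (fderiv ℝ (sh2_val m α β D)) x v v| ≤ C₀ * kap ^ p * M / r ^ 2 * ‖v‖ ^ 2 := by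
    intro v
    by_cases hv : v = 0
    · subst hv
      simp
    have hv0 : 0 < ‖v‖ := norm_pos_iff.2 hv
    have key := hh kap α L β D (fun i => c i - r) (fun i => c i + r) 1 M (Set.Icc (fun i => c i - r) (fun i => c i + r)) hkap hα hL hβ hD
      (fun i => by linarith) hst one_pos le_rfl subset_rfl (by simp) hM x
      (by
        intro i
        have e1 : x i - ((c i - r) + (c i + r)) / 2 = x i - c i := by ring
        have e2 : (1 : ℝ) / 2 * (((c i + r) - (c i - r)) / 2) = r / 2 := by ring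
        rw [e1, e2]
        exact hx i)
      v (‖v‖ / r) (by positivity)
      (by
        intro i
        have e2 : ‖v‖ / r * (((c i + r) - (c i - r)) / 2) = ‖v‖ := by field_simp; ring
        rw [e2]
        exact norm_le_pi_norm v i)
      2 le_rfl le_rfl
    rw [← hsb_H_line hU hf hmem v] at key
    have e : C₀ * (kap / 1) ^ p * M * (‖v‖ / r) ^ 2 = C₀ * kap ^ p * M / r ^ 2 * ‖v‖ ^ 2 := by
      rw [div_one, div_pow]
      ring
    rw [e] at key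
    exact key
  have := k7f_a2_polar (fderiv ℝ (fderiv ℝ (sh2_val m α β D)) x) (fun u w => hsb_H_symm hU hf hmem u w) _ hdiag u w
  refine this.trans (le_of_eq ?_)
  ring

/-- cubes: `|x - c| ≤ ρ ≤ r` lies in the box of radius `r` -/
theorem k7f_a3_mem (c x : Fin 3 → ℝ) (ρ r : ℝ) (hρ : ρ ≤ r) (hx : ∀ i, |x i - c i| ≤ ρ) :
    x ∈ Set.Icc (fun i => c i - r) (fun i => c i + r) := by
  refine ⟨fun i => ?_, fun i => ?_⟩
  · have := abs_le.1 (hx i)
    show c i - r ≤ x i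
    linarith [this.1]
  · have := abs_le.1 (hx i)
    show x i ≤ c i + r
    linarith [this.2]

/-- mean value theorem along a segment, with the derivatives written as in `sh2_Bd_cube` -/
theorem k7f_a3_mvt {U : Set (Fin 3 → ℝ)} (hU : IsOpen U) {G : (Fin 3 → ℝ) → ℝ} (hG : ContDiffOn ℝ 1 G U) (x y : Fin 3 → ℝ) (Λ : ℝ)
    (hseg : ∀ s ∈ Set.Icc (0 : ℝ) 1, y + s • (x - y) ∈ U)
    (hΛ : ∀ s ∈ Set.Icc (0 : ℝ) 1, |iteratedDeriv 1 (fun t : ℝ => G ((y + s • (x - y)) + t • (x - y))) 0| ≤ Λ) :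
    |G x - G y| ≤ Λ := by
  have hline : ∀ (q : Fin 3 → ℝ) (s : ℝ), HasDerivAt (fun s : ℝ => q + s • (x - y)) (x - y) s := fun q s => by
    simpa using ((hasDerivAt_id s).smul_const (x - y)).const_add q
  have hd : ∀ q ∈ U, HasFDerivAt G (fderiv ℝ G q) q := fun q hq =>
    ((hG.contDiffAt (hU.mem_nhds hq)).differentiableAt (by norm_num)).hasFDerivAt
  have hder : ∀ s ∈ Set.Icc (0 : ℝ) 1, HasDerivAt (fun s : ℝ => G (y + s • (x - y))) (fderiv ℝ G (y + s • (x - y)) (x - y)) s :=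
    fun s hs => (hd _ (hseg s hs)).comp_hasDerivAt s (hline y s)
  have hval : ∀ s ∈ Set.Icc (0 : ℝ) 1, |fderiv ℝ G (y + s • (x - y)) (x - y)| ≤ Λ := by
    intro s hs
    have h1 := hΛ s hs
    rw [iteratedDeriv_one] at h1
    have h2 : HasFDerivAt G (fderiv ℝ G ((y + s • (x - y)) + (0 : ℝ) • (x - y))) ((y + s • (x - y)) + (0 : ℝ) • (x - y)) := by
      apply hd
      simpa using hseg s hs
    have h3 := (h2.comp_hasDerivAt (0 : ℝ) (hline (y + s • (x - y)) 0)).deriv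
    rw [zero_smul, add_zero] at h3
    have h4 : deriv (fun t : ℝ => G ((y + s • (x - y)) + t • (x - y))) 0 = fderiv ℝ G (y + s • (x - y)) (x - y) := h3
    rwa [h4] at h1
  obtain ⟨ζ, hζ, hslope⟩ := exists_hasDerivAt_eq_slope (fun s : ℝ => G (y + s • (x - y)))
    (fun s => fderiv ℝ G (y + s • (x - y)) (x - y)) zero_lt_one
    (fun s hs => (hder s hs).continuousAt.continuousWithinAt) (fun s hs => hder s ⟨hs.1.le, hs.2.le⟩)
  have e1 : y + (1 : ℝ) • (x - y) = x := by simp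
  have e0 : y + (0 : ℝ) • (x - y) = y := by simp
  simp only [e1, e0, sub_zero, div_one] at hslope
  rw [← hslope]
  exact hval ζ ⟨hζ.1.le, hζ.2.le⟩

/-- a member of the class which is bounded on the half cube is Lipschitz on the quarter cube -/
theorem k7f_a3_gen (d' m' : ℕ) : ∃ (p : ℕ) (C : ℝ), 1 ≤ C ∧
    ∀ (kap : ℝ) (α' β' D : MvPolynomial (Fin 3) ℝ) (c : Fin 3 → ℝ) (r B₁ : ℝ), 1 ≤ kap → α'.totalDegree ≤ d' → β'.totalDegree ≤ d' →
      D.totalDegree ≤ d' → 0 < r → sh2Stable kap D (fun i => c i - r) (fun i => c i + r) →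
      (∀ x : Fin 3 → ℝ, (∀ i, |x i - c i| ≤ r / 2) → |sh2_val m' α' β' D x| ≤ B₁) →
      ∀ x y : Fin 3 → ℝ, (∀ i, |x i - c i| ≤ r / 4) → (∀ i, |y i - c i| ≤ r / 4) →
        |sh2_val m' α' β' D x - sh2_val m' α' β' D y| ≤ C * kap ^ p * B₁ / r * ‖x - y‖ := by
  obtain ⟨p, C₃, hC₃, hrem⟩ := sh2_remez 3 d' 1 m'
  refine ⟨p, 2 * C₃, by linarith, ?_⟩
  intro kap α' β' D c r B₁ hkap hα hβ hD hr hst hB x y hx hy
  have hsubbox : Set.Icc (fun i => c i - r / 2) (fun i => c i + r / 2) ⊆ Set.Icc (fun i => c i - r) (fun i => c i + r) := by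
    intro z hz
    refine ⟨fun i => ?_, fun i => ?_⟩
    · have := hz.1 i
      show c i - r ≤ z i
      simp only at this
      linarith
    · have := hz.2 i
      show z i ≤ c i + r
      simp only at this
      linarith
  have hst2 := sh2_stable_mono hst hsubbox
  have hBd := hrem kap α' β' D (fun i => c i - r / 2) (fun i => c i + r / 2) 1 B₁
    (Set.Icc (fun i => c i - r / 2) (fun i => c i + r / 2)) hkap hα hβ hD (fun i => by linarith) hst2 one_pos le_rfl subset_rfl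
    (by simp)
    (by
      intro z hz
      refine hB z fun i => ?_
      have h1 := hz.1 i
      have h2 := hz.2 i
      simp only at h1 h2
      rw [abs_le]
      constructor <;> linarith)
  have hU := sh2_pos_isOpen D
  have hG : ContDiffOn ℝ 1 (sh2_val m' α' β' D) {u : Fin 3 → ℝ | 0 < MvPolynomial.eval u D} := sh2_val_contDiffOn m' α' β' D 1
  have hq : ∀ s ∈ Set.Icc (0 : ℝ) 1, ∀ i, |(y + s • (x - y)) i - c i| ≤ r / 4 := by
    intro s hs i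
    have e : (y + s • (x - y)) i - c i = (1 - s) * (y i - c i) + s * (x i - c i) := by
      simp only [Pi.add_apply, Pi.smul_apply, Pi.sub_apply, smul_eq_mul]
      ring
    rw [e]
    have h1 := abs_le.1 (hx i)
    have h2 := abs_le.1 (hy i)
    have hs0 := hs.1
    have hs1 : 0 ≤ 1 - s := by linarith [hs.2]
    rw [abs_le]
    constructor <;> nlinarith
  have key := k7f_a3_mvt hU hG x y (C₃ * (kap / 1) ^ p * B₁ * (‖x - y‖ / (r / 2)) ^ 1)
    (fun s hs => sh2_stable_pos hkap hst (k7f_a3_mem c _ (r / 4) r (by linarith) (hq s hs)))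
    (fun s hs => sh2_Bd_cube 1 c (r / 2) (by positivity) _ _ hBd _ (fun i => by
      have := hq s hs i
      have e : r / 2 / 2 = r / 4 := by ring
      rw [e]
      exact this) (x - y) 1 le_rfl)
  refine key.trans (le_of_eq ?_)
  rw [div_one, pow_one]
  field_simp

theorem k7f_a3_vX (q : Fin 3 → ℝ) (K : ℝ) (hK : 1 ≤ K) (hq : ∀ i, |q i| ≤ K) : ‖hsb_vX q‖ ≤ K := by
  rw [pi_norm_le_iff_of_nonneg (by linarith)]
  intro i
  fin_cases i
  · simp [hsb_vX]; exact hK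
  · simp [hsb_vX]; linarith
  · simp [hsb_vX]; exact hq 1

theorem k7f_a3_vZ (q : Fin 3 → ℝ) (K : ℝ) (hK : 1 ≤ K) (hq : ∀ i, |q i| ≤ K) : ‖hsb_vZ q‖ ≤ K := by
  rw [pi_norm_le_iff_of_nonneg (by linarith)]
  intro i
  fin_cases i
  · simp [hsb_vZ]; linarith
  · simp [hsb_vZ]; exact hK
  · simp [hsb_vZ]; exact hq 0

/-- points of the cube are bounded by `K` -/
theorem k7f_a3_pt (c q : Fin 3 → ℝ) (r K : ℝ) (hr1 : r ≤ 1) (hc : ‖c‖ + 1 ≤ K) (hq : ∀ i, |q i - c i| ≤ r) (i : Fin 3) : |q i| ≤ K := by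
  have h1 := norm_le_pi_norm c i
  rw [Real.norm_eq_abs] at h1
  have h2 : |q i| ≤ |q i - c i| + |c i| := by
    have := abs_add_le (q i - c i) (c i)
    simpa using this
  linarith [hq i]

/-- the three second order quantities on the half cube -/
theorem k7f_a3_abc (d m : ℕ) (hd : 1 ≤ d) : ∃ (p : ℕ) (C : ℝ), 1 ≤ C ∧
    ∀ (kap K : ℝ) (α L β D : MvPolynomial (Fin 3) ℝ) (c : Fin 3 → ℝ) (r M : ℝ), 1 ≤ kap → 1 ≤ K →
      α.totalDegree ≤ d → L.totalDegree ≤ 1 → β.totalDegree ≤ d → D.totalDegree ≤ d → 0 < r → r ≤ 1 → ‖c‖ + 1 ≤ K →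
      sh2Stable kap D (fun i => c i - r) (fun i => c i + r) → (∀ x ∈ k7fCube c r, |sh2_val m α β D x - MvPolynomial.eval x L| ≤ M) →
      ∀ x : Fin 3 → ℝ, (∀ i, |x i - c i| ≤ r / 2) →
        |hsb_A (sh2_val m α β D) x| ≤ C * kap ^ p * M / r ^ 2 * K ^ 2 ∧ |hsb_B (sh2_val m α β D) x| ≤ C * kap ^ p * M / r ^ 2 * K ^ 2 ∧
        |hsb_C (sh2_val m α β D) x| ≤ C * kap ^ p * M / r ^ 2 * K ^ 2 := by
  obtain ⟨p, C₂, hC₂, hh⟩ := k7f_hess_bd d m hd
  refine ⟨p, 2 * C₂, by linarith, ?_⟩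
  intro kap K α L β D c r M hkap hK hα hL hβ hD hr hr1 hc hst hM x hx
  have hU := sh2_pos_isOpen D
  have hf : ContDiffOn ℝ 2 (sh2_val m α β D) {u : Fin 3 → ℝ | 0 < MvPolynomial.eval u D} := sh2_val_contDiffOn m α β D 2
  have hmem : x ∈ {u : Fin 3 → ℝ | 0 < MvPolynomial.eval u D} :=
    sh2_stable_pos hkap hst (k7f_a3_mem c x (r / 2) r (by linarith) hx)
  obtain ⟨-, -, -, eA, eB, eC⟩ := hsb_six hU hf hmem
  have hxK : ∀ i, |x i| ≤ K := k7f_a3_pt c x r K hr1 hc (fun i => (hx i).trans (by linarith))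
  have nX := k7f_a3_vX x K hK hxK
  have nZ := k7f_a3_vZ x K hK hxK
  have hM0 : 0 ≤ M := by
    have hcc : c ∈ k7fCube c r := k7f_a3_mem c c 0 r hr.le (fun i => by simp)
    exact (abs_nonneg _).trans (hM c hcc)
  have hB0 : 0 ≤ C₂ * kap ^ p * M / r ^ 2 := by positivity
  have gen : ∀ u w : Fin 3 → ℝ, ‖u‖ ≤ K → ‖w‖ ≤ K → |hsb_H (sh2_val m α β D) x u w| ≤ C₂ * kap ^ p * M / r ^ 2 * K ^ 2 := by
    intro u w hu hw
    refine (hh kap α L β D c r M hkap hα hL hβ hD hr hst hM x hx u w).trans ?_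
    calc C₂ * kap ^ p * M / r ^ 2 * ‖u‖ * ‖w‖ ≤ C₂ * kap ^ p * M / r ^ 2 * K * K := by gcongr
      _ = _ := by ring
  have hpos : 0 ≤ C₂ * kap ^ p * M / r ^ 2 * K ^ 2 := by positivity
  have e2 : 2 * C₂ * kap ^ p * M / r ^ 2 * K ^ 2 = 2 * (C₂ * kap ^ p * M / r ^ 2 * K ^ 2) := by ring
  rw [e2, eA, eB, eC]
  refine ⟨(gen _ _ nX nX).trans (by linarith), (gen _ _ nZ nZ).trans (by linarith), ?_⟩
  rw [abs_mul, abs_of_pos (by norm_num : (0 : ℝ) < 2)]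
  have := gen _ _ nX nZ
  linarith

/-- **L-252-S7f-A3 (transfer of the base point, 07 l.1160-1163; ~300 l.).**   `𝒳²f, 𝒵²f, (𝒳𝒵+𝒵𝒳)f` are Lipschitz on the quarter cube with constant `C K² kap^p M / r³`.
PROOF.  On the half cube `|hsb_A f x| = |hsb_H f x (hsb_vX x) (hsb_vX x)| ≤ B₁ := C₂ kap^p₂ M K² / r²` (`hsb_six`, `k7f_hess_bd`, `‖hsb_vX x‖ ≤ K`), the same for `B`, `C` (factor 2).
On `{D > 0}` these functions are members `G` of the class `m + 2`, degree `≤ 3 d` (`sh2_hsb_A_val`, .. ; degrees as in the proof of `sh2_heis_hessian`).   `sh2_remez 3 (3 d) 1 (m + 2)` on the HALF cube (`sh2_stable_mono`), `E =` the half cube, `θ = 1`: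
`sh2Bd 1 .. G (C₃ kap^p₃ B₁)`; `sh2_Bd_cube` (radius `r/2`): `|deriv (s ↦ G (q + s • a)) 0| ≤ C₃ kap^p₃ B₁ ‖a‖ / (r/2)` at all points `q` of the quarter cube.   Mean value theorem on the segment `[y, x]` (the quarter cube is convex). -/
theorem k7f_abc_lip (d m : ℕ) (hd : 1 ≤ d) : ∃ (p : ℕ) (C : ℝ), 1 ≤ C ∧
    ∀ (kap K : ℝ) (α L β D : MvPolynomial (Fin 3) ℝ) (c : Fin 3 → ℝ) (r M : ℝ), 1 ≤ kap → 1 ≤ K →
      α.totalDegree ≤ d → L.totalDegree ≤ 1 → β.totalDegree ≤ d → D.totalDegree ≤ d → 0 < r → r ≤ 1 → ‖c‖ + 1 ≤ K →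
      sh2Stable kap D (fun i => c i - r) (fun i => c i + r) → (∀ x ∈ k7fCube c r, |sh2_val m α β D x - MvPolynomial.eval x L| ≤ M) →
      ∀ x y : Fin 3 → ℝ, (∀ i, |x i - c i| ≤ r / 4) → (∀ i, |y i - c i| ≤ r / 4) →
        |hsb_A (sh2_val m α β D) x - hsb_A (sh2_val m α β D) y| ≤ C * K ^ 2 * kap ^ p * M / r ^ 3 * ‖x - y‖ ∧
        |hsb_B (sh2_val m α β D) x - hsb_B (sh2_val m α β D) y| ≤ C * K ^ 2 * kap ^ p * M / r ^ 3 * ‖x - y‖ ∧
        |hsb_C (sh2_val m α β D) x - hsb_C (sh2_val m α β D) y| ≤ C * K ^ 2 * kap ^ p * M / r ^ 3 * ‖x - y‖ := by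
  obtain ⟨p₁, C₁, hC₁, habc⟩ := k7f_a3_abc d m hd
  obtain ⟨p₂, C₂, hC₂, hgen⟩ := k7f_a3_gen (3 * d) (m + 2)
  refine ⟨p₂ + p₁, C₂ * C₁, one_le_mul_of_one_le_of_one_le hC₂ hC₁, ?_⟩
  intro kap K α L β D c r M hkap hK hα hL hβ hD hr hr1 hc hst hM x y hx hy
  have hpos : ∀ z : Fin 3 → ℝ, (∀ i, |z i - c i| ≤ r / 2) → 0 < MvPolynomial.eval z D := fun z hz =>
    sh2_stable_pos hkap hst (k7f_a3_mem c z (r / 2) r (by linarith) hz)
  have hx2 : ∀ i, |x i - c i| ≤ r / 2 := fun i => (hx i).trans (by linarith)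
  have hy2 : ∀ i, |y i - c i| ≤ r / 2 := fun i => (hy i).trans (by linarith)
  have hbd := habc kap K α L β D c r M hkap hK hα hL hβ hD hr hr1 hc hst hM
  have e : C₂ * kap ^ p₂ * (C₁ * kap ^ p₁ * M / r ^ 2 * K ^ 2) / r * ‖x - y‖
      = C₂ * C₁ * K ^ 2 * kap ^ (p₂ + p₁) * M / r ^ 3 * ‖x - y‖ := by
    rw [pow_add]
    field_simp
  have dD3 : D.totalDegree ≤ 3 * d := by omega
  have dnX : ∀ (k : ℕ) (γ : MvPolynomial (Fin 3) ℝ), γ.totalDegree ≤ 2 * d → (sh2_nX k γ D).totalDegree ≤ 3 * d := fun k γ h =>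
    (sh2_nX_totalDegree k γ D).trans (by omega)
  have dnZ : ∀ (k : ℕ) (γ : MvPolynomial (Fin 3) ℝ), γ.totalDegree ≤ 2 * d → (sh2_nZ k γ D).totalDegree ≤ 3 * d := fun k γ h =>
    (sh2_nZ_totalDegree k γ D).trans (by omega)
  have dX1 : (sh2_nX m β D).totalDegree ≤ 2 * d := (sh2_nX_totalDegree m β D).trans (by omega)
  have dZ1 : (sh2_nZ m β D).totalDegree ≤ 2 * d := (sh2_nZ_totalDegree m β D).trans (by omega)
  have dpX : ∀ γ : MvPolynomial (Fin 3) ℝ, γ.totalDegree ≤ d → (sh2_pX γ).totalDegree ≤ d := fun γ h => (sh2_pX_totalDegree γ).trans h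
  have dpZ : ∀ γ : MvPolynomial (Fin 3) ℝ, γ.totalDegree ≤ d → (sh2_pZ γ).totalDegree ≤ d := fun γ h => (sh2_pZ_totalDegree γ).trans h
  refine ⟨?_, ?_, ?_⟩
  · rw [sh2_hsb_A_val m α β D x (hpos x hx2), sh2_hsb_A_val m α β D y (hpos y hy2), ← e]
    refine hgen kap _ _ D c r _ hkap ((dpX _ (dpX _ hα)).trans (by omega)) (dnX _ _ dX1) dD3 hr hst ?_ x y hx hy
    intro z hz
    rw [← sh2_hsb_A_val m α β D z (hpos z hz)]
    exact (hbd z hz).1
  · rw [sh2_hsb_B_val m α β D x (hpos x hx2), sh2_hsb_B_val m α β D y (hpos y hy2), ← e]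
    refine hgen kap _ _ D c r _ hkap ((dpZ _ (dpZ _ hα)).trans (by omega)) (dnZ _ _ dZ1) dD3 hr hst ?_ x y hx hy
    intro z hz
    rw [← sh2_hsb_B_val m α β D z (hpos z hz)]
    exact (hbd z hz).2.1
  · rw [sh2_hsb_C_val m α β D x (hpos x hx2), sh2_hsb_C_val m α β D y (hpos y hy2), ← e]
    refine hgen kap _ _ D c r _ hkap
      ((MvPolynomial.totalDegree_add _ _).trans (max_le ((dpX _ (dpZ _ hα)).trans (by omega)) ((dpZ _ (dpX _ hα)).trans (by omega))))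
      ((MvPolynomial.totalDegree_add _ _).trans (max_le (dnX _ _ dZ1) (dnZ _ _ dX1))) dD3 hr hst ?_ x y hx hy
    intro z hz
    rw [← sh2_hsb_C_val m α β D z (hpos z hz)]
    exact (hbd z hz).2.2

theorem k7f_a4_dir (q : Fin 3 → ℝ) (v δ : ℝ) : k7fDir q v δ = hsb_vX q + v • hsb_vZ q + δ • (Pi.single 2 1 : Fin 3 → ℝ) := by
  funext i
  fin_cases i
  · simp [k7fDir, hsb_vX, hsb_vZ]
  · simp [k7fDir, hsb_vX, hsb_vZ]
  · simp [k7fDir, hsb_vX, hsb_vZ]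
    ring

theorem k7f_a4_e2 : ‖(Pi.single 2 1 : Fin 3 → ℝ)‖ = 1 := by
  rw [Pi.norm_single]
  simp

/-- one witness: the Hessian on the actual direction against the quadratic in the velocity -/
theorem k7f_a4_one (β : (Fin 3 → ℝ) →L[ℝ] (Fin 3 → ℝ) →L[ℝ] ℝ) (hs : ∀ a b, β a b = β b a) (BH K η : ℝ)
    (hB : ∀ a b, |β a b| ≤ BH * ‖a‖ * ‖b‖) (q : Fin 3 → ℝ) (v δ : ℝ) (hK : 1 ≤ K) (hq : ∀ i, |q i| ≤ K) (hv : |v| ≤ K)
    (hδ : |δ| ≤ η) (hη1 : η ≤ 1) :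
    |β (k7fDir q v δ) (k7fDir q v δ) - (β (hsb_vX q) (hsb_vX q) + 2 * β (hsb_vX q) (hsb_vZ q) * v + β (hsb_vZ q) (hsb_vZ q) * v ^ 2)|
      ≤ 5 * K ^ 2 * η * BH := by
  have hη0 : 0 ≤ η := (abs_nonneg _).trans hδ
  have hBH : 0 ≤ BH := by
    have := (abs_nonneg _).trans (hB (Pi.single 2 1) (Pi.single 2 1))
    rw [k7f_a4_e2] at this
    linarith
  obtain ⟨W₀, hW₀⟩ : ∃ W₀, W₀ = hsb_vX q + v • hsb_vZ q := ⟨_, rfl⟩
  have nW : ‖W₀‖ ≤ 2 * K ^ 2 := by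
    rw [hW₀]
    refine (norm_add_le _ _).trans ?_
    rw [norm_smul, Real.norm_eq_abs]
    have h1 := k7f_a3_vX q K hK hq
    have h2 := k7f_a3_vZ q K hK hq
    have h3 : |v| * ‖hsb_vZ q‖ ≤ K * K := mul_le_mul hv h2 (norm_nonneg _) (by linarith)
    nlinarith
  have e : β (k7fDir q v δ) (k7fDir q v δ) - (β (hsb_vX q) (hsb_vX q) + 2 * β (hsb_vX q) (hsb_vZ q) * v + β (hsb_vZ q) (hsb_vZ q) * v ^ 2)
      = 2 * δ * β W₀ (Pi.single 2 1) + δ ^ 2 * β (Pi.single 2 1) (Pi.single 2 1) := by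
    rw [k7f_a4_dir, hW₀]
    simp only [map_add, map_smul, add_apply, smul_apply, smul_eq_mul]
    rw [hs (hsb_vZ q) (hsb_vX q), hs (Pi.single 2 1) (hsb_vX q), hs (Pi.single 2 1) (hsb_vZ q)]
    ring
  rw [e]
  have b1 := hB W₀ (Pi.single 2 1)
  have b2 := hB (Pi.single 2 1) (Pi.single 2 1)
  rw [k7f_a4_e2] at b1 b2
  have c1 : |2 * δ * β W₀ (Pi.single 2 1)| ≤ 2 * η * (BH * (2 * K ^ 2)) := by
    rw [abs_mul, abs_mul, abs_of_pos (by norm_num : (0 : ℝ) < 2)]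
    have : |β W₀ (Pi.single 2 1)| ≤ BH * (2 * K ^ 2) := by
      refine b1.trans ?_
      rw [mul_one]
      gcongr
    gcongr
  have c2 : |δ ^ 2 * β (Pi.single 2 1) (Pi.single 2 1)| ≤ η * BH := by
    rw [abs_mul, abs_pow]
    have h1 : |δ| ^ 2 ≤ η := by
      have : |δ| ^ 2 ≤ η ^ 2 := pow_le_pow_left₀ (abs_nonneg _) hδ 2
      nlinarith
    have h2 : |β (Pi.single 2 1) (Pi.single 2 1)| ≤ BH := by linarith
    exact mul_le_mul h1 h2 (abs_nonneg _) hη0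
  have hK2 : 1 ≤ K ^ 2 := one_le_pow₀ hK
  have hηB : 0 ≤ η * BH := by positivity
  calc |2 * δ * β W₀ (Pi.single 2 1) + δ ^ 2 * β (Pi.single 2 1) (Pi.single 2 1)|
      ≤ |2 * δ * β W₀ (Pi.single 2 1)| + |δ ^ 2 * β (Pi.single 2 1) (Pi.single 2 1)| := abs_add_le _ _
    _ ≤ 2 * η * (BH * (2 * K ^ 2)) + η * BH := by linarith
    _ ≤ 5 * K ^ 2 * η * BH := by nlinarith

theorem k7f_a4_tri (h g g' E1 e1 e2 : ℝ) (h1 : |h - g| ≤ e1) (h2 : |g' - g| ≤ e2) (h3 : |h| ≤ E1) : |g'| ≤ E1 + e1 + e2 := by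
  have a1 := abs_le.1 h1
  have a2 := abs_le.1 h2
  have a3 := abs_le.1 h3
  rw [abs_le]
  constructor <;> linarith [a1.1, a1.2, a2.1, a2.2, a3.1, a3.2]

theorem k7f_a4_diff (a b c a' b' c' v K Λ : ℝ) (hK : 1 ≤ K) (hv : |v| ≤ K) (ha : |a - a'| ≤ Λ) (hb : |b - b'| ≤ Λ) (hc : |c - c'| ≤ Λ) :
    |(a + c * v + b * v ^ 2) - (a' + c' * v + b' * v ^ 2)| ≤ 3 * K ^ 2 * Λ := by
  have hΛ0 : 0 ≤ Λ := (abs_nonneg _).trans ha
  have hv2 : |v| ^ 2 ≤ K ^ 2 := pow_le_pow_left₀ (abs_nonneg _) hv 2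
  have e : (a + c * v + b * v ^ 2) - (a' + c' * v + b' * v ^ 2) = (a - a') + (c - c') * v + (b - b') * v ^ 2 := by ring
  rw [e]
  have t2 : |(c - c') * v| ≤ Λ * K := by
    rw [abs_mul]
    exact mul_le_mul hc hv (abs_nonneg _) hΛ0
  have t3 : |(b - b') * v ^ 2| ≤ Λ * K ^ 2 := by
    rw [abs_mul, abs_pow]
    exact mul_le_mul hb hv2 (by positivity) hΛ0
  have hK2 : K ≤ K ^ 2 := by nlinarith
  have hK21 : 1 ≤ K ^ 2 := one_le_pow₀ hK
  calc |(a - a') + (c - c') * v + (b - b') * v ^ 2| ≤ |a - a'| + |(c - c') * v| + |(b - b') * v ^ 2| := abs_add_three _ _ _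
    _ ≤ Λ + Λ * K + Λ * K ^ 2 := by linarith
    _ ≤ 3 * K ^ 2 * Λ := by nlinarith

/-- the constants of `k7f_abc_pt` -/
theorem k7f_a4_const (C₂ C₃ kap K M η r E1 : ℝ) (p₂ p₃ : ℕ) (hC₂ : 1 ≤ C₂) (hC₃ : 1 ≤ C₃) (hkap : 1 ≤ kap) (hK : 1 ≤ K) (hM0 : 0 ≤ M)
    (hη0 : 0 ≤ η) (hr : 0 < r) (hr1 : r ≤ 1) (hE10 : 0 ≤ E1) :
    E1 + 5 * K ^ 2 * η * (C₂ * kap ^ p₂ * M / r ^ 2) + 3 * K ^ 2 * (C₃ * K ^ 2 * kap ^ p₃ * M / r ^ 3 * η)
      ≤ (5 * C₂ + 3 * C₃) * K ^ 4 * (E1 + kap ^ (p₂ + p₃) * M * η / r ^ 3) := by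
  obtain ⟨T, hT⟩ : ∃ T : ℝ, T = kap ^ (p₂ + p₃) * M * η / r ^ 3 := ⟨_, rfl⟩
  rw [← hT]
  have hT0 : 0 ≤ T := by rw [hT]; positivity
  have hk2 : kap ^ p₂ ≤ kap ^ (p₂ + p₃) := pow_le_pow_right₀ hkap (Nat.le_add_right _ _)
  have hk3 : kap ^ p₃ ≤ kap ^ (p₂ + p₃) := pow_le_pow_right₀ hkap (Nat.le_add_left _ _)
  have hr23 : r ^ 3 ≤ r ^ 2 := by
    have : 0 ≤ r ^ 2 := by positivity
    nlinarith
  have hK24 : K ^ 2 ≤ K ^ 4 := pow_le_pow_right₀ hK (by norm_num)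
  have hK41 : 1 ≤ K ^ 4 := one_le_pow₀ hK
  have s1 : 5 * K ^ 2 * η * (C₂ * kap ^ p₂ * M / r ^ 2) ≤ 5 * C₂ * K ^ 4 * T := by
    have h3 : kap ^ p₂ * M * η / r ^ 2 ≤ T := by
      rw [hT]
      exact div_le_div₀ (by positivity) (by gcongr) (by positivity) hr23
    calc 5 * K ^ 2 * η * (C₂ * kap ^ p₂ * M / r ^ 2) = 5 * C₂ * K ^ 2 * (kap ^ p₂ * M * η / r ^ 2) := by ring
      _ ≤ 5 * C₂ * K ^ 4 * T := by gcongr
  have s2 : 3 * K ^ 2 * (C₃ * K ^ 2 * kap ^ p₃ * M / r ^ 3 * η) ≤ 3 * C₃ * K ^ 4 * T := by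
    have h3 : kap ^ p₃ * M * η / r ^ 3 ≤ T := by
      rw [hT]
      gcongr
    calc 3 * K ^ 2 * (C₃ * K ^ 2 * kap ^ p₃ * M / r ^ 3 * η) = 3 * C₃ * K ^ 4 * (kap ^ p₃ * M * η / r ^ 3) := by ring
      _ ≤ 3 * C₃ * K ^ 4 * T := by gcongr
  have hE : E1 ≤ (5 * C₂ + 3 * C₃) * K ^ 4 * E1 :=
    le_mul_of_one_le_left hE10 (one_le_mul_of_one_le_of_one_le (by linarith) hK41)
  calc E1 + 5 * K ^ 2 * η * (C₂ * kap ^ p₂ * M / r ^ 2) + 3 * K ^ 2 * (C₃ * K ^ 2 * kap ^ p₃ * M / r ^ 3 * η)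
      ≤ (5 * C₂ + 3 * C₃) * K ^ 4 * E1 + 5 * C₂ * K ^ 4 * T + 3 * C₃ * K ^ 4 * T := by linarith
    _ = (5 * C₂ + 3 * C₃) * K ^ 4 * (E1 + T) := by ring

/-- **L-252-S7f-A4 (three separated witnesses at one point, 07 l.1153-1179; ~250 l.).**   Witnesses `i = 0, 1, 2`: points `uu i` within `η` of `u`, velocities `vv i` (bounded by `K`, separated by `1/K`), defects `|dd i| ≤ η`,
Hessian twice on the ACTUAL direction `k7fDir (uu i) (vv i) (dd i)` bounded by `E1`.   Then `𝒳²f, 𝒵²f, (𝒳𝒵+𝒵𝒳)f` are `≤ C K⁸ (E1 + kap^p M η / r³)` at `u`.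
PROOF.  `g_v := hsb_A f + v hsb_C f + v² hsb_B f`;  `g_v (q) = hsb_H f q (k7fDir q v 0) (k7fDir q v 0)` (`hsb_six`, `hsb_H_symm`, bilinearity; `k7fDir q v 0 = hsb_vX q + v • hsb_vZ q`).
`k7fDir q v δ = k7fDir q v 0 + δ • e₂`:  `|H(W,W) - g_v (uu i)| ≤ (2 η ‖k7fDir q v 0‖ + η²) B`, `B` from `k7f_hess_bd`, `‖k7fDir q v 0‖ ≤ 2 K²`;   `|g_v (u) - g_v (uu i)| ≤ (1 + K + K²) Lip η` (`k7f_abc_lip`).   Then `k7b_quad_interp` (`a = A`, `b = C`, `c = B`). -/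
theorem k7f_abc_pt (d m : ℕ) (hd : 1 ≤ d) : ∃ (p : ℕ) (C : ℝ), 1 ≤ C ∧
    ∀ (kap K : ℝ) (α L β D : MvPolynomial (Fin 3) ℝ) (c : Fin 3 → ℝ) (r M E1 η : ℝ) (u : Fin 3 → ℝ) (uu : Fin 3 → Fin 3 → ℝ) (vv dd : Fin 3 → ℝ), 1 ≤ kap → 1 ≤ K →
      α.totalDegree ≤ d → L.totalDegree ≤ 1 → β.totalDegree ≤ d → D.totalDegree ≤ d → 0 < r → r ≤ 1 → ‖c‖ + 1 ≤ K → 0 ≤ η → η ≤ 1 →
      sh2Stable kap D (fun i => c i - r) (fun i => c i + r) → (∀ x ∈ k7fCube c r, |sh2_val m α β D x - MvPolynomial.eval x L| ≤ M) →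
      (∀ j, |u j - c j| ≤ r / 4) → (∀ i j, |uu i j - c j| ≤ r / 4) → (∀ i, ‖uu i - u‖ ≤ η) → (∀ i, |vv i| ≤ K) → (∀ i, |dd i| ≤ η) →
      (∀ i j, i ≠ j → 1 / K ≤ |vv i - vv j|) →
      (∀ i, |hsb_H (sh2_val m α β D) (uu i) (k7fDir (uu i) (vv i) (dd i)) (k7fDir (uu i) (vv i) (dd i))| ≤ E1) →
      |hsb_A (sh2_val m α β D) u| ≤ C * K ^ 8 * (E1 + kap ^ p * M * η / r ^ 3) ∧
      |hsb_B (sh2_val m α β D) u| ≤ C * K ^ 8 * (E1 + kap ^ p * M * η / r ^ 3) ∧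
      |hsb_C (sh2_val m α β D) u| ≤ C * K ^ 8 * (E1 + kap ^ p * M * η / r ^ 3) := by
  obtain ⟨p₂, C₂, hC₂, hhess⟩ := k7f_hess_bd d m hd
  obtain ⟨p₃, C₃, hC₃, hlip⟩ := k7f_abc_lip d m hd
  refine ⟨p₂ + p₃, 15 * (5 * C₂ + 3 * C₃), by linarith, ?_⟩
  intro kap K α L β D c r M E1 η u uu vv dd hkap hK hα hL hβ hD hr hr1 hc hη0 hη1 hst hM hu huu hclose hvv hdd hsep hE1
  have hU := sh2_pos_isOpen D
  have hf : ContDiffOn ℝ 2 (sh2_val m α β D) {u : Fin 3 → ℝ | 0 < MvPolynomial.eval u D} := sh2_val_contDiffOn m α β D 2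
  have hM0 : 0 ≤ M := by
    have hcc : c ∈ k7fCube c r := k7f_a3_mem c c 0 r hr.le (fun i => by simp)
    exact (abs_nonneg _).trans (hM c hcc)
  have hE10 : 0 ≤ E1 := (abs_nonneg _).trans (hE1 0)
  have hhess' := hhess kap α L β D c r M hkap hα hL hβ hD hr hst hM
  have hlip' := hlip kap K α L β D c r M hkap hK hα hL hβ hD hr hr1 hc hst hM
  obtain ⟨f, hfdef⟩ : ∃ f, f = sh2_val m α β D := ⟨_, rfl⟩
  rw [← hfdef] at hE1 hf hhess' hlip' ⊢
  obtain ⟨X, hX⟩ : ∃ X : ℝ, X = (5 * C₂ + 3 * C₃) * K ^ 4 * (E1 + kap ^ (p₂ + p₃) * M * η / r ^ 3) := ⟨_, rfl⟩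
  -- the bound at each witness
  have hwit : ∀ i, |hsb_A f u + hsb_C f u * vv i + hsb_B f u * vv i ^ 2| ≤ X := by
    intro i
    have hq2 : ∀ j, |uu i j - c j| ≤ r / 2 := fun j => (huu i j).trans (by linarith)
    have hmem : uu i ∈ {u : Fin 3 → ℝ | 0 < MvPolynomial.eval u D} :=
      sh2_stable_pos hkap hst (k7f_a3_mem c _ (r / 2) r (by linarith) hq2)
    obtain ⟨-, -, -, eA, eB, eC⟩ := hsb_six hU hf hmem
    have hqK : ∀ j, |uu i j| ≤ K := k7f_a3_pt c _ r K hr1 hc (fun j => (huu i j).trans (by linarith))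
    have h1 := k7f_a4_one (fderiv ℝ (fderiv ℝ f) (uu i)) (fun a b => hsb_H_symm hU hf hmem a b) (C₂ * kap ^ p₂ * M / r ^ 2) K η
      (fun a b => hhess' (uu i) hq2 a b) (uu i) (vv i) (dd i) hK hqK (hvv i) (hdd i) hη1
    have h1' : |hsb_H f (uu i) (k7fDir (uu i) (vv i) (dd i)) (k7fDir (uu i) (vv i) (dd i))
        - (hsb_A f (uu i) + hsb_C f (uu i) * vv i + hsb_B f (uu i) * vv i ^ 2)| ≤ 5 * K ^ 2 * η * (C₂ * kap ^ p₂ * M / r ^ 2) := by
      rw [eA, eB, eC]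
      exact h1
    obtain ⟨lA, lB, lC⟩ := hlip' u (uu i) hu (huu i)
    have hn : ‖u - uu i‖ ≤ η := by rw [norm_sub_rev]; exact hclose i
    have hle : C₃ * K ^ 2 * kap ^ p₃ * M / r ^ 3 * ‖u - uu i‖ ≤ C₃ * K ^ 2 * kap ^ p₃ * M / r ^ 3 * η := by gcongr
    have hdiff := k7f_a4_diff _ _ _ _ _ _ (vv i) K _ hK (hvv i) (lA.trans hle) (lB.trans hle) (lC.trans hle)
    rw [hX]
    exact (k7f_a4_tri _ _ _ _ _ _ h1' hdiff (hE1 i)).trans
      (k7f_a4_const C₂ C₃ kap K M η r E1 p₂ p₃ hC₂ hC₃ hkap hK hM0 hη0 hr hr1 hE10)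
  obtain ⟨iB, iC, iA⟩ := k7b_quad_interp hK (hvv 0) (hvv 1) (hsep 0 1 (by decide)) (hsep 0 2 (by decide)) (hsep 1 2 (by decide))
    (hwit 0) (hwit 1) (hwit 2)
  have hX0 : 0 ≤ X := (abs_nonneg _).trans (hwit 0)
  have hK0 : 0 ≤ K ^ 4 := by positivity
  have hK2 : K ^ 2 ≤ K ^ 4 := pow_le_pow_right₀ hK (by norm_num)
  have hK3 : K ^ 3 ≤ K ^ 4 := pow_le_pow_right₀ hK (by norm_num)
  have e : 15 * (5 * C₂ + 3 * C₃) * K ^ 8 * (E1 + kap ^ (p₂ + p₃) * M * η / r ^ 3) = 15 * K ^ 4 * X := by rw [hX]; ring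
  rw [e]
  refine ⟨iA, iB.trans ?_, iC.trans ?_⟩
  · have : 4 * K ^ 2 ≤ 15 * K ^ 4 := by linarith
    gcongr
  · have : 10 * K ^ 3 ≤ 15 * K ^ 4 := by linarith
    gcongr

/-- an affine function as a polynomial of degree `≤ 1` -/
theorem k7f_a5_L (a0 : ℝ) (ℓ : (Fin 3 → ℝ) →L[ℝ] ℝ) (c : Fin 3 → ℝ) :
    ∃ L : MvPolynomial (Fin 3) ℝ, L.totalDegree ≤ 1 ∧ ∀ x, MvPolynomial.eval x L = a0 + ℓ (x - c) := by
  refine ⟨MvPolynomial.C a0 + ∑ i, MvPolynomial.C (ℓ (Pi.single i 1)) * (MvPolynomial.X i - MvPolynomial.C (c i)), ?_, ?_⟩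
  · refine (MvPolynomial.totalDegree_add _ _).trans (max_le (by simp) ?_)
    refine MvPolynomial.totalDegree_finsetSum_le fun i _ => ?_
    refine (MvPolynomial.totalDegree_mul _ _).trans ?_
    rw [MvPolynomial.totalDegree_C, zero_add]
    refine (MvPolynomial.totalDegree_sub _ _).trans ?_
    rw [MvPolynomial.totalDegree_X, MvPolynomial.totalDegree_C]
    simp
  · intro x
    have e : x - c = ∑ i, (x i - c i) • (Pi.single i 1 : Fin 3 → ℝ) := by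
      funext j
      simp [Finset.sum_apply, Pi.single_apply]
    rw [e, map_sum]
    simp only [map_add, map_sum, map_mul, map_sub, MvPolynomial.eval_C, MvPolynomial.eval_X, map_smul, smul_eq_mul]
    congr 1
    refine Finset.sum_congr rfl fun i _ => ?_
    ring

theorem k7f_a5_vol (c : Fin 3 → ℝ) (ρ : ℝ) (hρ : 0 ≤ ρ) :
    volume (Set.Icc (fun i => c i - ρ) (fun i => c i + ρ)) = ENNReal.ofReal ((2 * ρ) ^ 3) := by
  rw [Real.volume_Icc_pi]
  have e : ∀ i : Fin 3, c i + ρ - (c i - ρ) = 2 * ρ := fun i => by ring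
  simp only [e, Finset.prod_const, Finset.card_univ, Fintype.card_fin]
  rw [ENNReal.ofReal_pow (by positivity)]

/-- the constants of `k7f_an` -/
theorem k7f_a5_const (C₄ C₅ C₆ kap K θ r : ℝ) (p₄ p₅ p₆ : ℕ) (hC₄ : 1 ≤ C₄) (hC₅ : 1 ≤ C₅) (hC₆ : 1 ≤ C₆) (hkap : 1 ≤ kap) (hK : 1 ≤ K)
    (hθ : 0 < θ) (hθ1 : θ ≤ 1) (hr : 0 < r) (hr1 : r ≤ 1) :
    1 ≤ kap * K / (θ * r) ∧
    2 * (C₆ * (kap / (1 / 8)) ^ p₆ * (C₅ * K ^ 4 * (kap / (θ / 8)) ^ p₅ * (C₄ * K ^ 8)))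
      ≤ 2 * (C₄ * C₅ * C₆ * 8 ^ (p₅ + p₆)) * (kap * K / (θ * r)) ^ (p₄ + p₅ + p₆ + 15) ∧
    2 * (C₆ * (kap / (1 / 8)) ^ p₆ * (C₅ * K ^ 4 * (kap / (θ / 8)) ^ p₅ * (C₄ * K ^ 8))) * (kap ^ p₄ / r ^ 3)
      ≤ 2 * (C₄ * C₅ * C₆ * 8 ^ (p₅ + p₆)) * (kap * K / (θ * r)) ^ (p₄ + p₅ + p₆ + 15) := by
  obtain ⟨Y, hY⟩ : ∃ Y : ℝ, Y = kap * K / (θ * r) := ⟨_, rfl⟩
  rw [← hY]
  have hθr : 0 < θ * r := mul_pos hθ hr
  have hθr1 : θ * r ≤ 1 := by nlinarith
  have y1 : kap ≤ Y := by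
    rw [hY, le_div_iff₀ hθr]
    have : kap * (θ * r) ≤ kap * 1 := by gcongr
    nlinarith
  have y2 : K ≤ Y := by
    rw [hY, le_div_iff₀ hθr]
    have : K * (θ * r) ≤ K * 1 := by gcongr
    nlinarith
  have y3 : kap / θ ≤ Y := by
    rw [hY, div_le_div_iff₀ hθ hθr]
    have h1 : kap * (θ * r) ≤ kap * (θ * 1) := by gcongr
    have h2 : kap * θ * 1 ≤ kap * θ * K := by gcongr
    nlinarith
  have y4 : 1 / r ≤ Y := by
    rw [hY, div_le_div_iff₀ hr hθr]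
    have h1 : 1 * (θ * r) ≤ 1 * (1 * r) := by gcongr
    have h2 : 1 * r ≤ kap * K * r := by
      have : 1 ≤ kap * K := one_le_mul_of_one_le_of_one_le hkap hK
      gcongr
    nlinarith
  have hY1 : 1 ≤ Y := hkap.trans y1
  have hY0 : 0 ≤ Y := by linarith
  have e1 : 2 * (C₆ * (kap / (1 / 8)) ^ p₆ * (C₅ * K ^ 4 * (kap / (θ / 8)) ^ p₅ * (C₄ * K ^ 8)))
      = 2 * (C₄ * C₅ * C₆ * 8 ^ (p₅ + p₆)) * (kap ^ p₆ * (kap / θ) ^ p₅ * K ^ 12) := by
    have a1 : kap / (1 / 8) = 8 * kap := by ring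
    have a2 : kap / (θ / 8) = 8 * (kap / θ) := by field_simp
    rw [a1, a2, mul_pow, mul_pow, pow_add]
    ring
  have b1 : kap ^ p₆ * (kap / θ) ^ p₅ * K ^ 12 ≤ Y ^ (p₆ + p₅ + 12) := by
    rw [pow_add, pow_add]
    have h0 : 0 ≤ kap / θ := by positivity
    gcongr
  have b2 : kap ^ p₄ / r ^ 3 ≤ Y ^ (p₄ + 3) := by
    have : kap ^ p₄ / r ^ 3 = kap ^ p₄ * (1 / r) ^ 3 := by rw [one_div, inv_pow]; rfl
    rw [this, pow_add]
    have h0 : 0 ≤ 1 / r := by positivity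
    gcongr
  have hc0 : 0 ≤ 2 * (C₄ * C₅ * C₆ * 8 ^ (p₅ + p₆)) := by positivity
  refine ⟨hY1, ?_, ?_⟩
  · rw [e1]
    have := b1.trans (pow_le_pow_right₀ hY1 (by omega : p₆ + p₅ + 12 ≤ p₄ + p₅ + p₆ + 15))
    gcongr
  · rw [e1, mul_assoc]
    have h3 : kap ^ p₆ * (kap / θ) ^ p₅ * K ^ 12 * (kap ^ p₄ / r ^ 3) ≤ Y ^ (p₄ + p₅ + p₆ + 15) := by
      calc kap ^ p₆ * (kap / θ) ^ p₅ * K ^ 12 * (kap ^ p₄ / r ^ 3) ≤ Y ^ (p₆ + p₅ + 12) * Y ^ (p₄ + 3) := by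
            have h0 : 0 ≤ kap ^ p₄ / r ^ 3 := by positivity
            gcongr
        _ = Y ^ (p₄ + p₅ + p₆ + 15) := by rw [← pow_add]; congr 1; omega
    gcongr

/-- **L-252-S7f-A5 = EXIT OF THE ANALYTIC CORE (07 l.1131-1227; ~350 l.).**   `G` = ANY subset of the quarter cube of (outer) volume `≥ θ`, every point of which has three witnesses as in `k7f_abc_pt`.   If `η` is small, the sheet is within `C (kap K/(θ r))^p E1` of its
tangent plane at the centre, ON THE WHOLE CUBE.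
PROOF.  `L` := the polynomial of degree `≤ 1` with `eval x L = f c + fderiv ℝ f c (x - c)` (`C a + ∑ C (g i) * (X i - C (c i))`).   `f - L` is continuous on the compact cube (`sh2_val_contDiffOn`, `sh2_stable_pos`): `M := max |f - L|` is attained (`IsCompact.exists_isMaxOn`).
(1) `k7f_abc_pt` on `G`:  `|A|, |B|, |C| ≤ X := C₄ K⁸ (E1 + kap^p₄ M η / r³)`.   (2) `sh2_heis_affine d m` with `E = G`, relative measure `θ/8` (`volume (cube) = (2r)³ ≤ 8`): `|f - L| ≤ C₅ K⁴ (8 kap/θ)^p₅ X` on the half cube.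
(3) `sh2_remez 3 d 0 m` for `α - L` (`sh2_val_sub`), `E =` the half cube, relative measure `1/8`:  `M ≤ C₆ (8 kap)^p₆ C₅ K⁴ (8 kap/θ)^p₅ X`.   (4) `k7b_absorb`. -/
theorem k7f_an (d m : ℕ) (hd : 1 ≤ d) : ∃ (p : ℕ) (C : ℝ), 1 ≤ C ∧
    ∀ (kap K : ℝ) (α β D : MvPolynomial (Fin 3) ℝ) (c : Fin 3 → ℝ) (r θ E1 η : ℝ) (G : Set (Fin 3 → ℝ)), 1 ≤ kap → 1 ≤ K →
      α.totalDegree ≤ d → β.totalDegree ≤ d → D.totalDegree ≤ d → 0 < r → r ≤ 1 → ‖c‖ + 1 ≤ K → 0 < θ → θ ≤ 1 → 0 ≤ η →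
      sh2Stable kap D (fun i => c i - r) (fun i => c i + r) →
      (∀ u ∈ G, ∀ j, |u j - c j| ≤ r / 4) → ENNReal.ofReal θ ≤ volume G →
      (∀ u ∈ G, ∃ (uu : Fin 3 → Fin 3 → ℝ) (vv dd : Fin 3 → ℝ), (∀ i j, |uu i j - c j| ≤ r / 4) ∧ (∀ i, ‖uu i - u‖ ≤ η) ∧ (∀ i, |vv i| ≤ K) ∧ (∀ i, |dd i| ≤ η) ∧
        (∀ i j, i ≠ j → 1 / K ≤ |vv i - vv j|) ∧
        ∀ i, |hsb_H (sh2_val m α β D) (uu i) (k7fDir (uu i) (vv i) (dd i)) (k7fDir (uu i) (vv i) (dd i))| ≤ E1) →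
      C * (kap * K / (θ * r)) ^ p * η ≤ 1 →
      ∀ x ∈ k7fCube c r, |sh2_val m α β D x - sh2_val m α β D c - fderiv ℝ (sh2_val m α β D) c (x - c)| ≤ C * (kap * K / (θ * r)) ^ p * E1 := by
  obtain ⟨p₄, C₄, hC₄, hpt⟩ := k7f_abc_pt d m hd
  obtain ⟨p₅, C₅, hC₅, haff⟩ := sh2_heis_affine d m
  obtain ⟨p₆, C₆, hC₆, hrem⟩ := sh2_remez 3 d 0 m
  have h8 : (1 : ℝ) ≤ 8 ^ (p₅ + p₆) := one_le_pow₀ (by norm_num)
  have hc1 : 1 ≤ C₄ * C₅ * C₆ * 8 ^ (p₅ + p₆) :=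
    one_le_mul_of_one_le_of_one_le (one_le_mul_of_one_le_of_one_le (one_le_mul_of_one_le_of_one_le hC₄ hC₅) hC₆) h8
  refine ⟨p₄ + p₅ + p₆ + 15, 2 * (C₄ * C₅ * C₆ * 8 ^ (p₅ + p₆)), by linarith, ?_⟩
  intro kap K α β D c r θ E1 η G hkap hK hα hβ hD hr hr1 hc hθ hθ1 hη0 hst hG hvol hwit hsmall x hx
  obtain ⟨hY1, k1, k2⟩ := k7f_a5_const C₄ C₅ C₆ kap K θ r p₄ p₅ p₆ hC₄ hC₅ hC₆ hkap hK hθ hθ1 hr hr1
  obtain ⟨Γ, hΓ⟩ : ∃ Γ : ℝ, Γ = C₆ * (kap / (1 / 8)) ^ p₆ * (C₅ * K ^ 4 * (kap / (θ / 8)) ^ p₅ * (C₄ * K ^ 8)) := ⟨_, rfl⟩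
  obtain ⟨Z, hZ⟩ : ∃ Z : ℝ, Z = 2 * (C₄ * C₅ * C₆ * 8 ^ (p₅ + p₆)) * (kap * K / (θ * r)) ^ (p₄ + p₅ + p₆ + 15) := ⟨_, rfl⟩
  rw [← hΓ, ← hZ] at k1 k2
  rw [← hZ] at hsmall ⊢
  have hΓ0 : 0 ≤ Γ := by rw [hΓ]; positivity
  have hZ1 : 1 ≤ Z := by
    rw [hZ]
    exact one_le_mul_of_one_le_of_one_le (by linarith) (one_le_pow₀ hY1)
  have hη1 : η ≤ 1 := by nlinarith
  -- nonemptiness
  have hne : G.Nonempty := by
    by_contra hcon
    rw [Set.not_nonempty_iff_eq_empty] at hcon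
    rw [hcon, measure_empty, nonpos_iff_eq_zero, ENNReal.ofReal_eq_zero] at hvol
    linarith
  have hE10 : 0 ≤ E1 := by
    obtain ⟨u, hu⟩ := hne
    obtain ⟨uu, vv, dd, -, -, -, -, -, h6⟩ := hwit u hu
    exact (abs_nonneg _).trans (h6 0)
  -- the tangent plane
  obtain ⟨L, hL1, hLev⟩ := k7f_a5_L (sh2_val m α β D c) (fderiv ℝ (sh2_val m α β D) c) c
  have hU := sh2_pos_isOpen D
  have hbox := sh2_stable_pos hkap hst
  have hcont : ContinuousOn (fun z => |sh2_val m α β D z - MvPolynomial.eval z L|) (k7fCube c r) := by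
    have h1 : ContinuousOn (sh2_val m α β D) (k7fCube c r) := (sh2_val_contDiffOn m α β D 0).continuousOn.mono hbox
    have h2 : Continuous fun z : Fin 3 → ℝ => MvPolynomial.eval z L := (sh2_eval_contDiff L 0).continuous
    exact (h1.sub h2.continuousOn).abs
  have hcc : c ∈ k7fCube c r := k7f_a3_mem c c 0 r hr.le (fun i => by simp)
  obtain ⟨xs, hxs, hmax⟩ := (isCompact_Icc : IsCompact (k7fCube c r)).exists_isMaxOn ⟨c, hcc⟩ hcont
  obtain ⟨M, hMdef⟩ : ∃ M : ℝ, M = |sh2_val m α β D xs - MvPolynomial.eval xs L| := ⟨_, rfl⟩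
  have hM : ∀ z ∈ k7fCube c r, |sh2_val m α β D z - MvPolynomial.eval z L| ≤ M := by
    intro z hz
    rw [hMdef]
    exact hmax hz
  have hM0 : 0 ≤ M := by rw [hMdef]; exact abs_nonneg _
  -- (1)
  obtain ⟨X, hX⟩ : ∃ X : ℝ, X = C₄ * K ^ 8 * (E1 + kap ^ p₄ * M * η / r ^ 3) := ⟨_, rfl⟩
  have step1 : ∀ u ∈ G, |hsb_A (sh2_val m α β D) u| ≤ X ∧ |hsb_B (sh2_val m α β D) u| ≤ X ∧ |hsb_C (sh2_val m α β D) u| ≤ X := by
    intro u hu
    obtain ⟨uu, vv, dd, w1, w2, w3, w4, w5, w6⟩ := hwit u hu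
    rw [hX]
    exact hpt kap K α L β D c r M E1 η u uu vv dd hkap hK hα hL1 hβ hD hr hr1 hc hη0 hη1 hst hM (hG u hu) w1 w2 w3 w4 w5 w6
  -- (2)
  have hGsub : G ⊆ Set.Icc (fun i => c i - r) (fun i => c i + r) := fun u hu =>
    k7f_a3_mem c u (r / 4) r (by linarith) (hG u hu)
  have hvol2 : ENNReal.ofReal (θ / 8) * volume (Set.Icc (fun i => c i - r) (fun i => c i + r)) ≤ volume G := by
    rw [k7f_a5_vol c r hr.le, ← ENNReal.ofReal_mul (by positivity)]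
    refine le_trans (ENNReal.ofReal_le_ofReal ?_) hvol
    have : (2 * r) ^ 3 ≤ 8 := by
      have h2 : 2 * r ≤ 2 := by linarith
      calc (2 * r) ^ 3 ≤ 2 ^ 3 := pow_le_pow_left₀ (by positivity) h2 3
        _ = 8 := by norm_num
    nlinarith
  have step2 := haff kap K α β D c r (θ / 8) X G hkap hK hα hβ hD hr hr1 hst (by positivity) (by linarith) hGsub hvol2 step1
    (by
      intro q hq
      rw [pi_norm_le_iff_of_nonneg (by linarith)]
      intro i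
      rw [Real.norm_eq_abs]
      exact k7f_a3_pt c q r K hr1 hc (fun j => (hq j).trans (by linarith)) i)
  -- (3)
  have hdeg : (α - L).totalDegree ≤ d := (MvPolynomial.totalDegree_sub _ _).trans (max_le hα (hL1.trans hd))
  have hhalfsub : Set.Icc (fun i => c i - r / 2) (fun i => c i + r / 2) ⊆ Set.Icc (fun i => c i - r) (fun i => c i + r) := by
    intro z hz
    refine ⟨fun i => ?_, fun i => ?_⟩
    · have := hz.1 i
      show c i - r ≤ z i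
      simp only at this
      linarith
    · have := hz.2 i
      show z i ≤ c i + r
      simp only at this
      linarith
  have step3 := hrem kap (α - L) β D (fun i => c i - r) (fun i => c i + r) (1 / 8) (C₅ * K ^ 4 * (kap / (θ / 8)) ^ p₅ * X)
    (Set.Icc (fun i => c i - r / 2) (fun i => c i + r / 2)) hkap hdeg hβ hD (fun i => by linarith) hst (by norm_num) (by norm_num)
    hhalfsub
    (by
      rw [k7f_a5_vol c r hr.le, k7f_a5_vol c (r / 2) (by positivity), ← ENNReal.ofReal_mul (by norm_num)]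
      refine ENNReal.ofReal_le_ofReal (le_of_eq ?_)
      ring)
    (by
      intro z hz
      rw [sh2_val_sub, hLev z]
      have := step2 z (fun i => by
        have h1 := hz.1 i
        have h2 := hz.2 i
        simp only at h1 h2
        rw [abs_le]
        constructor <;> linarith)
      have e : sh2_val m α β D z - (sh2_val m α β D c + fderiv ℝ (sh2_val m α β D) c (z - c))
          = sh2_val m α β D z - sh2_val m α β D c - fderiv ℝ (sh2_val m α β D) c (z - c) := by ring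
      rw [e]
      exact this)
  have hMle : M ≤ Γ * E1 + (Γ * (kap ^ p₄ / r ^ 3) * η) * M := by
    have h1 := step3.1 xs hxs
    rw [sh2_val_sub, ← hMdef] at h1
    refine h1.trans (le_of_eq ?_)
    rw [hΓ, hX]
    ring
  -- (4)
  have habs : Γ * (kap ^ p₄ / r ^ 3) * η ≤ 1 / 2 := by
    have h1 : 2 * Γ * (kap ^ p₄ / r ^ 3) * η ≤ Z * η := by gcongr
    linarith
  have hfin := k7b_absorb hMle habs hM0
  have e : sh2_val m α β D x - sh2_val m α β D c - fderiv ℝ (sh2_val m α β D) c (x - c)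
      = sh2_val m α β D x - MvPolynomial.eval x L := by rw [hLev x]; ring
  rw [e]
  calc |sh2_val m α β D x - MvPolynomial.eval x L| ≤ M := hM x hx
    _ ≤ 2 * (Γ * E1) := hfin
    _ = 2 * Γ * E1 := by ring
    _ ≤ Z * E1 := by gcongr

end

end Claimed.Agent.R252
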