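-- KEEP
import Claimed.Agent.R252.S7f.AnContract

/-!
# Row 252, Sec. 7.5, post BP-252-S7b-S2, file 3: THE MEASURE PART (07 l.1117-1130, l.1153-1160).   CONTRACT: the `sorry`s are the leaves L-252-S7f-M1 .. M6      (sub-architect helper1; prefix `k7f_`)

PAPER-FREE.   Read only: `S7b/HorDefs` (record `K7bHor`), `S7b/HorLink` (predicate `K7bHor.Ok0`), `S7b/HorGrp` (`K7bPar.WF`), `State/KsState` (`KsLab`, `KsDom`, `KsOpt`, rules `ks_*`), `S7b/CoreB` (`k7b_support_mass`, `k7b_exists_sep3`), `S7f/Defs`.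
Prove IN PLACE (replace your `sorry`, helper lemmas directly above your theorem, prefix `k7f_m<i>_`).   Statements are frozen; defects: one line to helper1.
All deletions are ONE PASS: every floor is measured in the EARLIER selection (stored witnesses), never in the final one.
-/

set_option autoImplicit false

namespace Claimed.Agent.R252

open MeasureTheory
open scoped ENNReal BigOperators

noncomputable section

/-- regrouping a sum over entries by their labels, `≤ K` entries per label -/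
theorem k7f_m1_regroup {Sg Q : Type} [Fintype Sg] [DecidableEq Q] (lq : Sg → Q) (A : Finset Q) (f : Q → ℝ≥0∞) (K : ℝ)
    (hcard : ∀ q, (Set.ncard {σ | lq σ = q} : ℝ) ≤ K) :
    ∑ σ ∈ Finset.univ.filter (fun σ => lq σ ∈ A), f (lq σ) ≤ ENNReal.ofReal K * ∑ q ∈ A, f q := by
  classical
  rw [Finset.sum_comp f lq, Finset.mul_sum]
  have himg : (Finset.univ.filter (fun σ => lq σ ∈ A)).image lq ⊆ A := by
    intro q hq
    obtain ⟨σ, hσ, rfl⟩ := Finset.mem_image.mp hq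
    exact (Finset.mem_filter.mp hσ).2
  refine le_trans (Finset.sum_le_sum_of_subset himg) ?_
  apply Finset.sum_le_sum
  intro q _
  rw [nsmul_eq_mul]
  apply mul_le_mul_left
  have h1 : ((Finset.univ.filter (fun σ => lq σ ∈ A)).filter (fun a => lq a = q)).card ≤ Set.ncard {σ | lq σ = q} := by
    rw [← Set.ncard_coe_finset]
    apply Set.ncard_le_ncard _ (Set.toFinite _)
    intro σ hσ
    exact (Finset.mem_filter.mp hσ).2
  have h2 : (((Finset.univ.filter (fun σ => lq σ ∈ A)).filter (fun a => lq a = q)).card : ℝ) ≤ K :=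
    le_trans (by exact_mod_cast h1) (hcard q)
  rw [← ENNReal.ofReal_natCast]
  exact ENNReal.ofReal_le_ofReal h2

/-- **L-252-S7f-M1 (deletion of the short lines, 07 l.1117-1121; ~300 l.).**   "Remove trajectories whose associated time set has relative length below `τ`.  Charge this deletion to the full true trajectory weights using prior-times-time domination."
PROOF.  For an entry `σ` put `On σ = E0 ∩ {se s = σ}` (measurable: `mse`), `g σ l = volume {t | (l, t) ∈ On σ}` (measurable in `l`: `measurable_measure_prodMk_left`).   For `z ∈ E0`: `T.tm E0 s z = {t | (z.1, t) ∈ On (se s z)}`, `lab s z = lq (se s z)`.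
So `E0 ∩ {Long} = ⋃ σ, On σ ∩ {z | ofReal (τ bl (lq σ)) ≤ g σ z.1}` is measurable, and `E0 \ {Long} = ⋃ σ, Sh σ`, `Sh σ = On σ ∩ {z | g σ z.1 < ofReal (τ bl (lq σ))}`.
`lam (Sh σ) ≤ K (ν × time) (Sh σ)` (`dom`) `= K ∫ time {t | (l,t) ∈ Sh σ} dν ≤ K ∫_{asg (lq σ)} ofReal (τ bl) dν = K τ mQ (lq σ)`   (`Measure.prod_apply`; `k7bTime ≤ volume`; `On σ ⊆ asg (lq σ) × ℝ` by `labmem`, `lab`).
`On σ = ∅` unless `lq σ ∈ Qat s` (`labmem`).   Sum: `≤ K` entries per label (`card`), `∑ mQ ≤ 1` (`budget`). -/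
theorem k7f_long (c : K7bPar) (H : K7bHor) (T : K7fSh H) {K r τ s : ℝ} {d m : ℕ} {E0 : Set (H.Lam × ℝ)} (hK : 1 ≤ K) (hτ : 0 ≤ τ) (h : H.Ok0 c K)
    (hE0 : E0 ⊆ H.Sp) (hm : MeasurableSet E0) (hT : T.Ok c K r d m E0) (hs : s ∈ c.G) :
    MeasurableSet (E0 ∩ {z | T.Long E0 τ s z}) ∧ H.lam (E0 \ {z | T.Long E0 τ s z}) ≤ ENNReal.ofReal (K ^ 2 * τ) := by
  classical
  have hK0 : 0 ≤ K := by linarith
  set On : T.Sg → Set (H.Lam × ℝ) := fun σ => E0 ∩ (T.se s) ⁻¹' {σ} with hOn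
  have hOnm : ∀ σ, MeasurableSet (On σ) := fun σ => hm.inter (hT.mse s hs σ)
  set g : T.Sg → H.Lam → ℝ≥0∞ := fun σ l => volume (Prod.mk l ⁻¹' On σ) with hg
  have hgm : ∀ σ, Measurable (g σ) := fun σ => measurable_measure_prodMk_left (hOnm σ)
  set th : T.Sg → ℝ≥0∞ := fun σ => ENNReal.ofReal (τ * H.bl (T.lq σ)) with hth
  have htm : ∀ z ∈ E0, volume (T.tm E0 s z) = g (T.se s z) z.1 := by
    intro z _
    rfl
  have hlong : ∀ z ∈ E0, (T.Long E0 τ s z ↔ th (T.se s z) ≤ g (T.se s z) z.1) := by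
    intro z hz
    unfold K7fSh.Long
    rw [htm z hz]
    show _ ↔ ENNReal.ofReal (τ * H.bl (T.lq (T.se s z))) ≤ _
    rw [hT.lab s hs z hz]
  set Lg : T.Sg → Set (H.Lam × ℝ) := fun σ => On σ ∩ {z | th σ ≤ g σ z.1} with hLg
  set Sh : T.Sg → Set (H.Lam × ℝ) := fun σ => On σ ∩ {z | g σ z.1 < th σ} with hSh
  have hLgm : ∀ σ, MeasurableSet (Lg σ) := fun σ =>
    (hOnm σ).inter (measurableSet_le measurable_const ((hgm σ).comp measurable_fst))
  have hShm : ∀ σ, MeasurableSet (Sh σ) := fun σ =>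
    (hOnm σ).inter (measurableSet_lt ((hgm σ).comp measurable_fst) measurable_const)
  have e1 : E0 ∩ {z | T.Long E0 τ s z} = ⋃ σ, Lg σ := by
    ext z
    simp only [Set.mem_inter_iff, Set.mem_iUnion]
    constructor
    · rintro ⟨hz, hl⟩
      exact ⟨T.se s z, ⟨hz, rfl⟩, (hlong z hz).mp hl⟩
    · rintro ⟨σ, ⟨hz, hσ⟩, hl⟩
      have hσ' : T.se s z = σ := hσ
      refine ⟨hz, (hlong z hz).mpr ?_⟩
      rw [hσ']; exact hl
  have e2 : E0 \ {z | T.Long E0 τ s z} = ⋃ σ, Sh σ := by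
    ext z
    simp only [Set.mem_sdiff, Set.mem_iUnion]
    constructor
    · rintro ⟨hz, hl⟩
      refine ⟨T.se s z, ⟨hz, rfl⟩, ?_⟩
      exact not_le.mp (fun hh => hl ((hlong z hz).mpr hh))
    · rintro ⟨σ, ⟨hz, hσ⟩, hl⟩
      have hσ' : T.se s z = σ := hσ
      refine ⟨hz, fun hh => ?_⟩
      have := (hlong z hz).mp hh
      rw [hσ'] at this
      exact absurd this (not_le.mpr hl)
  refine ⟨by rw [e1]; exact MeasurableSet.iUnion hLgm, ?_⟩
  rw [e2]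
  -- one entry
  have hone : ∀ σ, H.lam (Sh σ) ≤ ENNReal.ofReal K * (ENNReal.ofReal τ * H.mQ (T.lq σ)) := by
    intro σ
    have h1 : H.lam (Sh σ) ≤ ENNReal.ofReal K * (H.ν.prod k7bTime) (Sh σ) := by
      have := h.dom (Sh σ)
      simpa using this
    refine h1.trans (mul_le_mul_right ?_ _)
    have : SFinite k7bTime := by unfold k7bTime; infer_instance
    rw [Measure.prod_apply (hShm σ)]
    have h2 : ∀ l, k7bTime (Prod.mk l ⁻¹' Sh σ) ≤ (H.asg (T.lq σ)).indicator (fun _ => th σ) l := by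
      intro l
      by_cases hne : (Prod.mk l ⁻¹' Sh σ).Nonempty
      · obtain ⟨t, ht⟩ := hne
        have ht' : (l, t) ∈ Sh σ := ht
        obtain ⟨⟨hz, hσ⟩, hl⟩ := ht'
        have hσ' : T.se s (l, t) = σ := hσ
        have hlab := hT.lab s hs (l, t) hz
        rw [hσ'] at hlab
        have hmem := (h.labmem s hs (l, t) (hE0 hz)).2.2
        rw [← hlab] at hmem
        rw [Set.indicator_of_mem hmem]
        calc k7bTime (Prod.mk l ⁻¹' Sh σ) ≤ volume (Prod.mk l ⁻¹' Sh σ) := Measure.restrict_le_self _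
          _ ≤ volume (Prod.mk l ⁻¹' On σ) := measure_mono (fun t' ht' => ht'.1)
          _ ≤ th σ := le_of_lt hl
      · rw [Set.not_nonempty_iff_eq_empty.mp hne, measure_empty]
        exact bot_le
    calc ∫⁻ l, k7bTime (Prod.mk l ⁻¹' Sh σ) ∂H.ν ≤ ∫⁻ l, (H.asg (T.lq σ)).indicator (fun _ => th σ) l ∂H.ν :=
          lintegral_mono h2
      _ = th σ * H.ν (H.asg (T.lq σ)) := lintegral_indicator_const (h.masg _) _
      _ = ENNReal.ofReal τ * H.mQ (T.lq σ) := by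
          show ENNReal.ofReal (τ * H.bl (T.lq σ)) * _ = _
          rw [K7bHor.mQ, ENNReal.ofReal_mul hτ, mul_assoc]
  have hempty : ∀ σ, T.lq σ ∉ H.Qat s → H.lam (Sh σ) = 0 := by
    intro σ hσ
    have : Sh σ = ∅ := by
      rw [Set.eq_empty_iff_forall_notMem]
      rintro z ⟨⟨hz, hσ2⟩, -⟩
      have hσ' : T.se s z = σ := hσ2
      have hlab := hT.lab s hs z hz
      rw [hσ'] at hlab
      exact hσ (hlab ▸ (h.labmem s hs z (hE0 hz)).1)
    rw [this, measure_empty]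
  calc H.lam (⋃ σ, Sh σ) ≤ ∑ σ, H.lam (Sh σ) := measure_iUnion_fintype_le _ _
    _ = ∑ σ ∈ Finset.univ.filter (fun σ => T.lq σ ∈ H.Qat s), H.lam (Sh σ) := by
        rw [Finset.sum_filter]
        apply Finset.sum_congr rfl
        intro σ _
        split_ifs with hq
        · rfl
        · exact hempty σ hq
    _ ≤ ∑ σ ∈ Finset.univ.filter (fun σ => T.lq σ ∈ H.Qat s), ENNReal.ofReal K * (ENNReal.ofReal τ * H.mQ (T.lq σ)) :=
        Finset.sum_le_sum fun σ _ => hone σ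
    _ ≤ ENNReal.ofReal K * ∑ q ∈ H.Qat s, ENNReal.ofReal K * (ENNReal.ofReal τ * H.mQ q) :=
        k7f_m1_regroup T.lq (H.Qat s) (fun q => ENNReal.ofReal K * (ENNReal.ofReal τ * H.mQ q)) K hT.card
    _ = ENNReal.ofReal K * (ENNReal.ofReal K * (ENNReal.ofReal τ * ∑ q ∈ H.Qat s, H.mQ q)) := by
        rw [← Finset.mul_sum, ← Finset.mul_sum]
    _ ≤ ENNReal.ofReal K * (ENNReal.ofReal K * (ENNReal.ofReal τ * 1)) := by
        gcongr
        exact h.budget s hs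
    _ = ENNReal.ofReal (K ^ 2 * τ) := by
        rw [mul_one, ← ENNReal.ofReal_mul hK0, ← ENNReal.ofReal_mul hK0]
        congr 1; ring

/-- the kept incidences of the first deletion -/
def k7fM2G {Ω S D : Type*} [MeasurableSpace Ω] (μ : Measure Ω) (eh : Ω → S) (φ : Ω → D) (Ref : S → ℝ≥0∞) (k1 : ℝ≥0∞) : Set Ω :=
  {ω | Ref (eh ω) ≤ k1 * μ (eh ⁻¹' {eh ω} ∩ φ ⁻¹' {φ ω})}

theorem k7f_m2_eqns_cite : True := by
  have := @k7fM2G.eq_1.{0, 0, 0}
  trivial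

theorem k7f_m2_meas {Ω S D : Type*} [MeasurableSpace Ω] [Fintype S] [Countable D] (μ : Measure Ω) (eh : Ω → S) (φ : Ω → D)
    (Ref : S → ℝ≥0∞) (k1 : ℝ≥0∞) (heh : KsLab eh) (hφ : KsLab φ) : MeasurableSet (k7fM2G μ eh φ Ref k1) := by
  have e : k7fM2G μ eh φ Ref k1
      = ⋃ e : S, ⋃ d : D, ⋃ _ : Ref e ≤ k1 * μ (eh ⁻¹' {e} ∩ φ ⁻¹' {d}), eh ⁻¹' {e} ∩ φ ⁻¹' {d} := by
    ext ω
    simp only [k7fM2G, Set.mem_ofPred_eq, Set.mem_iUnion, Set.mem_inter_iff, Set.mem_preimage, Set.mem_singleton_iff, exists_prop]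
    constructor
    · intro h; exact ⟨eh ω, φ ω, h, rfl, rfl⟩
    · rintro ⟨e, d, h, rfl, rfl⟩; exact h
  rw [e]
  exact MeasurableSet.iUnion fun e => MeasurableSet.iUnion fun d => MeasurableSet.iUnion fun _ => (heh e).inter (hφ d)

/-- the loss of the first deletion -/
theorem k7f_m2_loss {Ω S D : Type*} [MeasurableSpace Ω] [Fintype S] [Countable D] (μ : Measure Ω) (eh : Ω → S) (φ : Ω → D)
    (Ref : S → ℝ≥0∞) (k1 : ℝ≥0∞) (n : ℕ) (heh : KsLab eh) (hopt : KsOpt μ eh φ n) :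
    k1 * μ (k7fM2G μ eh φ Ref k1)ᶜ ≤ n * ∑ e, Ref e := by
  classical
  choose L hLc hL using hopt
  have hpre : ∀ e d, (ksPair eh φ) ⁻¹' {(e, d)} = eh ⁻¹' {e} ∩ φ ⁻¹' {d} := by
    intro e d; ext ω
    simp [ksPair, Prod.ext_iff]
  have hone : ∀ e, k1 * μ ((k7fM2G μ eh φ Ref k1)ᶜ ∩ eh ⁻¹' {e}) ≤ n * Ref e := by
    intro e
    set Bd : Finset D := (L e).filter (fun d => ¬ Ref e ≤ k1 * μ (eh ⁻¹' {e} ∩ φ ⁻¹' {d})) with hBd
    have hsub : (k7fM2G μ eh φ Ref k1)ᶜ ∩ eh ⁻¹' {e}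
        ⊆ (⋃ d ∈ Bd, eh ⁻¹' {e} ∩ φ ⁻¹' {d}) ∪ (⋃ d : D, ⋃ _ : d ∉ L e, eh ⁻¹' {e} ∩ φ ⁻¹' {d}) := by
      rintro ω ⟨h1, h2⟩
      have h2' : eh ω = e := h2
      by_cases hd : φ ω ∈ L e
      · left
        simp only [Set.mem_iUnion, exists_prop]
        refine ⟨φ ω, Finset.mem_filter.mpr ⟨hd, ?_⟩, h2, rfl⟩
        intro hk
        apply h1
        show Ref (eh ω) ≤ k1 * μ (eh ⁻¹' {eh ω} ∩ φ ⁻¹' {φ ω})
        rw [h2']; exact hk
      · right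
        simp only [Set.mem_iUnion, exists_prop]
        exact ⟨φ ω, hd, h2, rfl⟩
    have hnull : μ (⋃ d : D, ⋃ _ : d ∉ L e, eh ⁻¹' {e} ∩ φ ⁻¹' {d}) = 0 := by
      rw [measure_iUnion_null_iff]
      intro d
      rw [measure_iUnion_null_iff]
      intro hd
      have := hL e d hd
      rwa [ksMass, hpre] at this
    calc k1 * μ ((k7fM2G μ eh φ Ref k1)ᶜ ∩ eh ⁻¹' {e})
        ≤ k1 * (μ (⋃ d ∈ Bd, eh ⁻¹' {e} ∩ φ ⁻¹' {d}) + μ (⋃ d : D, ⋃ _ : d ∉ L e, eh ⁻¹' {e} ∩ φ ⁻¹' {d})) :=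
          mul_le_mul_right ((measure_mono hsub).trans (measure_union_le _ _)) _
      _ = k1 * μ (⋃ d ∈ Bd, eh ⁻¹' {e} ∩ φ ⁻¹' {d}) := by rw [hnull, add_zero]
      _ ≤ k1 * ∑ d ∈ Bd, μ (eh ⁻¹' {e} ∩ φ ⁻¹' {d}) := mul_le_mul_right (measure_biUnion_finset_le _ _) _
      _ = ∑ d ∈ Bd, k1 * μ (eh ⁻¹' {e} ∩ φ ⁻¹' {d}) := Finset.mul_sum _ _ _
      _ ≤ ∑ _d ∈ Bd, Ref e := Finset.sum_le_sum fun d hd => (not_le.mp (Finset.mem_filter.mp hd).2).le
      _ = Bd.card * Ref e := by rw [Finset.sum_const, nsmul_eq_mul]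
      _ ≤ n * Ref e := by
          apply mul_le_mul_left
          exact_mod_cast (Finset.card_filter_le _ _).trans (hLc e)
  calc k1 * μ (k7fM2G μ eh φ Ref k1)ᶜ = k1 * ∑ e, μ ((k7fM2G μ eh φ Ref k1)ᶜ ∩ eh ⁻¹' {e}) := by
        rw [ks_sum_inter μ heh]
    _ = ∑ e, k1 * μ ((k7fM2G μ eh φ Ref k1)ᶜ ∩ eh ⁻¹' {e}) := Finset.mul_sum _ _ _
    _ ≤ ∑ e, n * Ref e := Finset.sum_le_sum fun e _ => hone e
    _ = n * ∑ e, Ref e := (Finset.mul_sum _ _ _).symm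

/-- the conditional domination after the first deletion -/
theorem k7f_m2_dom {Ω S D : Type*} [MeasurableSpace Ω] [Fintype S] (μ : Measure Ω) (eh : Ω → S) (φ : Ω → D)
    (Ref : S → ℝ≥0∞) (k1 c : ℝ≥0∞) (heh : KsLab eh) (d : D) (T : Set Ω) (hT : ∀ e, μ (eh ⁻¹' {e} ∩ T) ≤ c * Ref e) :
    μ (k7fM2G μ eh φ Ref k1 ∩ φ ⁻¹' {d} ∩ T) ≤ c * k1 * μ (k7fM2G μ eh φ Ref k1 ∩ φ ⁻¹' {d}) := by
  rw [← ks_sum_inter μ heh (k7fM2G μ eh φ Ref k1 ∩ φ ⁻¹' {d} ∩ T), ← ks_sum_inter μ heh (k7fM2G μ eh φ Ref k1 ∩ φ ⁻¹' {d}),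
    Finset.mul_sum]
  apply Finset.sum_le_sum
  intro e _
  by_cases hk : Ref e ≤ k1 * μ (eh ⁻¹' {e} ∩ φ ⁻¹' {d})
  · have e1 : k7fM2G μ eh φ Ref k1 ∩ φ ⁻¹' {d} ∩ eh ⁻¹' {e} = eh ⁻¹' {e} ∩ φ ⁻¹' {d} := by
      ext ω
      constructor
      · rintro ⟨⟨-, h2⟩, h3⟩; exact ⟨h3, h2⟩
      · rintro ⟨h3, h2⟩
        refine ⟨⟨?_, h2⟩, h3⟩
        have h3' : eh ω = e := h3
        have h2' : φ ω = d := h2
        show Ref (eh ω) ≤ k1 * μ (eh ⁻¹' {eh ω} ∩ φ ⁻¹' {φ ω})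
        rw [h3', h2']; exact hk
    rw [e1]
    calc μ (k7fM2G μ eh φ Ref k1 ∩ φ ⁻¹' {d} ∩ T ∩ eh ⁻¹' {e}) ≤ μ (eh ⁻¹' {e} ∩ T) :=
          measure_mono (fun ω hω => ⟨hω.2, hω.1.2⟩)
      _ ≤ c * Ref e := hT e
      _ ≤ c * (k1 * μ (eh ⁻¹' {e} ∩ φ ⁻¹' {d})) := mul_le_mul_right hk _
      _ = _ := (mul_assoc _ _ _).symm
  · have e1 : k7fM2G μ eh φ Ref k1 ∩ φ ⁻¹' {d} ∩ T ∩ eh ⁻¹' {e} = ∅ := by
      rw [Set.eq_empty_iff_forall_notMem]
      rintro ω ⟨⟨⟨h1, h2⟩, -⟩, h3⟩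
      have h3' : eh ω = e := h3
      have h2' : φ ω = d := h2
      have h1' : Ref (eh ω) ≤ k1 * μ (eh ⁻¹' {eh ω} ∩ φ ⁻¹' {φ ω}) := h1
      rw [h3', h2'] at h1'
      exact hk h1'
    rw [e1, measure_empty]
    exact bot_le

/-- a point of the bin `b` -/
theorem k7f_m2_bin {χ v : ℝ} {b : ℤ} (hχ : 0 < χ) (h : k7bBin χ v = b) : (b : ℝ) * χ ≤ v ∧ v < (b : ℝ) * χ + χ := by
  unfold k7bBin at h
  rw [Int.floor_eq_iff] at h
  constructor
  · have := h.1; rwa [le_div_iff₀ hχ] at this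
  · have := h.2; rw [div_lt_iff₀ hχ] at this; linarith

theorem k7f_m2_iv_disj (χ : ℝ) (hχ : 0 < χ) (A : Finset ℤ) : (A : Set ℤ).PairwiseDisjoint (k7bIv χ) := by
  intro a _ b _ hab
  rw [Function.onFun, Set.disjoint_left]
  intro x hxa hxb
  apply hab
  unfold k7bIv at hxa hxb
  have ha : ⌊x / χ⌋ = a := by
    rw [Int.floor_eq_iff]
    exact ⟨by rw [le_div_iff₀ hχ]; exact hxa.1, by rw [div_lt_iff₀ hχ]; exact hxa.2⟩
  have hb : ⌊x / χ⌋ = b := by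
    rw [Int.floor_eq_iff]
    exact ⟨by rw [le_div_iff₀ hχ]; exact hxb.1, by rw [div_lt_iff₀ hχ]; exact hxb.2⟩
  exact ha.symm.trans hb

/-- three separated witnesses in a set of positive mass with conditional palette domination -/
theorem k7f_m2_sep {Ω : Type*} [MeasurableSpace Ω] (μ : Measure Ω) (pal : Measure ℝ) (vel : Ω → ℝ) (W : Set Ω)
    (K χ Sx ρ Kc : ℝ) (hvel : Measurable vel) (hW : MeasurableSet W) (hW0 : μ W ≠ 0) (hWt : μ W ≠ ⊤)
    (hbd : ∀ ω ∈ W, |vel ω| ≤ K) (hK : 1 ≤ K) (hχ : 0 < χ) (hρ : 0 < ρ) (hρ1 : ρ + 2 * χ ≤ 1) (hKc : 0 < Kc)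
    (hpal : pal Set.univ ≤ 1)
    (hdom : ∀ b : ℤ, μ (W ∩ {ω | k7bBin χ (vel ω) = b}) ≤ ENNReal.ofReal Kc * pal (k7bIv χ b) * μ W)
    (hcap : ∀ x r : ℝ, χ ≤ r → r ≤ 1 → pal (Set.Icc (x - r) (x + r)) ≤ ENNReal.ofReal (K * r ^ Sx))
    (hsep : 2 * (K * (ρ + 2 * χ) ^ Sx) * Kc < 1) :
    ∃ w : Fin 3 → Ω, (∀ i, w i ∈ W) ∧ ∀ i j, i ≠ j → ρ ≤ |vel (w i) - vel (w j)| := by
  classical
  set Tb : ℤ → Set Ω := fun b => {ω | k7bBin χ (vel ω) = b} with hTb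
  have hbinm : Measurable (fun ω => k7bBin χ (vel ω)) := by
    unfold k7bBin
    exact Int.measurable_floor.comp (hvel.div_const χ)
  have hTbm : ∀ b, MeasurableSet (Tb b) := fun b => hbinm (measurableSet_singleton b)
  set N₀ : ℤ := ⌈K / χ⌉ + 1 with hN₀
  set A₀ : Finset ℤ := Finset.Icc (-N₀) N₀ with hA₀
  have hmem : ∀ ω ∈ W, k7bBin χ (vel ω) ∈ A₀ := by
    intro ω hω
    obtain ⟨h1, h2⟩ := abs_le.mp (hbd ω hω)
    have hc : K / χ ≤ (⌈K / χ⌉ : ℝ) := Int.le_ceil _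
    have e1 : vel ω / χ ≤ K / χ := div_le_div_of_nonneg_right h2 hχ.le
    have e2 : -(K / χ) ≤ vel ω / χ := by
      rw [← neg_div]; exact div_le_div_of_nonneg_right h1 hχ.le
    rw [hA₀, Finset.mem_Icc]
    unfold k7bBin
    constructor
    · apply Int.le_floor.mpr
      rw [hN₀]; push_cast; linarith
    · have : vel ω / χ < ((N₀ : ℤ) : ℝ) := by rw [hN₀]; push_cast; linarith
      exact (Int.floor_lt.mpr this).le
  have hpalt : ∀ s, pal s ≠ ⊤ := fun s =>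
    ne_top_of_le_ne_top ENNReal.one_ne_top ((measure_mono (Set.subset_univ s)).trans hpal)
  have hWbt : ∀ b, μ (W ∩ Tb b) ≠ ⊤ := fun b => ne_top_of_le_ne_top hWt (measure_mono Set.inter_subset_left)
  have hsum0 : ∑ b ∈ A₀, μ (W ∩ Tb b) = μ W := by
    rw [← measure_biUnion_finset]
    · congr 1
      ext ω
      simp only [Set.mem_iUnion, exists_prop]
      constructor
      · rintro ⟨b, -, h, -⟩; exact h
      · intro h; exact ⟨_, hmem ω h, h, rfl⟩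
    · intro a _ b _ hab
      rw [Function.onFun, Set.disjoint_left]
      intro ω ha hb
      exact hab (ha.2.symm.trans hb.2)
    · intro b _; exact hW.inter (hTbm b)
  set A : Finset ℤ := A₀.filter (fun b => μ (W ∩ Tb b) ≠ 0) with hA
  have hsumA : ∑ b ∈ A, μ (W ∩ Tb b) = μ W := by
    rw [hA, Finset.sum_filter_ne_zero, hsum0]
  set mW : ℝ := (μ W).toReal with hmW
  have hmW0 : 0 < mW := ENNReal.toReal_pos hW0 hWt
  set P : ℤ → ℝ := fun b => (μ (W ∩ Tb b)).toReal / mW with hP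
  set π : ℤ → ℝ := fun b => (pal (k7bIv χ b)).toReal with hπ
  have hPsum : ∑ b ∈ A, P b = 1 := by
    rw [hP, ← Finset.sum_div, ← ENNReal.toReal_sum (fun b _ => hWbt b), hsumA]
    exact div_self hmW0.ne'
  have hdomR : ∀ b ∈ A, P b ≤ Kc * π b := by
    intro b _
    have h1 := ENNReal.toReal_mono (ENNReal.mul_ne_top (ENNReal.mul_ne_top ENNReal.ofReal_ne_top (hpalt _)) hWt) (hdom b)
    rw [ENNReal.toReal_mul, ENNReal.toReal_mul, ENNReal.toReal_ofReal hKc.le] at h1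
    show (μ (W ∩ Tb b)).toReal / mW ≤ _
    rw [div_le_iff₀ hmW0]
    exact h1
  have hlow := k7b_support_mass A P π hKc hPsum hdomR
  set κ : ℝ := K * (ρ + 2 * χ) ^ Sx with hκ
  have hr0 : 0 < ρ + 2 * χ := by linarith
  have hκ0 : 0 ≤ κ := by rw [hκ]; positivity
  have hcapR : ∀ x : ℝ, ∑ b ∈ A.filter (fun b : ℤ => |(b : ℝ) * χ - x| < ρ + χ), π b ≤ κ := by
    intro x
    rw [hπ, ← ENNReal.toReal_sum (fun b _ => hpalt _),
      ← measure_biUnion_finset (k7f_m2_iv_disj χ hχ _) (fun b _ => measurableSet_Ico)]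
    have h1 : pal (⋃ b ∈ A.filter (fun b : ℤ => |(b : ℝ) * χ - x| < ρ + χ), k7bIv χ b) ≤ ENNReal.ofReal κ := by
      refine le_trans (measure_mono ?_) (hcap x (ρ + 2 * χ) (by linarith) hρ1)
      intro y hy
      simp only [Set.mem_iUnion, exists_prop] at hy
      obtain ⟨b, hb, hy⟩ := hy
      obtain ⟨h1, h2⟩ := abs_lt.mp (Finset.mem_filter.mp hb).2
      unfold k7bIv at hy
      constructor
      · linarith [hy.1]
      · have := hy.2; nlinarith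
    have := ENNReal.toReal_mono ENNReal.ofReal_ne_top h1
    rwa [ENNReal.toReal_ofReal hκ0] at this
  have hm : 2 * κ < ∑ b ∈ A, π b := by
    refine lt_of_lt_of_le ?_ hlow
    rw [lt_div_iff₀ hKc]; exact hsep
  obtain ⟨i, hi, j, hj, l, hl, h1, h2, h3⟩ := k7b_exists_sep3 (κ := κ) (ρ := ρ + χ) A π (fun b : ℤ => (b : ℝ) * χ)
    (fun b _ => ENNReal.toReal_nonneg) hm hκ0 hcapR
  have hpt : ∀ b ∈ A, ∃ ω, ω ∈ W ∧ k7bBin χ (vel ω) = b := by
    intro b hb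
    obtain ⟨ω, hω⟩ := nonempty_of_measure_ne_zero (Finset.mem_filter.mp hb).2
    exact ⟨ω, hω.1, hω.2⟩
  obtain ⟨wi, hwi, bi⟩ := hpt i hi
  obtain ⟨wj, hwj, bj⟩ := hpt j hj
  obtain ⟨wl, hwl, bl⟩ := hpt l hl
  obtain ⟨i1, i2⟩ := k7f_m2_bin hχ bi
  obtain ⟨j1, j2⟩ := k7f_m2_bin hχ bj
  obtain ⟨l1, l2⟩ := k7f_m2_bin hχ bl
  have sepf : ∀ (a b u v : ℝ), ρ + χ ≤ |b - a| → a ≤ u → u < a + χ → b ≤ v → v < b + χ → ρ ≤ |v - u| := by
    intro a b u v hab hu1 hu2 hv1 hv2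
    rcases le_abs'.mp hab with h | h
    · rw [le_abs']; left; linarith
    · rw [le_abs']; right; linarith
  have s1 := sepf _ _ _ _ h1 i1 i2 j1 j2
  have s2 := sepf _ _ _ _ h2 i1 i2 l1 l2
  have s3 := sepf _ _ _ _ h3 j1 j2 l1 l2
  refine ⟨![wi, wj, wl], ?_, ?_⟩
  · intro a; fin_cases a
    · exact hwi
    · exact hwj
    · exact hwl
  · intro a b hab
    fin_cases a <;> fin_cases b
    · exact absurd rfl hab
    · show ρ ≤ |vel wi - vel wj|; rw [abs_sub_comm]; exact s1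
    · show ρ ≤ |vel wi - vel wl|; rw [abs_sub_comm]; exact s2
    · show ρ ≤ |vel wj - vel wi|; exact s1
    · exact absurd rfl hab
    · show ρ ≤ |vel wj - vel wl|; rw [abs_sub_comm]; exact s3
    · show ρ ≤ |vel wl - vel wi|; exact s2
    · show ρ ≤ |vel wl - vel wj|; exact s3
    · exact absurd rfl hab

/-- **L-252-S7f-M2 (three separated witnesses in one state, 07 l.1153-1158; abstract; ~450 l.).**   "After the usual light-state deletion, conditional palette domination supplies three actual velocity witnesses in one state, separated by reciprocal-subpower distances."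
`μ` lives on `E0`; `eh` = end histories with the numerator ceiling `hdom` against `Ref`, `∑ Ref ≤ K`; the state `φ` has `≤ n ≤ K` options per end history; `pal` obeys the interval cap down to the mesh `χ`.
PROOF.  `K₁ = 2 K²/ε`, `K₂ = 2 K/ε`.   (0) `D₀ := ⋃ L (e)` (finite); `{φ ∉ D₀}` is `μ`-null (countable union of null events `{eh = e, φ = d}`).
(1) delete the entries `(e, d)` with `K₁ μ{eh = e, φ = d} < Ref e`:  loss `≤ n ∑ Ref / K₁ ≤ ε/2`;  on the rest `μ₁`:  `μ₁ {φ = d, bin = b} ≤ ∑_e μ{e, d, b} ≤ K pal(b) ∑_{e kept} Ref e ≤ K K₁ pal(b) μ{φ = d}`   (= `ks_step` with `C = Prod.snd`; `D` may be replaced by the finite type `D₀`).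
(2) delete the states `d` with `K₂ μ₁{φ = d} < μ{φ = d}` and the states with `μ₁{φ = d} = 0`:  loss `≤ μ(univ)/K₂ ≤ ε/2`.   `G` := what is left, intersected with `E0`.   For a surviving `d`:  `0 < M_d := μ(G ∩ {φ = d})` and `μ(G ∩ {φ = d, bin = b}) ≤ Kc pal(b) M_d`, `Kc = K K₁ K₂ = 4 K⁴/ε²`.
(3) `A :=` the bins `b` with `μ(G ∩ {φ = d, bin = b}) > 0` (finite: `|vel| ≤ K` on `E0`).   `∑_A μ(..) = M_d`, hence `∑_A pal(b) ≥ 1/Kc` (`k7b_support_mass`).   The bins of `A` with `|b χ - x| < ρ + χ` are disjoint intervals inside `Icc (x - (ρ + 2χ)) (x + (ρ + 2χ))`: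
their palette mass is `≤ κ := K (ρ + 2χ)^Sx` (`hcap`).   `2 κ < 1/Kc` by `hsep`:  `k7b_exists_sep3` gives three bins with `|b_i χ - b_j χ| ≥ ρ + χ`; each contains a point of `G ∩ {φ = d}` (positive measure), and `vel ∈ [b χ, b χ + χ)`. -/
theorem k7f_three_wit {Ω S D : Type*} [MeasurableSpace Ω] [Fintype S] [Countable D] (μ : Measure Ω) (pal : Measure ℝ)
    (eh : Ω → S) (φ : Ω → D) (vel : Ω → ℝ) (Ref : S → ℝ≥0∞) (E0 : Set Ω) (K χ Sx ε ρ : ℝ) (n : ℕ)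
    (heh : KsLab eh) (hφ : KsLab φ) (hvel : Measurable vel) (hE0 : MeasurableSet E0) (hμE : μ E0ᶜ = 0) (hbd : ∀ ω ∈ E0, |vel ω| ≤ K)
    (hK : 1 ≤ K) (hχ : 0 < χ) (hε : 0 < ε) (hρ : 0 < ρ) (hρ1 : ρ + 2 * χ ≤ 1) (hn : (n : ℝ) ≤ K)
    (hμ : μ Set.univ ≤ ENNReal.ofReal K) (hpal : pal Set.univ ≤ 1)
    (hdom : KsDom μ eh (fun b : ℤ => {ω | k7bBin χ (vel ω) = b}) (fun _ b => pal (k7bIv χ b)) Ref (ENNReal.ofReal K))
    (href : ∑ e, Ref e ≤ ENNReal.ofReal K) (hopt : KsOpt μ eh φ n)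
    (hcap : ∀ x r : ℝ, χ ≤ r → r ≤ 1 → pal (Set.Icc (x - r) (x + r)) ≤ ENNReal.ofReal (K * r ^ Sx))
    (hsep : 32 * K ^ 6 * (ρ + 2 * χ) ^ Sx < ε ^ 2) :
    ∃ G ⊆ E0, MeasurableSet G ∧ μ Gᶜ ≤ ENNReal.ofReal ε ∧
      ∀ ω ∈ G, ∃ w : Fin 3 → Ω, (∀ i, w i ∈ G ∧ φ (w i) = φ ω) ∧ ∀ i j, i ≠ j → ρ ≤ |vel (w i) - vel (w j)| := by
  classical
  have hK0 : 0 < K := by linarith
  by_cases hεK : K ≤ ε
  · refine ⟨∅, Set.empty_subset _, MeasurableSet.empty, ?_, fun ω hω => absurd hω (Set.notMem_empty ω)⟩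
    rw [Set.compl_empty]; exact hμ.trans (ENNReal.ofReal_le_ofReal hεK)
  push Not at hεK
  set K₁ : ℝ := K ^ 2 / ε with hK₁
  have hK₁0 : 0 < K₁ := by rw [hK₁]; positivity
  set k1 : ℝ≥0∞ := ENNReal.ofReal K₁ with hk1
  set G₁ : Set Ω := k7fM2G μ eh φ Ref k1 with hG₁
  have hG₁m : MeasurableSet G₁ := k7f_m2_meas μ eh φ Ref k1 heh hφ
  have hloss : μ G₁ᶜ ≤ ENNReal.ofReal ε := by
    have h1 := k7f_m2_loss μ eh φ Ref k1 n heh hopt
    have h2 : (n : ℝ≥0∞) * ∑ e, Ref e ≤ ENNReal.ofReal (K ^ 2) := by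
      rw [sq, ENNReal.ofReal_mul hK0.le]
      apply mul_le_mul' _ href
      rw [← ENNReal.ofReal_natCast]
      exact ENNReal.ofReal_le_ofReal hn
    have e : ENNReal.ofReal ε = ENNReal.ofReal (K ^ 2) / k1 := by
      rw [hk1, ← ENNReal.ofReal_div_of_pos hK₁0, hK₁]
      congr 1; field_simp
    rw [e, ENNReal.le_div_iff_mul_le (Or.inl (by simpa using hK₁0)) (Or.inl ENNReal.ofReal_ne_top), mul_comm]
    exact h1.trans h2
  set 𝒟 : Set D := {d | μ (G₁ ∩ φ ⁻¹' {d}) ≠ 0} with h𝒟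
  have h𝒟m : MeasurableSet (φ ⁻¹' 𝒟) := by
    rw [← Set.biUnion_preimage_singleton]
    exact MeasurableSet.biUnion (Set.to_countable 𝒟) (fun d _ => hφ d)
  refine ⟨E0 ∩ G₁ ∩ φ ⁻¹' 𝒟, fun ω hω => hω.1.1, (hE0.inter hG₁m).inter h𝒟m, ?_, ?_⟩
  · have hsub : (E0 ∩ G₁ ∩ φ ⁻¹' 𝒟)ᶜ ⊆ (E0ᶜ ∪ G₁ᶜ) ∪ ⋃ d : D, ⋃ _ : d ∉ 𝒟, G₁ ∩ φ ⁻¹' {d} := by
      intro ω hω
      by_cases h1 : ω ∈ E0
      · by_cases h2 : ω ∈ G₁
        · right
          simp only [Set.mem_iUnion, exists_prop]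
          refine ⟨φ ω, fun h3 => hω ⟨⟨h1, h2⟩, h3⟩, h2, rfl⟩
        · left; right; exact h2
      · left; left; exact h1
    have hnull : μ (⋃ d : D, ⋃ _ : d ∉ 𝒟, G₁ ∩ φ ⁻¹' {d}) = 0 := by
      rw [measure_iUnion_null_iff]
      intro d
      rw [measure_iUnion_null_iff]
      intro hd
      exact not_not.mp hd
    calc μ (E0 ∩ G₁ ∩ φ ⁻¹' 𝒟)ᶜ ≤ μ ((E0ᶜ ∪ G₁ᶜ) ∪ ⋃ d : D, ⋃ _ : d ∉ 𝒟, G₁ ∩ φ ⁻¹' {d}) := measure_mono hsub
      _ ≤ μ (E0ᶜ ∪ G₁ᶜ) + μ (⋃ d : D, ⋃ _ : d ∉ 𝒟, G₁ ∩ φ ⁻¹' {d}) := measure_union_le _ _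
      _ ≤ (μ E0ᶜ + μ G₁ᶜ) + 0 := by rw [hnull]; exact add_le_add (measure_union_le _ _) le_rfl
      _ = μ G₁ᶜ := by rw [hμE, zero_add, add_zero]
      _ ≤ _ := hloss
  · intro ω hω
    set d : D := φ ω with hd
    have hd𝒟 : d ∈ 𝒟 := hω.2
    set W : Set Ω := (E0 ∩ G₁ ∩ φ ⁻¹' 𝒟) ∩ φ ⁻¹' {d} with hW
    have hWm : MeasurableSet W := ((hE0.inter hG₁m).inter h𝒟m).inter (hφ d)
    have hWe : W = (G₁ ∩ φ ⁻¹' {d}) ∩ E0 := by
      ext x
      constructor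
      · rintro ⟨⟨⟨a, b⟩, -⟩, c⟩; exact ⟨⟨b, c⟩, a⟩
      · rintro ⟨⟨b, c⟩, a⟩
        refine ⟨⟨⟨a, b⟩, ?_⟩, c⟩
        have c' : φ x = d := c
        show φ x ∈ 𝒟
        rw [c']; exact hd𝒟
    have hμW : μ W = μ (G₁ ∩ φ ⁻¹' {d}) := by rw [hWe]; exact measure_inter_conull hμE
    have hW0 : μ W ≠ 0 := by rw [hμW]; exact hd𝒟
    have hWt : μ W ≠ ⊤ := ne_top_of_le_ne_top ENNReal.ofReal_ne_top ((measure_mono (Set.subset_univ W)).trans hμ)
    have hX0 : 0 ≤ (ρ + 2 * χ) ^ Sx := Real.rpow_nonneg (by linarith) _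
    have hdomW : ∀ b : ℤ, μ (W ∩ {ω | k7bBin χ (vel ω) = b}) ≤ ENNReal.ofReal (K * K₁) * pal (k7bIv χ b) * μ W := by
      intro b
      have h1 := k7f_m2_dom μ eh φ Ref k1 (ENNReal.ofReal K * pal (k7bIv χ b)) heh d {ω | k7bBin χ (vel ω) = b}
        (fun e => hdom e b)
      calc μ (W ∩ {ω | k7bBin χ (vel ω) = b}) ≤ μ (G₁ ∩ φ ⁻¹' {d} ∩ {ω | k7bBin χ (vel ω) = b}) := by
            apply measure_mono
            rw [hWe]
            rintro x ⟨⟨a, -⟩, c⟩; exact ⟨a, c⟩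
        _ ≤ ENNReal.ofReal K * pal (k7bIv χ b) * k1 * μ (G₁ ∩ φ ⁻¹' {d}) := h1
        _ = _ := by rw [hμW, ENNReal.ofReal_mul hK0.le, hk1]; ring
    have hsep' : 2 * (K * (ρ + 2 * χ) ^ Sx) * (K * K₁) < 1 := by
      set X : ℝ := (ρ + 2 * χ) ^ Sx with hX
      have e : 2 * (K * X) * (K * K₁) = 2 * K ^ 4 * X / ε := by rw [hK₁]; field_simp
      rw [e, div_lt_one hε]
      have h1 : ε ^ 2 < K * ε := by nlinarith
      have h2 : K * (32 * K ^ 5 * X) < K * ε := by nlinarith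
      have h3 : 32 * K ^ 5 * X < ε := lt_of_mul_lt_mul_left h2 hK0.le
      have h4 : 2 * K ^ 4 * X ≤ 32 * K ^ 5 * X := by
        apply mul_le_mul_of_nonneg_right _ hX0
        have : K ^ 4 ≤ K ^ 5 := pow_le_pow_right₀ hK (by norm_num)
        have h0 : 0 ≤ K ^ 4 := by positivity
        linarith
      linarith
    obtain ⟨w, hw1, hw2⟩ := k7f_m2_sep μ pal vel W K χ Sx ρ (K * K₁) hvel hWm hW0 hWt
      (fun x hx => hbd x hx.1.1.1) hK hχ hρ hρ1 (by positivity) hpal hdomW hcap hsep'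
    exact ⟨w, fun i => ⟨(hw1 i).1, (hw1 i).2⟩, hw2⟩

/-- **L-252-S7f-M3 (deletion of the light entries, 07 l.1121-1124; ~200 l.; model: `k7b_pair_prune` in `S7b/P4Prune`).**   ANY finite refinement `y` of the true labels with `≤ n` values per label (`Y = H.Q`, `y = H.lab`, `n = 1`: light labels; `Y = T.Sg`: light entries).
PROOF.  `x = (s, y0)` is light if `lam (E0 ∩ {y s = y0}) < ofReal τ * mQ (ly y0)`;  `E = E0 \ ⋃ light`.   Only `y0` with `ly y0 ∈ Qat s` matter (`labmem`).   Loss `≤ ∑_s ∑_{q ∈ Qat s} n τ mQ q ≤ #G n τ` (`budget`). -/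
theorem k7f_light (c : K7bPar) (H : K7bHor) {Y : Type} [Fintype Y] (y : ℝ → H.Lam × ℝ → Y) (ly : Y → H.Q) {K τ n : ℝ} {E0 : Set (H.Lam × ℝ)} (hτ : 0 ≤ τ) (h : H.Ok0 c K)
    (hE0 : E0 ⊆ H.Sp) (hm : MeasurableSet E0) (hy : ∀ s ∈ c.G, KsLab (y s)) (hly : ∀ s ∈ c.G, ∀ z ∈ E0, ly (y s z) = H.lab s z)
    (hcard : ∀ q, (Set.ncard {y0 | ly y0 = q} : ℝ) ≤ n) :
    ∃ E ⊆ E0, MeasurableSet E ∧ H.lam (E0 \ E) ≤ ENNReal.ofReal ((c.G.card : ℝ) * n * τ) ∧
      ∀ s ∈ c.G, ∀ z ∈ E, ENNReal.ofReal τ * H.mQ (H.lab s z) ≤ H.lam (E0 ∩ {w | y s w = y s z}) := by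
  classical
  set Cl : ℝ → Y → Set (H.Lam × ℝ) := fun s y0 => E0 ∩ (y s) ⁻¹' {y0} with hCl
  set Lt : ℝ → Finset Y := fun s => Finset.univ.filter (fun y0 => H.lam (Cl s y0) < ENNReal.ofReal τ * H.mQ (ly y0)) with hLt
  set Bad : Set (H.Lam × ℝ) := ⋃ s ∈ c.G, ⋃ y0 ∈ Lt s, Cl s y0 with hBad
  have hBadm : MeasurableSet Bad :=
    Finset.measurableSet_biUnion _ fun s hs => Finset.measurableSet_biUnion _ fun y0 _ => hm.inter (hy s hs y0)
  refine ⟨E0 \ Bad, Set.sdiff_subset, MeasurableSet.diff hm hBadm, ?_, ?_⟩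
  · have hone : ∀ s ∈ c.G, H.lam (⋃ y0 ∈ Lt s, Cl s y0) ≤ ENNReal.ofReal n * ENNReal.ofReal τ := by
      intro s hs
      have hempty : ∀ y0, ly y0 ∉ H.Qat s → H.lam (Cl s y0) = 0 := by
        intro y0 hq
        have : Cl s y0 = ∅ := by
          rw [Set.eq_empty_iff_forall_notMem]
          rintro z ⟨hz, hz2⟩
          have hz2' : y s z = y0 := hz2
          have := hly s hs z hz
          rw [hz2'] at this
          exact hq (this ▸ (h.labmem s hs z (hE0 hz)).1)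
        rw [this, measure_empty]
      calc H.lam (⋃ y0 ∈ Lt s, Cl s y0) ≤ ∑ y0 ∈ Lt s, H.lam (Cl s y0) := measure_biUnion_finset_le _ _
        _ ≤ ∑ y0 ∈ Finset.univ.filter (fun y0 => ly y0 ∈ H.Qat s), ENNReal.ofReal τ * H.mQ (ly y0) := by
            rw [← Finset.sum_filter_add_sum_filter_not (Lt s) (fun y0 => ly y0 ∈ H.Qat s)]
            have z2 : ∑ y0 ∈ (Lt s).filter (fun y0 => ¬ ly y0 ∈ H.Qat s), H.lam (Cl s y0) = 0 :=
              Finset.sum_eq_zero fun y0 hy0 => hempty y0 (Finset.mem_filter.mp hy0).2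
            rw [z2, add_zero]
            calc ∑ y0 ∈ (Lt s).filter (fun y0 => ly y0 ∈ H.Qat s), H.lam (Cl s y0)
                ≤ ∑ y0 ∈ (Lt s).filter (fun y0 => ly y0 ∈ H.Qat s), ENNReal.ofReal τ * H.mQ (ly y0) :=
                  Finset.sum_le_sum fun y0 hy0 => (Finset.mem_filter.mp (Finset.mem_filter.mp hy0).1).2.le
              _ ≤ _ := by
                  apply Finset.sum_le_sum_of_subset
                  intro y0 hy0
                  exact Finset.mem_filter.mpr ⟨Finset.mem_univ _, (Finset.mem_filter.mp hy0).2⟩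
        _ ≤ ENNReal.ofReal n * ∑ q ∈ H.Qat s, ENNReal.ofReal τ * H.mQ q :=
            k7f_m1_regroup ly (H.Qat s) (fun q => ENNReal.ofReal τ * H.mQ q) n hcard
        _ = ENNReal.ofReal n * (ENNReal.ofReal τ * ∑ q ∈ H.Qat s, H.mQ q) := by rw [← Finset.mul_sum]
        _ ≤ ENNReal.ofReal n * (ENNReal.ofReal τ * 1) := by
            gcongr
            exact h.budget s hs
        _ = _ := by rw [mul_one]
    calc H.lam (E0 \ (E0 \ Bad)) ≤ H.lam Bad := measure_mono (fun z hz => by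
            by_contra hb; exact hz.2 ⟨hz.1, hb⟩)
      _ ≤ ∑ s ∈ c.G, H.lam (⋃ y0 ∈ Lt s, Cl s y0) := measure_biUnion_finset_le _ _
      _ ≤ ∑ _s ∈ c.G, ENNReal.ofReal n * ENNReal.ofReal τ := Finset.sum_le_sum hone
      _ = (c.G.card : ℝ≥0∞) * (ENNReal.ofReal n * ENNReal.ofReal τ) := by rw [Finset.sum_const, nsmul_eq_mul]
      _ = _ := by
          rw [ENNReal.ofReal_mul' hτ, ENNReal.ofReal_mul (Nat.cast_nonneg _), ENNReal.ofReal_natCast, mul_assoc]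
  · intro s hs z hz
    by_contra hlt
    push Not at hlt
    apply hz.2
    simp only [hBad, Set.mem_iUnion, exists_prop]
    refine ⟨s, hs, y s z, Finset.mem_filter.mpr ⟨Finset.mem_univ _, ?_⟩, hz.1, rfl⟩
    rw [hly s hs z hz.1]
    exact hlt

/-- `ℝ × ℝ × ℝ ≃ᵐ (Fin 3 → ℝ)` -/
def k7fE3 : ℝ × ℝ × ℝ ≃ᵐ (Fin 3 → ℝ) :=
  ((MeasurableEquiv.refl ℝ).prodCongr (MeasurableEquiv.finTwoArrow (α := ℝ)).symm).trans (MeasurableEquiv.piFinSuccAbove (fun _ : Fin 3 => ℝ) 0).symm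

theorem k7f_E3_apply (u : ℝ × ℝ × ℝ) : k7fE3 u = ![u.1, u.2.1, u.2.2] := by
  ext i
  fin_cases i <;> rfl

theorem k7f_E3_mp : MeasurePreserving k7fE3 volume volume := by
  have h1 : MeasurePreserving ((MeasurableEquiv.refl ℝ).prodCongr (MeasurableEquiv.finTwoArrow (α := ℝ)).symm) (volume : Measure (ℝ × ℝ × ℝ)) volume :=
    (MeasurePreserving.id volume).prod (volume_preserving_finTwoArrow ℝ).symm
  exact h1.trans (volume_preserving_piFinSuccAbove (fun _ : Fin 3 => ℝ) 0).symm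

theorem k7f_E3_image (B : Set (ℝ × ℝ × ℝ)) : volume (k7fE3 '' B) = volume B := by
  rw [MeasurableEquiv.image_eq_preimage_symm]
  exact k7f_E3_mp.symm.measure_preimage_equiv B

/-- **L-252-S7f-M4 (volume of a centred image; ~200 l.).**   `k7fCen` is an affine bijection `ℝ × ℝ × ℝ → (Fin 3 → ℝ)` with Jacobian `h⁻⁴`; `B` is ANY set (outer measure).
PROOF.  `k7fCen tc Zc Yc h = (x ↦ A x + b) ∘ e`, `e : ℝ × ℝ × ℝ ≃ᵐ (Fin 3 → ℝ)` volume preserving (`MeasurableEquiv.piFinSuccAbove`, `MeasurableEquiv.finTwoArrow`; `volume_preserving_piFinSuccAbove`, `volume_preserving_finTwoArrow`;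
`MeasurePreserving.measure_preimage_equiv` holds for all sets), `A = Matrix.toLin'` of the lower triangular matrix `!![1/h, 0, 0; 0, 1/h, 0; Zc/h², -tc/h², 1/h²]`, `det = h⁻⁴`; `Measure.addHaar_image_linearMap` (all sets), `measure_preimage_add` / `image_add_left`. -/
theorem k7f_cen_volume (tc Zc Yc h : ℝ) (hh : 0 < h) (B : Set (ℝ × ℝ × ℝ)) :
    volume (k7fCen tc Zc Yc h '' B) = ENNReal.ofReal (1 / h ^ 4) * volume B := by
  obtain ⟨Mx, hMx⟩ : ∃ Mx : Matrix (Fin 3) (Fin 3) ℝ, Mx = !![1 / h, 0, 0; 0, 1 / h, 0; Zc / h ^ 2, -tc / h ^ 2, 1 / h ^ 2] := ⟨_, rfl⟩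
  obtain ⟨c, hc⟩ : ∃ c : Fin 3 → ℝ, c = ![-tc / h, -Zc / h, -Yc / h ^ 2] := ⟨_, rfl⟩
  have hdet : LinearMap.det (Matrix.toLin' Mx) = 1 / h ^ 4 := by
    rw [LinearMap.det_toLin', hMx, Matrix.det_fin_three]
    simp
    field_simp
  have hfun : ∀ u, k7fCen tc Zc Yc h u = c + Matrix.toLin' Mx (k7fE3 u) := by
    intro u
    rw [k7f_E3_apply, Matrix.toLin'_apply, hMx, hc]
    ext i
    fin_cases i
    · simp [k7fCen]
      field_simp
      ring
    · simp [k7fCen]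
      field_simp
      ring
    · simp [k7fCen]
      field_simp
      ring
  have himg : k7fCen tc Zc Yc h '' B = (fun x => c + x) '' (Matrix.toLin' Mx '' (k7fE3 '' B)) := by
    rw [Set.image_image, Set.image_image]
    exact Set.image_congr fun u _ => hfun u
  rw [himg, Set.image_add_left, measure_preimage_add, Measure.addHaar_image_linearMap, hdet, k7f_E3_image, abs_of_pos (by positivity)]

/-- **L-252-S7f-M5 (filling, 07 l.1125-1126; ~150 l.; model: `k7b_label_fill` in `S7b/P4Fill`, whose proof uses only the fields `capQ`, `bllen`, `νQ`, which `Ok0` has).**   "The true-label base cap then gives inverse-subpower Lebesgue filling in every retained entry's centred box." -/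
theorem k7f_fill (c : K7bPar) (H : K7bHor) {K τ s : ℝ} (hc : c.WF) (hK : 1 ≤ K) (hτ : 0 < τ) (h : H.Ok0 c K)
    (hs : s ∈ c.G) {q : H.Q} (hq : q ∈ H.Qat s) (W : Set (H.Lam × ℝ)) (hW : W ⊆ H.Sp ∩ {z | H.lab s z = q})
    (hfl : ENNReal.ofReal τ * H.mQ q ≤ H.lam W) :
    ENNReal.ofReal (τ * c.h s ^ 4 / K ^ 3) ≤ volume (H.base '' W) ∧ ENNReal.ofReal (τ / K ^ 3) ≤ volume (k7fCb H c s '' W) := by
  have hN : 0 < c.N := lt_of_lt_of_le one_pos hc.N1
  have ha0 : 0 < c.a s := by unfold K7bPar.a; exact Real.rpow_pos_of_pos hN _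
  have ha : 0 < c.a s ^ c.d := Real.rpow_pos_of_pos ha0 _
  have hh : 0 < c.h s := by unfold K7bPar.h; exact Real.rpow_pos_of_pos hN _
  have hK0 : 0 < K := lt_of_lt_of_le one_pos hK
  have first : ENNReal.ofReal (τ * c.h s ^ 4 / K ^ 3) ≤ volume (H.base '' W) := by
    by_cases hVt : volume (H.base '' W) = ∞
    · rw [hVt]; exact le_top
    have hCm : MeasurableSet (toMeasurable volume (H.base '' W)) := measurableSet_toMeasurable _ _
    have hCv : volume (toMeasurable volume (H.base '' W)) = volume (H.base '' W) := measure_toMeasurable _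
    have hsub : W ⊆ H.Sp ∩ {z | H.base z ∈ toMeasurable volume (H.base '' W) ∧ H.lab s z = q} := by
      intro z hz
      exact ⟨(hW hz).1, subset_toMeasurable _ _ ⟨z, hz, rfl⟩, (hW hz).2⟩
    have h1 : H.lam W ≤ ENNReal.ofReal (K * c.a s ^ c.d) * volume (H.base '' W) := by
      calc H.lam W ≤ H.lam (H.Sp ∩ {z | H.base z ∈ toMeasurable volume (H.base '' W) ∧ H.lab s z = q}) := measure_mono hsub
        _ ≤ ENNReal.ofReal (K * c.a s ^ c.d) * volume (toMeasurable volume (H.base '' W)) := h.capQ s hs q hq _ hCm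
        _ = _ := by rw [hCv]
    have h2 : ENNReal.ofReal (c.h s / K) * ENNReal.ofReal (c.a s ^ c.d * c.h s ^ 3 / K) ≤ H.mQ q := by
      unfold K7bHor.mQ
      exact mul_le_mul' (ENNReal.ofReal_le_ofReal (h.bllen s hs q hq).1) (h.νQ s hs q hq).1
    have h3 : ENNReal.ofReal τ * (ENNReal.ofReal (c.h s / K) * ENNReal.ofReal (c.a s ^ c.d * c.h s ^ 3 / K))
        ≤ ENNReal.ofReal (K * c.a s ^ c.d) * volume (H.base '' W) :=
      (mul_le_mul_right h2 _).trans (hfl.trans h1)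
    obtain ⟨v, hv0, hv⟩ : ∃ v : ℝ, 0 ≤ v ∧ volume (H.base '' W) = ENNReal.ofReal v :=
      ⟨(volume (H.base '' W)).toReal, ENNReal.toReal_nonneg, (ENNReal.ofReal_toReal hVt).symm⟩
    rw [hv] at h3 ⊢
    rw [← ENNReal.ofReal_mul (by positivity), ← ENNReal.ofReal_mul (by positivity), ← ENNReal.ofReal_mul (by positivity)] at h3
    have h4 := (ENNReal.ofReal_le_ofReal_iff (by positivity)).1 h3
    apply ENNReal.ofReal_le_ofReal
    rw [div_le_iff₀ (by positivity)]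
    have h5 : τ * (c.h s / K * (c.a s ^ c.d * c.h s ^ 3 / K)) * K ^ 2 ≤ K * c.a s ^ c.d * v * K ^ 2 :=
      mul_le_mul_of_nonneg_right h4 (by positivity)
    have e1 : τ * (c.h s / K * (c.a s ^ c.d * c.h s ^ 3 / K)) * K ^ 2 = c.a s ^ c.d * (τ * c.h s ^ 4) := by
      field_simp
    have e2 : K * c.a s ^ c.d * v * K ^ 2 = c.a s ^ c.d * (v * K ^ 3) := by ring
    rw [e1, e2] at h5
    exact le_of_mul_le_mul_left h5 ha
  refine ⟨first, ?_⟩
  have e : k7fCb H c s '' W = k7fCen (H.ct q) (H.cZ q) (H.cY q) (c.h s) '' (H.base '' W) := by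
    rw [Set.image_image]
    apply Set.image_congr
    intro z hz
    have hz2 : H.lab s z = q := (hW hz).2
    unfold k7fCb k7fCenQ
    rw [hz2]
  rw [e, k7f_cen_volume _ _ _ _ hh]
  calc ENNReal.ofReal (τ / K ^ 3) = ENNReal.ofReal (1 / c.h s ^ 4) * ENNReal.ofReal (τ * c.h s ^ 4 / K ^ 3) := by
        rw [← ENNReal.ofReal_mul (by positivity)]
        congr 1; field_simp
    _ ≤ _ := mul_le_mul_right first _

/-- options persist under smaller measures -/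
theorem k7f_m6_opt_mono {Ω S D : Type*} [MeasurableSpace Ω] {μ μ' : Measure Ω} {s : Ω → S} {d : Ω → D} {n : ℕ}
    (h : KsOpt μ s d n) (hμ : μ' ≤ μ) : KsOpt μ' s d n := by
  intro s0
  obtain ⟨L, hL, hL2⟩ := h s0
  refine ⟨L, hL, fun d0 hd0 => ?_⟩
  have := hL2 d0 hd0
  unfold ksMass at this ⊢
  exact le_antisymm ((hμ _).trans this.le) bot_le

/-- the total mass of the reference law -/
theorem k7f_m6_total (c : K7bPar) (H : K7bHor) {K : ℝ} (h : H.Ok0 c K) (A : Set (H.Lam × ℝ)) : H.lam A ≤ ENNReal.ofReal K := by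
  have h1 : H.lam A ≤ ENNReal.ofReal K * (H.ν.prod k7bTime) A := by
    have := h.dom A
    simpa using this
  have : SFinite k7bTime := by unfold k7bTime; infer_instance
  have h2 : (H.ν.prod k7bTime) A ≤ 1 := by
    calc (H.ν.prod k7bTime) A ≤ (H.ν.prod k7bTime) Set.univ := measure_mono (Set.subset_univ _)
      _ = H.ν Set.univ * k7bTime Set.univ := by rw [← Set.univ_prod_univ, Measure.prod_prod]
      _ ≤ 1 * 1 := by
          apply mul_le_mul' h.νle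
          unfold k7bTime
          rw [Measure.restrict_apply_univ, Real.volume_Icc]
          simp
      _ = 1 := one_mul _
  calc H.lam A ≤ ENNReal.ofReal K * (H.ν.prod k7bTime) A := h1
    _ ≤ ENNReal.ofReal K * 1 := mul_le_mul_right h2 _
    _ = _ := mul_one _

/-- one depth: long lines with three witnesses -/
theorem k7f_m6_one (c : K7bPar) (H : K7bHor) (T : K7fSh H) {K r ε ρ s : ℝ} {d m : ℕ} {E0 : Set (H.Lam × ℝ)} (hc : c.WF) (hK : 1 ≤ K) (hε : 0 < ε)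
    (hρ : 0 < ρ) (hρ1 : ρ + 2 * c.χ ≤ 1) (h : H.Ok0 c K) (hE0 : E0 ⊆ H.Sp) (hm : MeasurableSet E0) (hT : T.Ok c K r d m E0)
    (hsep : 512 * K ^ 8 * (ρ + 2 * c.χ) ^ c.S < ε ^ 2) (hs : s ∈ c.G) :
    ∃ Gs ⊆ E0, MeasurableSet Gs ∧ H.lam (E0 \ Gs) ≤ ENNReal.ofReal (ε / (8 * K) + ε / (2 * K)) ∧
      ∀ z ∈ Gs, T.Long E0 (ε / (8 * K ^ 3)) s z ∧ T.Wit3 E0 (ε / (8 * K ^ 3)) ρ s z := by
  have hK0 : 0 < K := by linarith
  set τ : ℝ := ε / (8 * K ^ 3) with hτ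
  have hτ0 : 0 ≤ τ := by rw [hτ]; positivity
  obtain ⟨hE1m, hE1l⟩ := k7f_long c H T hK hτ0 h hE0 hm hT hs
  set E1 : Set (H.Lam × ℝ) := E0 ∩ {z | T.Long E0 τ s z} with hE1
  obtain ⟨n, hn, hopt⟩ := hT.opt s hs
  have hle0 : H.lam.restrict E1 ≤ H.lam.restrict E0 := Measure.restrict_mono Set.inter_subset_left le_rfl
  have hleS : H.lam.restrict E1 ≤ H.lam.restrict H.Sp := Measure.restrict_mono (Set.inter_subset_left.trans hE0) le_rfl
  have hsep' : 32 * K ^ 6 * (ρ + 2 * c.χ) ^ c.S < (ε / (2 * K)) ^ 2 := by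
    rw [div_pow, lt_div_iff₀ (by positivity)]
    have hX0 : 0 ≤ (ρ + 2 * c.χ) ^ c.S := Real.rpow_nonneg (by linarith [hc.χ0]) _
    have : 32 * K ^ 6 * (ρ + 2 * c.χ) ^ c.S * (2 * K) ^ 2 = 128 * K ^ 8 * (ρ + 2 * c.χ) ^ c.S := by ring
    rw [this]
    have h0 : 0 ≤ K ^ 8 * (ρ + 2 * c.χ) ^ c.S := by positivity
    nlinarith
  obtain ⟨Gs, hGs, hGsm, hGsl, hGsw⟩ := k7f_three_wit (H.lam.restrict E1) H.pal H.eh (T.fs s) (fun z => H.v z.1) H.Ref E1
    K c.χ c.S (ε / (2 * K)) ρ n h.meh (ks_lab_pair (hT.mse s hs) (hT.mfc s hs)) (h.mv.comp measurable_fst) hE1m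
    (by rw [Measure.restrict_apply hE1m.compl]; simp) (fun z hz => (h.bdd z (hE0 hz.1)).2.1) hK hc.χ0 (by positivity) hρ hρ1 hn
    (by rw [Measure.restrict_apply_univ]; exact k7f_m6_total c H h _) h.palle
    (ks_dom_mono h.ehdom hleS (fun _ _ => le_rfl) (fun _ => le_rfl) le_rfl) h.refsum (k7f_m6_opt_mono hopt hle0) h.palcap hsep'
  refine ⟨Gs, hGs.trans Set.inter_subset_left, hGsm, ?_, ?_⟩
  · have hsub : E0 \ Gs ⊆ (E0 \ {z | T.Long E0 τ s z}) ∪ (Gsᶜ ∩ E1) := by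
      intro z hz
      by_cases hl : T.Long E0 τ s z
      · right; exact ⟨hz.2, hz.1, hl⟩
      · left; exact ⟨hz.1, hl⟩
    rw [Measure.restrict_apply hGsm.compl] at hGsl
    calc H.lam (E0 \ Gs) ≤ H.lam (E0 \ {z | T.Long E0 τ s z}) + H.lam (Gsᶜ ∩ E1) :=
          (measure_mono hsub).trans (measure_union_le _ _)
      _ ≤ ENNReal.ofReal (K ^ 2 * τ) + ENNReal.ofReal (ε / (2 * K)) := add_le_add hE1l hGsl
      _ = _ := by
          rw [← ENNReal.ofReal_add (by positivity) (by positivity)]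
          congr 2
          rw [hτ]; field_simp
  · intro z hz
    refine ⟨(hGs hz).2, ?_⟩
    obtain ⟨w, hw1, hw2⟩ := hGsw z hz
    exact ⟨w, fun i => ⟨(hGs (hw1 i).1).1, (hGs (hw1 i).1).2, (hw1 i).2⟩, hw2⟩

/-- **L-252-S7f-M6 = EXIT OF THE MEASURE PART (glue of M1, M2, M3; ~350 l.).**   `τ = ε / (8 K³)`.
PROOF.  For `s ∈ G`:  `E1 s = E0 ∩ {Long E0 τ s}` (`k7f_long`: loss `K² τ`);   `k7f_three_wit` for `μ = lam.restrict (E1 s)`, `eh = H.eh`, `φ = T.fs s` (`KsLab`: `ks_lab_pair`, `mse`, `mfc`), `vel = H.v ∘ Prod.fst`, `pal = H.pal`, `Ref = H.Ref`, `ε/(2K)` in place of `ε`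
(`ehdom` + `ks_dom_mono`; `H.vT`; `opt` passes to the smaller measure; `lam (Sp) ≤ K` by `dom`, `νle`; `bdd`, `palcap`, `palle`, `refsum`) gives `G s ⊆ E1 s`.   `E'' = E0 ∩ ⋂_{s ∈ G} G s`.   `k7f_light` on `E''` with `Y = T.Sg`, `n = K`: `E ⊆ E''`.
For `z ∈ E`: `Long` since `z ∈ G s ⊆ E1 s`;  `Full` with `W = E'' ∩ {se s = se s z}` (`W ⊆ G s`: three witnesses in `G s ⊆ E1 s`, which are long).   Total loss `≤ K (K² τ + ε/(2K)) + K K τ ≤ ε`. -/
theorem k7f_sel (c : K7bPar) (H : K7bHor) (T : K7fSh H) {K r ε ρ : ℝ} {d m : ℕ} {E0 : Set (H.Lam × ℝ)} (hc : c.WF) (hK : 1 ≤ K) (hε : 0 < ε) (hε1 : ε ≤ 1)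
    (hρ : 0 < ρ) (hρ1 : ρ + 2 * c.χ ≤ 1) (hG : (c.G.card : ℝ) ≤ K) (h : H.Ok0 c K) (hE0 : E0 ⊆ H.Sp) (hm : MeasurableSet E0) (hT : T.Ok c K r d m E0)
    (hsep : 512 * K ^ 8 * (ρ + 2 * c.χ) ^ c.S < ε ^ 2) :
    ∃ E ⊆ E0, MeasurableSet E ∧ H.lam (E0 \ E) ≤ ENNReal.ofReal ε ∧
      ∀ s ∈ c.G, ∀ z ∈ E, T.Long E0 (ε / (8 * K ^ 3)) s z ∧ T.Full E0 (ε / (8 * K ^ 3)) ρ s (T.se s z) := by
  classical
  have hK0 : 0 < K := by linarith
  set τ : ℝ := ε / (8 * K ^ 3) with hτ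
  have hτ0 : 0 ≤ τ := by rw [hτ]; positivity
  have key : ∀ s ∈ c.G, ∃ Gs ⊆ E0, MeasurableSet Gs ∧ H.lam (E0 \ Gs) ≤ ENNReal.ofReal (ε / (8 * K) + ε / (2 * K)) ∧
      ∀ z ∈ Gs, T.Long E0 τ s z ∧ T.Wit3 E0 τ ρ s z :=
    fun s hs => k7f_m6_one c H T hc hK hε hρ hρ1 h hE0 hm hT hsep hs
  choose! Gs hGs hGsm hGsl hGsw using key
  set E2 : Set (H.Lam × ℝ) := E0 ∩ ⋂ s ∈ c.G, Gs s with hE2
  have hE2m : MeasurableSet E2 := hm.inter (Finset.measurableSet_biInter _ fun s hs => hGsm s hs)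
  have hE2G : ∀ s ∈ c.G, E2 ⊆ Gs s := by
    intro s hs z hz
    have := hz.2
    simp only [Set.mem_iInter] at this
    exact this s hs
  have hE2l : H.lam (E0 \ E2) ≤ ENNReal.ofReal (ε / 8 + ε / 2) := by
    have hsub : E0 \ E2 ⊆ ⋃ s ∈ c.G, E0 \ Gs s := by
      intro z hz
      by_contra hn
      simp only [Set.mem_iUnion, exists_prop, not_exists, not_and] at hn
      apply hz.2
      refine ⟨hz.1, ?_⟩
      simp only [Set.mem_iInter]
      intro s hs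
      by_contra hh
      exact hn s hs ⟨hz.1, hh⟩
    calc H.lam (E0 \ E2) ≤ ∑ s ∈ c.G, H.lam (E0 \ Gs s) := (measure_mono hsub).trans (measure_biUnion_finset_le _ _)
      _ ≤ ∑ _s ∈ c.G, ENNReal.ofReal (ε / (8 * K) + ε / (2 * K)) := Finset.sum_le_sum hGsl
      _ = (c.G.card : ℝ≥0∞) * ENNReal.ofReal (ε / (8 * K) + ε / (2 * K)) := by rw [Finset.sum_const, nsmul_eq_mul]
      _ = ENNReal.ofReal ((c.G.card : ℝ) * (ε / (8 * K) + ε / (2 * K))) := by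
          rw [ENNReal.ofReal_mul (Nat.cast_nonneg _), ENNReal.ofReal_natCast]
      _ ≤ ENNReal.ofReal (K * (ε / (8 * K) + ε / (2 * K))) :=
          ENNReal.ofReal_le_ofReal (mul_le_mul_of_nonneg_right hG (by positivity))
      _ = _ := by congr 1; field_simp
  obtain ⟨E, hEE2, hEm, hEl, hEf⟩ := k7f_light c H (Y := T.Sg) T.se T.lq (K := K) (τ := τ) (n := K) (E0 := E2) hτ0 h
    (Set.inter_subset_left.trans hE0) hE2m hT.mse (fun s hs z hz => hT.lab s hs z hz.1) hT.card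
  refine ⟨E, hEE2.trans Set.inter_subset_left, hEm, ?_, ?_⟩
  · have hsub : E0 \ E ⊆ (E0 \ E2) ∪ (E2 \ E) := by
      intro z hz
      by_cases h2 : z ∈ E2
      · right; exact ⟨h2, hz.2⟩
      · left; exact ⟨hz.1, h2⟩
    have h3 : (c.G.card : ℝ) * K * τ ≤ ε / 8 := by
      have e : K * K * τ = ε / (8 * K) := by rw [hτ]; field_simp
      have h4 : ε / (8 * K) ≤ ε / 8 := by
        apply div_le_div_of_nonneg_left hε.le (by norm_num) (by linarith)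
      calc (c.G.card : ℝ) * K * τ ≤ K * K * τ := by
            apply mul_le_mul_of_nonneg_right _ hτ0
            exact mul_le_mul_of_nonneg_right hG hK0.le
        _ ≤ ε / 8 := by rw [e]; exact h4
    calc H.lam (E0 \ E) ≤ H.lam (E0 \ E2) + H.lam (E2 \ E) := (measure_mono hsub).trans (measure_union_le _ _)
      _ ≤ ENNReal.ofReal (ε / 8 + ε / 2) + ENNReal.ofReal (ε / 8) :=
          add_le_add hE2l (hEl.trans (ENNReal.ofReal_le_ofReal h3))
      _ = ENNReal.ofReal (ε / 8 + ε / 2 + ε / 8) := (ENNReal.ofReal_add (by positivity) (by positivity)).symm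
      _ ≤ ENNReal.ofReal ε := ENNReal.ofReal_le_ofReal (by linarith)
  · intro s hs z hz
    have hz2 : z ∈ E2 := hEE2 hz
    refine ⟨(hGsw s hs z (hE2G s hs hz2)).1, E2 ∩ {w | T.se s w = T.se s z}, fun w hw => hw.1.1, ?_, ?_⟩
    · intro w hw
      exact ⟨hw.2, (hGsw s hs w (hE2G s hs hw.1)).2⟩
    · rw [hT.lab s hs z hz2.1]
      exact hEf s hs z hz

end

end Claimed.Agent.R252

/-!
# Row 252, Sec. 7.5, post BP-252-S7b-S2, file 4: THE ABSTRACT FORM OF `a06:horizontal-affine-approximation`.   CONTRACT: the `sorry`s are the leaves L-252-S7f-G0 .. G4      (sub-architect helper1; prefix `k7f_`)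

PAPER-FREE.   Read only: `S7b/HorDefs`, `S7b/HorLink` (`Ok0`, `OkE`), `S7b/HorGrp` (`WF`), `S7b/CoreA` (`k7bBox`), `S7b/CoreB` (`k7b_affine_extrap`), `S7f/{Defs,AnContract,MeContract}` (statements only; siblings may be cited while sorried).
Prove IN PLACE (replace your `sorry`, helper lemmas directly above your theorem, prefix `k7f_g<i>_`).   Statements are frozen; defects: one line to helper1.
EXIT: `k7f_abs` :  `H.Ok0 c K` + sheet entries `T.Ok c K r d m E0` + smallness of `N^(-e₀)/h_s + T.eta`  ⟹  a selection `E ⊆ E0`, loss `≤ ε`, with `(T.out m c E).OkE c K'`, `K' = C (K/(r ε ρ))^p`.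
-/

set_option autoImplicit false

namespace Claimed.Agent.R252

open MeasureTheory
open scoped ENNReal BigOperators

noncomputable section

/-! ## G0. Algebra of the centring map      (leaf L-252-S7f-G0, ~150 l.) -/

/-- a trajectory in centred coordinates is a line in the ACTUAL direction `k7fDir (point) v ((y1 + p)/h)`: the horizontal defect is divided by `h`   (07 l.1101-1108) -/
theorem k7f_cen_line (tc Zc Yc h p v q0 y1 t t' : ℝ) (hh : h ≠ 0) :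
    k7fCen tc Zc Yc h (t', p + t' * v, q0 + t' * y1) = k7fCen tc Zc Yc h (t, p + t * v, q0 + t * y1)
      + ((t' - t) / h) • k7fDir (k7fCen tc Zc Yc h (t, p + t * v, q0 + t * y1)) v ((y1 + p) / h) := by
  funext i
  fin_cases i
  · simp only [k7fCen, k7fDir, Fin.zero_eta, Fin.isValue, Matrix.cons_val_zero, Pi.add_apply, Pi.smul_apply, smul_eq_mul]
    field_simp
    ring
  · simp only [k7fCen, k7fDir, Fin.mk_one, Fin.isValue, Matrix.cons_val_one, Matrix.cons_val_zero, Pi.add_apply, Pi.smul_apply,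
      smul_eq_mul]
    field_simp
    ring
  · simp only [k7fCen, k7fDir, Fin.reduceFinMk, Fin.isValue, Matrix.cons_val, Matrix.cons_val_one, Matrix.cons_val_zero,
      Pi.add_apply, Pi.smul_apply, smul_eq_mul]
    field_simp
    ring

/-- two `ξ`-close points are close in centred coordinates -/
theorem k7f_cen_close (tc Zc Yc h ξ : ℝ) (hh : 0 < h) (hh1 : h ≤ 1) (u u' : ℝ × ℝ × ℝ) (h1 : |u.1 - u'.1| ≤ ξ) (h2 : |u.2.1 - u'.2.1| ≤ ξ) (h3 : |u.2.2 - u'.2.2| ≤ ξ) :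
    ‖k7fCen tc Zc Yc h u - k7fCen tc Zc Yc h u'‖ ≤ (1 + |Zc| + |tc|) * ξ / h ^ 2 := by
  have hξ : 0 ≤ ξ := (abs_nonneg _).trans h1
  have hZ := abs_nonneg Zc
  have ht := abs_nonneg tc
  have hh2 : h ^ 2 ≤ h := by nlinarith
  have hh20 : 0 < h ^ 2 := by positivity
  have hbig : ξ ≤ (1 + |Zc| + |tc|) * ξ := by nlinarith
  have hdiv : ∀ x : ℝ, |x| ≤ ξ → |x / h| ≤ (1 + |Zc| + |tc|) * ξ / h ^ 2 := by
    intro x hx
    rw [abs_div, abs_of_pos hh]
    calc |x| / h ≤ ξ / h := div_le_div_of_nonneg_right hx hh.le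
      _ ≤ ξ / h ^ 2 := div_le_div_of_nonneg_left hξ hh20 hh2
      _ ≤ _ := div_le_div_of_nonneg_right hbig hh20.le
  rw [pi_norm_le_iff_of_nonneg (by positivity)]
  intro i
  rw [Real.norm_eq_abs]
  fin_cases i
  · simp only [k7fCen, Fin.zero_eta, Fin.isValue, Matrix.cons_val_zero, Pi.sub_apply]
    have e : (u.1 - tc) / h - (u'.1 - tc) / h = (u.1 - u'.1) / h := by ring
    rw [e]
    exact hdiv _ h1
  · simp only [k7fCen, Fin.mk_one, Fin.isValue, Matrix.cons_val_one, Matrix.cons_val_zero, Pi.sub_apply]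
    have e : (u.2.1 - Zc) / h - (u'.2.1 - Zc) / h = (u.2.1 - u'.2.1) / h := by ring
    rw [e]
    exact hdiv _ h2
  · simp only [k7fCen, Fin.reduceFinMk, Fin.isValue, Matrix.cons_val, Pi.sub_apply]
    have e : (u.2.2 - Yc - (-Zc * (u.1 - tc) + tc * (u.2.1 - Zc))) / h ^ 2 - (u'.2.2 - Yc - (-Zc * (u'.1 - tc) + tc * (u'.2.1 - Zc))) / h ^ 2
        = ((u.2.2 - u'.2.2) + Zc * (u.1 - u'.1) - tc * (u.2.1 - u'.2.1)) / h ^ 2 := by ring
    rw [e, abs_div, abs_of_pos hh20]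
    refine div_le_div_of_nonneg_right ?_ hh20.le
    have a1 : |Zc * (u.1 - u'.1)| ≤ |Zc| * ξ := by rw [abs_mul]; exact mul_le_mul_of_nonneg_left h1 hZ
    have a2 : |tc * (u.2.1 - u'.2.1)| ≤ |tc| * ξ := by rw [abs_mul]; exact mul_le_mul_of_nonneg_left h2 ht
    calc |(u.2.2 - u'.2.2) + Zc * (u.1 - u'.1) - tc * (u.2.1 - u'.2.1)|
        ≤ |(u.2.2 - u'.2.2) + Zc * (u.1 - u'.1)| + |tc * (u.2.1 - u'.2.1)| := abs_sub _ _
      _ ≤ |u.2.2 - u'.2.2| + |Zc * (u.1 - u'.1)| + |tc * (u.2.1 - u'.2.1)| := by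
          have := abs_add_le (u.2.2 - u'.2.2) (Zc * (u.1 - u'.1))
          linarith
      _ ≤ _ := by linarith

/-- the centred box is the cube of centred coordinates -/
theorem k7f_cen_box (tc Zc Yc h ρ : ℝ) (hh : 0 < h) (u : ℝ × ℝ × ℝ) : u ∈ k7bBox tc Zc Yc h ρ ↔ ∀ i, |k7fCen tc Zc Yc h u i| ≤ ρ := by
  have hh20 : 0 < h ^ 2 := by positivity
  rw [Fin.forall_fin_succ, Fin.forall_fin_succ, Fin.forall_fin_succ]
  simp only [k7fCen, k7bBox, Set.mem_ofPred_eq, Fin.isValue, Matrix.cons_val_zero, Matrix.cons_val_succ, IsEmpty.forall_iff, and_true,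
    abs_div, abs_of_pos hh, abs_of_pos hh20, div_le_iff₀ hh, div_le_iff₀ hh20]

/-! ## G1. Persistence of `Ok0`      (leaf L-252-S7f-G1, ~200 l.; model: `K7bHor.Ok.shrink` in `S7b/HorDefs`) -/

/-- `Ok0` is monotone in the slack -/
theorem k7f_ok0_mono {H : K7bHor} {c : K7bPar} {K K' : ℝ} (hc : c.WF) (hK : 1 ≤ K) (hKK : K ≤ K') (h : H.Ok0 c K) : H.Ok0 c K' := by
  have hN : 0 < c.N := by linarith [hc.N1]
  have hK0 : 0 < K := by linarith
  have hoK : ENNReal.ofReal K ≤ ENNReal.ofReal K' := ENNReal.ofReal_le_ofReal hKK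
  have ha : ∀ s, 0 < c.a s := fun s => Real.rpow_pos_of_pos hN _
  have hh : ∀ s, 0 < c.h s := fun s => Real.rpow_pos_of_pos hN _
  exact
  { mp := h.mp
    mv := h.mv
    mq0 := h.mq0
    my1 := h.my1
    mSp := h.mSp
    meh := h.meh
    mlab := h.mlab
    masg := h.masg
    νle := h.νle
    νprob := h.νprob
    palle := h.palle
    dom := h.dom.trans (by
      intro A
      simp only [Measure.smul_apply, smul_eq_mul]
      exact mul_le_mul' hoK le_rfl)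
    lamres := h.lamres
    time := h.time
    bdd := fun z hz => by
      obtain ⟨h1, h2, h3, h4⟩ := h.bdd z hz
      exact ⟨h1.trans hKK, h2.trans hKK, h3.trans hKK, h4.trans hKK⟩
    heq := h.heq
    palcap := fun x r h1 h2 => (h.palcap x r h1 h2).trans (ENNReal.ofReal_le_ofReal
      (mul_le_mul_of_nonneg_right hKK (Real.rpow_nonneg (hc.χ0.le.trans h1) _)))
    ehdom := ks_dom_mono h.ehdom le_rfl (fun _ _ => le_rfl) (fun _ => le_rfl) hoK
    refsum := h.refsum.trans hoK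
    refQ := fun s hs q hq F hF => (h.refQ s hs q hq F hF).trans (mul_le_mul' hoK le_rfl)
    capQ := fun s hs q hq C hC => (h.capQ s hs q hq C hC).trans (mul_le_mul' (ENNReal.ofReal_le_ofReal
      (mul_le_mul_of_nonneg_right hKK (Real.rpow_nonneg (ha s).le _))) le_rfl)
    ehlab := h.ehlab
    labmem := h.labmem
    bllen := fun s hs q hq => by
      obtain ⟨h1, h2⟩ := h.bllen s hs q hq
      exact ⟨(div_le_div_of_nonneg_left (hh s).le hK0 hKK).trans h1, h2.trans (mul_le_mul_of_nonneg_right hKK (hh s).le)⟩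
    blkdisj := h.blkdisj
    dyad := h.dyad
    asgdisj := h.asgdisj
    νQ := fun s hs q hq => by
      obtain ⟨h1, h2⟩ := h.νQ s hs q hq
      have hp : 0 ≤ c.a s ^ c.d * c.h s ^ 3 := mul_nonneg (Real.rpow_nonneg (ha s).le _) (pow_nonneg (hh s).le 3)
      refine ⟨le_trans (ENNReal.ofReal_le_ofReal (div_le_div_of_nonneg_left hp hK0 hKK)) h1,
        h2.trans (ENNReal.ofReal_le_ofReal ?_)⟩
      rw [mul_assoc, mul_assoc]
      exact mul_le_mul_of_nonneg_right hKK hp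
    budget := h.budget
    box := fun s hs q hq l hl t ht => by
      obtain ⟨h1, h2, h3⟩ := h.box s hs q hq l hl t ht
      exact ⟨h1.trans (mul_le_mul_of_nonneg_right hKK (hh s).le), h2.trans (mul_le_mul_of_nonneg_right hKK (hh s).le),
        h3.trans (mul_le_mul_of_nonneg_right hKK (pow_nonneg (hh s).le 2))⟩
    nest := h.nest
    anc := h.anc }

/-- `Ok0` persists under restriction of the selection and does not see the entries -/
theorem k7f_ok0_out {H : K7bHor} (T : K7fSh H) (m : ℕ) {c : K7bPar} {K : ℝ} (h : H.Ok0 c K) {E : Set (H.Lam × ℝ)} (hE : E ⊆ H.Sp) (hm : MeasurableSet E) :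
    (T.out m c E).Ok0 c K where
  mp := h.mp
  mv := h.mv
  mq0 := h.mq0
  my1 := h.my1
  mSp := hm
  meh := h.meh
  mlab := h.mlab
  masg := h.masg
  νle := h.νle
  νprob := h.νprob
  palle := h.palle
  dom := h.dom
  lamres := h.lamres
  time := fun z hz => h.time z (hE hz)
  bdd := fun z hz => h.bdd z (hE hz)
  heq := fun z hz => h.heq z (hE hz)
  palcap := h.palcap
  ehdom := by
    have h1 : H.lam.restrict E ≤ H.lam.restrict H.Sp := Measure.restrict_mono hE (le_refl H.lam)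
    exact ks_dom_mono h.ehdom h1 (fun _ _ => le_rfl) (fun _ => le_rfl) le_rfl
  refsum := h.refsum
  refQ := fun s hs q hq F hF => h.refQ s hs q hq F fun e he => by
    obtain ⟨z, hz, h1, h2⟩ := hF e he
    exact ⟨z, hE hz, h1, h2⟩
  capQ := fun s hs q hq C hC => (measure_mono (Set.inter_subset_inter_left _ hE)).trans (h.capQ s hs q hq C hC)
  ehlab := fun s hs z hz z' hz' => h.ehlab s hs z (hE hz) z' (hE hz')
  labmem := fun s hs z hz => h.labmem s hs z (hE hz)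
  bllen := h.bllen
  blkdisj := h.blkdisj
  dyad := h.dyad
  asgdisj := h.asgdisj
  νQ := h.νQ
  budget := h.budget
  box := h.box
  nest := fun s hs s' hs' hss z hz z' hz' => h.nest s hs s' hs' hss z (hE hz) z' (hE hz')
  anc := fun s hs s' hs' hss z hz => h.anc s hs s' hs' hss z (hE hz)

/-! ## G2. A well filled entry is affine to the fitted width -/

/-- the scale `h_s` lies in `(0, 1]` -/
theorem k7f_g2_h {c : K7bPar} (hc : c.WF) {s : ℝ} (hs : s ∈ c.G) : 0 < c.h s ∧ c.h s ≤ 1 := by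
  have hN : 0 < c.N := lt_of_lt_of_le one_pos hc.N1
  refine ⟨by unfold K7bPar.h; exact Real.rpow_pos_of_pos hN _, ?_⟩
  unfold K7bPar.h
  refine Real.rpow_le_one_of_one_le_of_nonpos hc.N1 ?_
  have := mul_nonneg hc.k0.le (hc.G0 s hs)
  linarith

/-- the centred base point of an incidence of the selection lies in the `K`-cube -/
theorem k7f_g2_cb {c : K7bPar} {H : K7bHor} {K s : ℝ} (hc : c.WF) (h : H.Ok0 c K) (hs : s ∈ c.G) {z : H.Lam × ℝ} (hz : z ∈ H.Sp) (i : Fin 3) :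
    |k7fCb H c s z i| ≤ K := by
  obtain ⟨h1, h2, h3⟩ := h.labmem s hs z hz
  have hb := h.box s hs _ h1 z.1 h3 z.2 h2
  exact (k7f_cen_box _ _ _ _ K (k7f_g2_h hc hs).1 _).1 hb i

/-- the centred base points of one line in one label -/
theorem k7f_g2_line {c : K7bPar} {H : K7bHor} {s : ℝ} (hh : c.h s ≠ 0) (l : H.Lam) (t t' : ℝ) (hlab : H.lab s (l, t') = H.lab s (l, t)) :
    k7fCb H c s (l, t') = k7fCb H c s (l, t) + ((t' - t) / c.h s) • k7fDir (k7fCb H c s (l, t)) (H.v l) ((H.y1 l + H.p l) / c.h s) := by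
  unfold k7fCb k7fCenQ
  rw [hlab]
  exact k7f_cen_line _ _ _ _ (H.p l) (H.v l) (H.q0 l) (H.y1 l) t t' hh

/-- the chord estimate at a long incidence -/
theorem k7f_g2_chord (d m : ℕ) (hd : 1 ≤ d) : ∃ (p : ℕ) (C : ℝ), 1 ≤ C ∧
    ∀ (c : K7bPar) (H : K7bHor) (T : K7fSh H) (K r τ s : ℝ) (E0 : Set (H.Lam × ℝ)) (w : H.Lam × ℝ), c.WF → 1 ≤ K → 0 < r → 0 < τ →
      H.Ok0 c K → E0 ⊆ H.Sp → T.Ok c K r d m E0 → s ∈ c.G → w ∈ E0 → T.Long E0 τ s w →
      |hsb_H (T.f m (T.se s w)) (k7fCb H c s w) (k7fDir (k7fCb H c s w) (H.v w.1) ((H.y1 w.1 + H.p w.1) / c.h s))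
        (k7fDir (k7fCb H c s w) (H.v w.1) ((H.y1 w.1 + H.p w.1) / c.h s))| ≤ C * (K * (r / 2) / (τ / K)) ^ p * (K * c.a s) / (τ / K) ^ 2 := by
  obtain ⟨p, C, hC, hch⟩ := k7f_chord d m hd
  refine ⟨p, C, hC, ?_⟩
  intro c H T K r τ s E0 w hc hK hr hτ h hE0 hT hs hw hL
  obtain ⟨l, t0⟩ := w
  obtain ⟨hh0, hh1⟩ := k7f_g2_h hc hs
  have hK0 : 0 < K := lt_of_lt_of_le one_pos hK
  obtain ⟨σ, hσ⟩ : ∃ σ, σ = T.se s (l, t0) := ⟨_, rfl⟩
  obtain ⟨P, hP⟩ : ∃ P : Set ℝ, P = {s' | t0 + c.h s * s' ∈ T.tm E0 s (l, t0)} := ⟨_, rfl⟩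
  -- facts on the On-times
  have htm : ∀ t ∈ T.tm E0 s (l, t0), (l, t) ∈ E0 ∧ T.se s (l, t) = σ ∧ H.lab s (l, t) = H.lab s (l, t0) := by
    intro t ht
    have h1 : (l, t) ∈ E0 := ht.1
    have h2 : T.se s (l, t) = T.se s (l, t0) := ht.2
    refine ⟨h1, by rw [hσ]; exact h2, ?_⟩
    rw [← hT.lab s hs _ h1, ← hT.lab s hs _ hw, h2]
  have hpt : ∀ s' ∈ P, k7fCb H c s (l, t0 + c.h s * s') = k7fCb H c s (l, t0) + s' • k7fDir (k7fCb H c s (l, t0)) (H.v l) ((H.y1 l + H.p l) / c.h s) := by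
    intro s' hs'
    rw [hP] at hs'
    have := k7f_g2_line hh0.ne' l t0 (t0 + c.h s * s') (htm _ hs').2.2
    rw [this]
    congr 2
    field_simp
    ring
  have hcube : ∀ s' ∈ P, ∀ j, |k7fCb H c s (l, t0 + c.h s * s') j - T.cc σ j| ≤ r / 4 := by
    intro s' hs' j
    rw [hP] at hs'
    have h1 := htm _ hs'
    have := hT.cube s hs _ h1.1 j
    rwa [h1.2.1] at this
  have hdeg := hT.deg s hs _ hw
  have hstab := hT.stab s hs _ hw
  rw [← hσ] at hdeg hstab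
  have h0P : (0 : ℝ) ∈ P := by
    rw [hP]
    show t0 + c.h s * 0 ∈ T.tm E0 s (l, t0)
    rw [mul_zero, add_zero]
    exact ⟨hw, rfl⟩
  have hvol : ENNReal.ofReal (τ / K) ≤ volume P := by
    have e1 : P = (fun x : ℝ => c.h s * x) ⁻¹' ((fun x : ℝ => t0 + x) ⁻¹' T.tm E0 s (l, t0)) := by
      rw [hP]; rfl
    rw [e1, Real.volume_preimage_mul_left hh0.ne', measure_preimage_add]
    have hq := (h.labmem s hs _ (hE0 hw)).1
    have hbl := (h.bllen s hs _ hq).1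
    have hL' : ENNReal.ofReal (τ * H.bl (H.lab s (l, t0))) ≤ volume (T.tm E0 s (l, t0)) := hL
    calc ENNReal.ofReal (τ / K) ≤ ENNReal.ofReal |(c.h s)⁻¹| * ENNReal.ofReal (τ * H.bl (H.lab s (l, t0))) := by
          rw [← ENNReal.ofReal_mul (abs_nonneg _)]
          refine ENNReal.ofReal_le_ofReal ?_
          rw [abs_of_pos (inv_pos.2 hh0)]
          have : τ * (c.h s / K) ≤ τ * H.bl (H.lab s (l, t0)) := mul_le_mul_of_nonneg_left hbl hτ.le
          calc τ / K = (c.h s)⁻¹ * (τ * (c.h s / K)) := by field_simp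
            _ ≤ _ := mul_le_mul_of_nonneg_left this (inv_pos.2 hh0).le
      _ ≤ _ := mul_le_mul' le_rfl hL'
  have key := hch K (T.al σ) (T.be σ) (T.Di σ) (fun i => T.cc σ i - r) (fun i => T.cc σ i + r) (k7fCb H c s (l, t0))
    (k7fDir (k7fCb H c s (l, t0)) (H.v l) ((H.y1 l + H.p l) / c.h s)) (H.x0 l + t0 * H.x1 l) (c.h s * H.x1 l) (r / 2) (τ / K) (K * c.a s) P hK
    hdeg.1 hdeg.2.1 hdeg.2.2 hstab (by positivity) ?_ ?_ hvol ?_ 0 h0P
  · rw [zero_smul, add_zero] at key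
    show |hsb_H (T.f m (T.se s (l, t0))) _ _ _| ≤ _
    rw [← hσ]
    exact key
  · intro s' hs'
    rw [← hpt s' hs']
    refine ⟨fun j => ?_, fun j => ?_⟩
    · have := abs_le.1 (hcube s' hs' j)
      show T.cc σ j - r ≤ _
      linarith [this.1]
    · have := abs_le.1 (hcube s' hs' j)
      show _ ≤ T.cc σ j + r
      linarith [this.2]
  · intro s' hs' s'' hs''
    have a1 := hcube s' hs' 0
    have a2 := hcube s'' hs'' 0
    rw [hpt s' hs'] at a1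
    rw [hpt s'' hs''] at a2
    simp only [Pi.add_apply, Pi.smul_apply, smul_eq_mul, k7fDir, Matrix.cons_val_zero, mul_one] at a1 a2
    have b1 := abs_le.1 a1
    have b2 := abs_le.1 a2
    rw [abs_le]
    constructor <;> linarith [b1.1, b1.2, b2.1, b2.2]
  · intro s' hs'
    rw [← hpt s' hs']
    have hs2 := hs'
    rw [hP] at hs2
    have h1 := htm _ hs2
    have := hT.fit s hs _ h1.1
    rw [h1.2.1] at this
    rw [abs_sub_comm]
    have e : H.X (l, t0 + c.h s * s') = H.x0 l + t0 * H.x1 l + c.h s * H.x1 l * s' := by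
      unfold K7bHor.X K7bHor.Xt
      ring
    rw [e] at this
    exact this

/-- arithmetic of the constants -/
theorem k7f_g2_arith {K r τ ρ : ℝ} (hK : 1 ≤ K) (hr : 0 < r) (hr1 : r ≤ 1) (hτ : 0 < τ) (hτ1 : τ ≤ 1) (hρ : 0 < ρ) (hρ1 : ρ ≤ 1) :
    1 ≤ K / (r * τ * ρ) ∧ K * (r / 2) / (τ / K) ≤ (K / (r * τ * ρ)) ^ 2 ∧ K / (τ / K) ^ 2 ≤ (K / (r * τ * ρ)) ^ 3 ∧
      K * (3 * K / ρ) / (τ / K ^ 3 * r) ≤ 3 * (K / (r * τ * ρ)) ^ 5 := by
  have hK0 : 0 < K := lt_of_lt_of_le one_pos hK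
  have hx : 0 < r * τ * ρ := by positivity
  have hx1 : r * τ * ρ ≤ 1 := by
    have : r * τ ≤ 1 := by nlinarith
    nlinarith
  obtain ⟨y, hy⟩ : ∃ y : ℝ, y = 1 / (r * τ * ρ) := ⟨_, rfl⟩
  have hy1 : 1 ≤ y := by rw [hy, le_div_iff₀ hx]; linarith
  have hB : K / (r * τ * ρ) = K * y := by rw [hy]; ring
  have hyτ : 1 / τ ≤ y := by
    rw [hy]
    apply one_div_le_one_div_of_le hx
    have : r * ρ ≤ 1 := by nlinarith
    nlinarith
  have hyall : 1 / (ρ * τ * r) = y := by rw [hy]; ring_nf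
  rw [hB]
  have hτi : 0 < 1 / τ := by positivity
  refine ⟨by nlinarith, ?_, ?_, ?_⟩
  · have e : K * (r / 2) / (τ / K) = K ^ 2 * (r / 2) * (1 / τ) := by field_simp
    rw [e]
    have h1 : K ^ 2 * (r / 2) ≤ K ^ 2 := by nlinarith [sq_nonneg K]
    calc K ^ 2 * (r / 2) * (1 / τ) ≤ K ^ 2 * y := mul_le_mul h1 hyτ hτi.le (by positivity)
      _ ≤ K ^ 2 * y ^ 2 := by
          apply mul_le_mul_of_nonneg_left _ (by positivity)
          nlinarith
      _ = (K * y) ^ 2 := by ring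
  · have e : K / (τ / K) ^ 2 = K ^ 3 * (1 / τ) ^ 2 := by field_simp
    rw [e]
    have h2 : (1 / τ) ^ 2 ≤ y ^ 2 := pow_le_pow_left₀ hτi.le hyτ 2
    calc K ^ 3 * (1 / τ) ^ 2 ≤ K ^ 3 * y ^ 2 := mul_le_mul_of_nonneg_left h2 (by positivity)
      _ ≤ K ^ 3 * y ^ 3 := by
          apply mul_le_mul_of_nonneg_left _ (by positivity)
          exact pow_le_pow_right₀ hy1 (by norm_num)
      _ = (K * y) ^ 3 := by ring
  · have e : K * (3 * K / ρ) / (τ / K ^ 3 * r) = 3 * (K ^ 5 * (1 / (ρ * τ * r))) := by field_simp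
    rw [e, hyall]
    have : y ≤ y ^ 5 := by
      calc y = y ^ 1 := (pow_one y).symm
        _ ≤ y ^ 5 := pow_le_pow_right₀ hy1 (by norm_num)
    calc 3 * (K ^ 5 * y) ≤ 3 * (K ^ 5 * y ^ 5) := by
          apply mul_le_mul_of_nonneg_left _ (by norm_num)
          exact mul_le_mul_of_nonneg_left this (by positivity)
      _ = 3 * (K * y) ^ 5 := by ring

/-- **L-252-S7f-G2 (07 l.1131-1227 for ONE entry; glue of `k7f_fill`, `k7f_chord`, `k7f_an`; ~450 l.).**   `σ = T.se s z0`, `z0 ∈ E0`.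
PROOF.  `q := H.lab s z0 = T.lq σ ∈ Qat s` (`labmem`), `h := c.h s ∈ (0, 1]`.   `|cc σ i| ≤ K + 1` (`box` + `k7f_cen_box` + `cube`).   Let `W` be the set of `Full`; on `W`: `lab s = q`.
(1) `G := k7fCb H c s '' W` lies in the quarter cube (`cube`), `volume G ≥ τ/K³` (`k7f_fill`).
(2) a witness `w` of `z ∈ W` (`Wit3`): same fine state, hence same entry `σ` and `‖k7fCb w - k7fCb z‖ ≤ T.eta` (`close`); `vv = H.v w.1`, `|vv| ≤ K` (`bdd`); `dd = (y1 + p)/h`, `|dd| ≤ N^(-e₀)/h` (`heq`).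
(3) chord of `w = (l, t₀)`:  parameters `P = {(t - t₀)/h | t ∈ T.tm E0 s w}`, `0 ∈ P`;  `k7fCb (l, t) = k7fCb w + ((t - t₀)/h) • k7fDir (k7fCb w) vv dd` (`k7f_cen_line`; the label is `q` at all these incidences), in the quarter cube (`cube`), so `diam P ≤ r/2` (coordinate `0`);
`volume P = volume (tm)/h ≥ τ bl q/h ≥ τ/K` (`Long`, `bllen`);  `H.X (l, t) = (x0 + t₀ x1) + (h x1) ((t - t₀)/h)`, `fit`.   `k7f_chord` at the parameter `0`:  `|hsb_H f (k7fCb w) Dir Dir| ≤ E1 := C₁ (K (r/2)/(τ/K))^p₁ K a_s/(τ/K)²`.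
(4) `k7f_an` with `kap = K`, slack `3 K/ρ`, `θ = τ/K³`, `η = N^(-e₀)/h + T.eta` (`0 ≤ T.eta` by `close` at `z = z' = z0`). -/
theorem k7f_entry (d m : ℕ) (hd : 1 ≤ d) : ∃ (p : ℕ) (C : ℝ), 1 ≤ C ∧
    ∀ (c : K7bPar) (H : K7bHor) (T : K7fSh H) (K r τ ρ s : ℝ) (E0 : Set (H.Lam × ℝ)) (z0 : H.Lam × ℝ), c.WF → 1 ≤ K → 0 < r → r ≤ 1 → 0 < τ → τ ≤ 1 → 0 < ρ → ρ ≤ 1 →
      H.Ok0 c K → E0 ⊆ H.Sp → T.Ok c K r d m E0 → s ∈ c.G → z0 ∈ E0 → T.Full E0 τ ρ s (T.se s z0) →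
      C * (K / (r * τ * ρ)) ^ p * (c.N ^ (-c.e0) / c.h s + T.eta) ≤ 1 →
      ∀ x ∈ k7fCube (T.cc (T.se s z0)) r,
        |T.f m (T.se s z0) x - T.f m (T.se s z0) (T.cc (T.se s z0)) - fderiv ℝ (T.f m (T.se s z0)) (T.cc (T.se s z0)) (x - T.cc (T.se s z0))|
          ≤ C * (K / (r * τ * ρ)) ^ p * c.a s := by
  obtain ⟨p1, C1, hC1, hch⟩ := k7f_g2_chord d m hd
  obtain ⟨p2, C2, hC2, han⟩ := k7f_an d m hd
  refine ⟨5 * p2 + (2 * p1 + 3), C2 * 3 ^ p2 * C1, ?_, ?_⟩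
  · have : (1 : ℝ) ≤ 3 ^ p2 := one_le_pow₀ (by norm_num)
    have h2 : 1 ≤ C2 * 3 ^ p2 := by nlinarith
    nlinarith
  intro c H T K r τ ρ s E0 z0 hc hK hr hr1 hτ hτ1 hρ hρ1 h hE0 hT hs hz0 hFull hsm x hx
  obtain ⟨hh0, hh1⟩ := k7f_g2_h hc hs
  have hK0 : 0 < K := lt_of_lt_of_le one_pos hK
  have hN : 0 < c.N := lt_of_lt_of_le one_pos hc.N1
  have ha0 : 0 < c.a s := by unfold K7bPar.a; exact Real.rpow_pos_of_pos hN _
  obtain ⟨hB1, hA1, hA2, hA3⟩ := k7f_g2_arith hK hr hr1 hτ hτ1 hρ hρ1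
  obtain ⟨B, hB⟩ : ∃ B : ℝ, B = K / (r * τ * ρ) := ⟨_, rfl⟩
  rw [← hB] at hB1 hA1 hA2 hA3 hsm ⊢
  obtain ⟨σ, hσ⟩ : ∃ σ, σ = T.se s z0 := ⟨_, rfl⟩
  rw [← hσ] at hFull hx ⊢
  obtain ⟨W, hWE, hW, hWm⟩ := hFull
  have hq : H.lab s z0 ∈ H.Qat s := (h.labmem s hs z0 (hE0 hz0)).1
  have hlq : T.lq σ = H.lab s z0 := by rw [hσ]; exact hT.lab s hs z0 hz0
  have hdeg := hT.deg s hs _ hz0
  have hstab := hT.stab s hs _ hz0
  rw [← hσ] at hdeg hstab
  have heta0 : 0 ≤ T.eta := (norm_nonneg _).trans (hT.close s hs z0 hz0 z0 hz0 rfl)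
  have he0 : 0 ≤ c.N ^ (-c.e0) / c.h s := by positivity
  obtain ⟨η, hη⟩ : ∃ η : ℝ, η = c.N ^ (-c.e0) / c.h s + T.eta := ⟨_, rfl⟩
  rw [← hη] at hsm
  have hη0 : 0 ≤ η := by rw [hη]; positivity
  -- labels on W
  have hWlab : W ⊆ H.Sp ∩ {z | H.lab s z = H.lab s z0} := by
    intro z hz
    refine ⟨hE0 (hWE hz), ?_⟩
    show H.lab s z = H.lab s z0
    rw [← hT.lab s hs z (hWE hz), (hW z hz).1, hlq]
  rw [hlq] at hWm
  have hvol := (k7f_fill c H hc hK hτ h hs hq W hWlab hWm).2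
  -- the centre
  have hcc : ‖T.cc σ‖ + 1 ≤ 3 * K / ρ := by
    have h1 : ‖T.cc σ‖ ≤ K + 1 / 4 := by
      rw [pi_norm_le_iff_of_nonneg (by positivity)]
      intro i
      have a1 := k7f_g2_cb hc h hs (hE0 hz0) i
      have a2 := hT.cube s hs z0 hz0 i
      rw [← hσ] at a2
      rw [Real.norm_eq_abs]
      have b1 := abs_le.1 a1
      have b2 := abs_le.1 a2
      rw [abs_le]
      constructor <;> linarith [b1.1, b1.2, b2.1, b2.2]
    have h2 : 3 * K ≤ 3 * K / ρ := by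
      rw [le_div_iff₀ hρ]
      nlinarith
    linarith
  have hKan : 1 ≤ 3 * K / ρ := by linarith [norm_nonneg (T.cc σ)]
  have hθ0 : 0 < τ / K ^ 3 := by positivity
  have hθ1 : τ / K ^ 3 ≤ 1 := by
    rw [div_le_one (by positivity)]
    have : (1 : ℝ) ≤ K ^ 3 := one_le_pow₀ hK
    linarith
  obtain ⟨E1, hE1⟩ : ∃ E1 : ℝ, E1 = C1 * (K * (r / 2) / (τ / K)) ^ p1 * (K * c.a s) / (τ / K) ^ 2 := ⟨_, rfl⟩
  have hbase0 : 0 ≤ K * (3 * K / ρ) / (τ / K ^ 3 * r) := by positivity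
  have hpow : (K * (3 * K / ρ) / (τ / K ^ 3 * r)) ^ p2 ≤ 3 ^ p2 * B ^ (5 * p2) := by
    calc (K * (3 * K / ρ) / (τ / K ^ 3 * r)) ^ p2 ≤ (3 * B ^ 5) ^ p2 := pow_le_pow_left₀ hbase0 hA3 p2
      _ = 3 ^ p2 * B ^ (5 * p2) := by rw [mul_pow, ← pow_mul]
  have hB0 : 0 < B := lt_of_lt_of_le one_pos hB1
  have key := han K (3 * K / ρ) (T.al σ) (T.be σ) (T.Di σ) (T.cc σ) r (τ / K ^ 3) E1 η (k7fCb H c s '' W) hK hKan hdeg.1 hdeg.2.1 hdeg.2.2 hr hr1 hcc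
    hθ0 hθ1 hη0 hstab ?_ hvol ?_ ?_ x hx
  · refine key.trans ?_
    have hE1le : E1 ≤ C1 * B ^ (2 * p1 + 3) * c.a s := by
      rw [hE1]
      have h1 : (K * (r / 2) / (τ / K)) ^ p1 ≤ B ^ (2 * p1) := by
        calc (K * (r / 2) / (τ / K)) ^ p1 ≤ (B ^ 2) ^ p1 := pow_le_pow_left₀ (by positivity) hA1 p1
          _ = B ^ (2 * p1) := by rw [← pow_mul]
      calc C1 * (K * (r / 2) / (τ / K)) ^ p1 * (K * c.a s) / (τ / K) ^ 2
          = C1 * (K * (r / 2) / (τ / K)) ^ p1 * (K / (τ / K) ^ 2) * c.a s := by ring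
        _ ≤ C1 * B ^ (2 * p1) * B ^ 3 * c.a s := by
            apply mul_le_mul_of_nonneg_right _ ha0.le
            apply mul_le_mul _ hA2 (by positivity) (by positivity)
            exact mul_le_mul_of_nonneg_left h1 (by linarith)
        _ = C1 * B ^ (2 * p1 + 3) * c.a s := by rw [pow_add]; ring
    have hE10 : 0 ≤ C1 * B ^ (2 * p1 + 3) * c.a s := by positivity
    calc C2 * (K * (3 * K / ρ) / (τ / K ^ 3 * r)) ^ p2 * E1
        ≤ C2 * (3 ^ p2 * B ^ (5 * p2)) * (C1 * B ^ (2 * p1 + 3) * c.a s) := by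
          have hE1n : 0 ≤ E1 := by rw [hE1]; positivity
          apply mul_le_mul _ hE1le hE1n (by positivity)
          exact mul_le_mul_of_nonneg_left hpow (by linarith)
      _ = C2 * 3 ^ p2 * C1 * B ^ (5 * p2 + (2 * p1 + 3)) * c.a s := by rw [pow_add]; ring
  · rintro u ⟨z, hz, rfl⟩ j
    have := hT.cube s hs z (hWE hz) j
    rwa [(hW z hz).1] at this
  · rintro u ⟨z, hz, rfl⟩
    obtain ⟨w, hw, hsep⟩ := (hW z hz).2
    have hse : ∀ i, T.se s (w i) = σ := by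
      intro i
      have := congrArg Prod.fst (hw i).2.2
      simp only [K7fSh.fs] at this
      rw [this, (hW z hz).1]
    refine ⟨fun i => k7fCb H c s (w i), fun i => H.v (w i).1, fun i => (H.y1 (w i).1 + H.p (w i).1) / c.h s, ?_, ?_, ?_, ?_, ?_, ?_⟩
    · intro i j
      have := hT.cube s hs (w i) (hw i).1 j
      rwa [hse i] at this
    · intro i
      refine (hT.close s hs (w i) (hw i).1 z (hWE hz) (hw i).2.2).trans ?_
      rw [hη]; linarith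
    · intro i
      have := (h.bdd (w i) (hE0 (hw i).1)).2.1
      have h2 : K ≤ 3 * K / ρ := by
        rw [le_div_iff₀ hρ]
        nlinarith
      linarith
    · intro i
      rw [abs_div, abs_of_pos hh0, hη]
      have := h.heq (w i) (hE0 (hw i).1)
      have : |H.y1 (w i).1 + H.p (w i).1| / c.h s ≤ c.N ^ (-c.e0) / c.h s := div_le_div_of_nonneg_right this hh0.le
      linarith
    · intro i j hij
      refine le_trans ?_ (hsep i j hij)
      rw [one_div_div, div_le_iff₀ (by positivity)]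
      nlinarith
    · intro i
      have := hch c H T K r τ s E0 (w i) hc hK hr hτ h hE0 hT hs (hw i).1 (hw i).2.1
      rw [hse i] at this
      rw [hE1]
      exact this
  · calc C2 * (K * (3 * K / ρ) / (τ / K ^ 3 * r)) ^ p2 * η ≤ C2 * (3 ^ p2 * B ^ (5 * p2)) * η := by
          apply mul_le_mul_of_nonneg_right _ hη0
          exact mul_le_mul_of_nonneg_left hpow (by linarith)
      _ ≤ C2 * 3 ^ p2 * C1 * B ^ (5 * p2 + (2 * p1 + 3)) * η := by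
          apply mul_le_mul_of_nonneg_right _ hη0
          have h1 : B ^ (5 * p2) ≤ B ^ (5 * p2 + (2 * p1 + 3)) := pow_le_pow_right₀ hB1 (by omega)
          have h3 : (0 : ℝ) < 3 ^ p2 := by positivity
          calc C2 * (3 ^ p2 * B ^ (5 * p2)) = C2 * 3 ^ p2 * 1 * B ^ (5 * p2) := by ring
            _ ≤ C2 * 3 ^ p2 * C1 * B ^ (5 * p2 + (2 * p1 + 3)) := by
                apply mul_le_mul _ h1 (by positivity) (by positivity)
                exact mul_le_mul_of_nonneg_left hC1 (by positivity)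
      _ ≤ 1 := hsm

/-! ## G3. Extrapolation to the block -/

/-- the affine entry is the tangent plane in centred coordinates -/
theorem k7f_g3_aff {H : K7bHor} (T : K7fSh H) (m : ℕ) (c : K7bPar) (s : ℝ) (σ : T.Sg) (u : ℝ × ℝ × ℝ) :
    k7bAff (T.aff m c s σ) u = T.f m σ (T.cc σ) + fderiv ℝ (T.f m σ) (T.cc σ) (k7fCenQ H c s (T.lq σ) u - T.cc σ) := by
  unfold K7fSh.aff
  rw [k7f_affOf_eval]
  have e : ∀ x : Fin 3 → ℝ, fderiv ℝ (T.f m σ) (T.cc σ) x = ∑ i, T.gr m σ i * x i := by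
    intro x
    have := LinearMap.pi_apply_eq_sum_univ (fderiv ℝ (T.f m σ) (T.cc σ)).toLinearMap x
    rw [ContinuousLinearMap.coe_coe] at this
    rw [this]
    refine Finset.sum_congr rfl fun i _ => ?_
    unfold K7fSh.gr
    rw [smul_eq_mul, mul_comm]
    congr 2
    funext j
    rw [Pi.single_apply]
    simp only [eq_comm]
  rw [map_sub, e, e]
  unfold k7fCenQ
  ring

/-- **L-252-S7f-G3 (07 l.1229-1233; ~200 l.).**   "The resulting affine fit agrees with `w` on the stored long times of each contributing line.  Their difference is affine on that line, so extrapolation gives the same bound throughout the block."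
PROOF.  `k7bAff (T.aff m c s σ) u = f (cc) + fderiv f (cc) (k7fCenQ .. u - cc)` (`k7f_affOf_eval`; a continuous linear map on `Fin 3 → ℝ` is `∑ L (Pi.single i 1) * x i`).   For `t ∈ T.tm E0 s z`: `(z.1, t) ∈ E0` has the entry `σ`, the label `lab s z`, its centred base point lies in the cube:
`|Xt z.1 t - k7bAff .. (bs z.1 t)| ≤ K a_s + M` (`fit`, `hM`).   `t ↦ Xt z.1 t - k7bAff L (bs z.1 t)` is `α + β t`.   `tm ⊆ blk (lab s z) ⊆ Icc bt (bt + bl)` (`labmem`), measure `≥ τ bl`: `k7b_affine_extrap` with `K = 1/τ`. -/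
theorem k7f_extrap (c : K7bPar) (H : K7bHor) (T : K7fSh H) {K r τ s M : ℝ} {d m : ℕ} {E0 : Set (H.Lam × ℝ)} {z : H.Lam × ℝ} (hc : c.WF) (hK : 1 ≤ K) (hr : 0 < r)
    (hτ : 0 < τ) (hτ1 : τ ≤ 1) (h : H.Ok0 c K) (hE0 : E0 ⊆ H.Sp) (hT : T.Ok c K r d m E0) (hs : s ∈ c.G) (hz : z ∈ E0) (hL : T.Long E0 τ s z)
    (hM : ∀ x ∈ k7fCube (T.cc (T.se s z)) r,
      |T.f m (T.se s z) x - T.f m (T.se s z) (T.cc (T.se s z)) - fderiv ℝ (T.f m (T.se s z)) (T.cc (T.se s z)) (x - T.cc (T.se s z))| ≤ M) :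
    ∀ t ∈ H.blk (H.lab s z), |H.Xt z.1 t - k7bAff (T.aff m c s (T.se s z)) (H.bs z.1 t)| ≤ (1 + 8 / τ) * (K * c.a s + M) := by
  obtain ⟨σ, hσ⟩ : ∃ σ, σ = T.se s z := ⟨_, rfl⟩
  obtain ⟨q, hq⟩ : ∃ q, q = H.lab s z := ⟨_, rfl⟩
  rw [← hσ] at hM ⊢
  rw [← hq]
  have hlq : T.lq σ = q := by rw [hσ, hq]; exact hT.lab s hs z hz
  have hqm : q ∈ H.Qat s := by rw [hq]; exact (h.labmem s hs z (hE0 hz)).1
  have hh : 0 < c.h s := by
    unfold K7bPar.h
    exact Real.rpow_pos_of_pos (by linarith [hc.N1]) _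
  have hbl : 0 < H.bl q := lt_of_lt_of_le (div_pos hh (by linarith)) (h.bllen s hs q hqm).1
  obtain ⟨L, hLd⟩ : ∃ L, L = T.aff m c s σ := ⟨_, rfl⟩
  -- the difference is affine in time
  have haff : ∀ t, H.Xt z.1 t - k7bAff L (H.bs z.1 t)
      = (H.x0 z.1 - L.1 - L.2.2.1 * H.p z.1 - L.2.2.2 * H.q0 z.1)
        + (H.x1 z.1 - L.2.1 - L.2.2.1 * H.v z.1 - L.2.2.2 * H.y1 z.1) * t := by
    intro t
    unfold K7bHor.Xt k7bAff K7bHor.bs K7bHor.Zt K7bHor.Yt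
    ring
  -- the stored times
  have htm : ∀ t ∈ T.tm E0 s z, t ∈ Set.Icc (H.bt q) (H.bt q + H.bl q) ∧
      |H.Xt z.1 t - k7bAff L (H.bs z.1 t)| ≤ K * c.a s + M := by
    intro t ht
    obtain ⟨ht1, ht2⟩ := ht
    rw [← hσ] at ht2
    have hlab : H.lab s (z.1, t) = q := by rw [← hT.lab s hs _ ht1, ht2, hlq]
    have hb := (h.labmem s hs _ (hE0 ht1)).2.1
    rw [hlab] at hb
    refine ⟨⟨hb.1, hb.2.le⟩, ?_⟩
    have hcb : k7fCb H c s (z.1, t) = k7fCenQ H c s (T.lq σ) (H.bs z.1 t) := by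
      unfold k7fCb
      rw [hlab, hlq]
      rfl
    have hcube := hT.cube s hs _ ht1
    have hfit := hT.fit s hs _ ht1
    rw [ht2, hcb] at hcube hfit
    have hx : k7fCenQ H c s (T.lq σ) (H.bs z.1 t) ∈ k7fCube (T.cc σ) r := by
      unfold k7fCube
      constructor
      · intro i
        have := abs_le.1 (hcube i)
        show T.cc σ i - r ≤ _
        linarith [this.1]
      · intro i
        have := abs_le.1 (hcube i)
        show _ ≤ T.cc σ i + r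
        linarith [this.2]
    have h2 := hM _ hx
    rw [hLd, k7f_g3_aff]
    have hX : H.X (z.1, t) = H.Xt z.1 t := rfl
    rw [hX] at hfit
    have := abs_le.1 hfit
    have := abs_le.1 h2
    rw [abs_le]
    constructor <;> linarith [this.1, this.2]
  have key := k7b_affine_extrap (a := H.bt q) (b := H.bt q + H.bl q)
    (α := H.x0 z.1 - L.1 - L.2.2.1 * H.p z.1 - L.2.2.2 * H.q0 z.1)
    (β := H.x1 z.1 - L.2.1 - L.2.2.1 * H.v z.1 - L.2.2.2 * H.y1 z.1) (A := K * c.a s + M) (K := 1 / τ) (by linarith)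
    (by rw [le_div_iff₀ hτ]; linarith) (T.tm E0 s z) (fun t ht => (htm t ht).1)
    (by
      have e : (H.bt q + H.bl q - H.bt q) / (1 / τ) = τ * H.bl q := by
        field_simp
        ring
      rw [e, hq]
      exact hL)
    (fun t ht => by rw [← haff]; exact (htm t ht).2)
  intro t ht
  have := key t ⟨ht.1, ht.2.le⟩
  rw [← haff, mul_one_div, hLd] at this
  exact this

/-! ## G4. The exit -/

/-- the arithmetic of the constants of `k7f_abs` -/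
theorem k7f_g4_arith (p₂ : ℕ) (C₂ K r ε ρ : ℝ) (hC : 1 ≤ C₂) (hK : 1 ≤ K) (hr : 0 < r) (hr1 : r ≤ 1) (hε : 0 < ε) (hε1 : ε ≤ 1)
    (hρ : 0 < ρ) (hρ1 : ρ ≤ 1) :
    C₂ * (K / (r * (ε / (8 * K ^ 3)) * ρ)) ^ p₂ ≤ 130 * C₂ * 8 ^ p₂ * (K / (r * ε * ρ)) ^ (4 * p₂ + 4) ∧
    K ^ 2 ≤ 130 * C₂ * 8 ^ p₂ * (K / (r * ε * ρ)) ^ (4 * p₂ + 4) ∧
    K ≤ 130 * C₂ * 8 ^ p₂ * (K / (r * ε * ρ)) ^ (4 * p₂ + 4) ∧
    (1 + 8 / (ε / (8 * K ^ 3))) * (K + C₂ * (K / (r * (ε / (8 * K ^ 3)) * ρ)) ^ p₂)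
      ≤ 130 * C₂ * 8 ^ p₂ * (K / (r * ε * ρ)) ^ (4 * p₂ + 4) := by
  have hK0 : 0 < K := by linarith
  obtain ⟨w, hw⟩ : ∃ w : ℝ, w = r * ε * ρ := ⟨_, rfl⟩
  have hw0 : 0 < w := by rw [hw]; positivity
  have hwε : w ≤ ε := by
    rw [hw]
    calc r * ε * ρ ≤ 1 * ε * 1 := by gcongr
      _ = ε := by ring
  have hw1 : w ≤ 1 := hwε.trans hε1
  obtain ⟨x, hx⟩ : ∃ x : ℝ, x = K / w := ⟨_, rfl⟩
  have hxK : K ≤ x := by
    rw [hx, le_div_iff₀ hw0]
    nlinarith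
  have hx1 : 1 ≤ x := hK.trans hxK
  have hx0 : 0 < x := by linarith
  obtain ⟨y, hy⟩ : ∃ y : ℝ, y = K / (r * (ε / (8 * K ^ 3)) * ρ) := ⟨_, rfl⟩
  have hy0 : 0 ≤ y := by rw [hy]; positivity
  have hy1 : y ≤ 8 * x ^ 4 := by
    have e : y = 8 * (K ^ 4 / w) := by
      rw [hy, hw]
      field_simp
    rw [e, hx, div_pow]
    refine mul_le_mul_of_nonneg_left ?_ (by norm_num)
    refine div_le_div_of_nonneg_left (by positivity) (by positivity) ?_
    calc w ^ 4 ≤ w ^ 1 := pow_le_pow_of_le_one hw0.le hw1 (by norm_num)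
      _ = w := pow_one w
  have hz : 8 / (ε / (8 * K ^ 3)) ≤ 64 * x ^ 3 := by
    have e : 8 / (ε / (8 * K ^ 3)) = 64 * (K ^ 3 / ε) := by
      field_simp
      ring
    rw [e, hx, div_pow]
    refine mul_le_mul_of_nonneg_left ?_ (by norm_num)
    refine div_le_div_of_nonneg_left (by positivity) (by positivity) ?_
    calc w ^ 3 ≤ w ^ 1 := pow_le_pow_of_le_one hw0.le hw1 (by norm_num)
      _ = w := pow_one w
      _ ≤ ε := hwε
  rw [← hw, ← hx, ← hy]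
  obtain ⟨B, hB⟩ : ∃ B : ℝ, B = C₂ * 8 ^ p₂ := ⟨_, rfl⟩
  have hB1 : 1 ≤ B := by
    rw [hB]
    calc (1 : ℝ) = 1 * 1 := by ring
      _ ≤ C₂ * 8 ^ p₂ := mul_le_mul hC (one_le_pow₀ (by norm_num)) (by norm_num) (by linarith)
  obtain ⟨X, hX⟩ : ∃ X : ℝ, X = x ^ (4 * p₂) := ⟨_, rfl⟩
  have hX1 : 1 ≤ X := by rw [hX]; exact one_le_pow₀ hx1
  have hyp : C₂ * y ^ p₂ ≤ B * X := by
    rw [hB, hX, mul_assoc]
    refine mul_le_mul_of_nonneg_left ?_ (by linarith)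
    calc y ^ p₂ ≤ (8 * x ^ 4) ^ p₂ := pow_le_pow_left₀ hy0 hy1 p₂
      _ = 8 ^ p₂ * x ^ (4 * p₂) := by rw [mul_pow, ← pow_mul]
  have e : 130 * C₂ * 8 ^ p₂ * x ^ (4 * p₂ + 4) = 130 * (B * X) * x ^ 4 := by
    rw [hB, hX, pow_add]
    ring
  rw [e]
  have hBX : 1 ≤ B * X := by nlinarith
  have hx2 : 1 ≤ x ^ 2 := one_le_pow₀ hx1
  have hx3 : 1 ≤ x ^ 3 := one_le_pow₀ hx1
  have hx4 : 1 ≤ x ^ 4 := one_le_pow₀ hx1
  have hx24 : x ^ 2 ≤ x ^ 4 := pow_le_pow_right₀ hx1 (by norm_num)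
  have hx14 : x ≤ x ^ 4 := by
    calc x = x ^ 1 := (pow_one x).symm
      _ ≤ x ^ 4 := pow_le_pow_right₀ hx1 (by norm_num)
  have hbig : x ^ 4 ≤ 130 * (B * X) * x ^ 4 := by nlinarith
  refine ⟨?_, ?_, ?_, ?_⟩
  · nlinarith
  · have : K ^ 2 ≤ x ^ 2 := pow_le_pow_left₀ hK0.le hxK 2
    linarith
  · linarith
  · have h1 : 1 + 8 / (ε / (8 * K ^ 3)) ≤ 65 * x ^ 3 := by linarith
    have h2 : K + C₂ * y ^ p₂ ≤ 2 * (B * X) * x := by nlinarith
    calc (1 + 8 / (ε / (8 * K ^ 3))) * (K + C₂ * y ^ p₂) ≤ (65 * x ^ 3) * (2 * (B * X) * x) :=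
          mul_le_mul h1 h2 (by positivity) (by positivity)
      _ = 130 * (B * X) * x ^ 4 := by ring

/-- **L-252-S7f-G4 = ABSTRACT FORM OF `a06:horizontal-affine-approximation` (glue; ~300 l.).**
PROOF.  `k7f_sel` gives `E`, `τ = ε/(8 K³)`.   `Ok0`: `k7f_ok0_out`, `k7f_ok0_mono`.   `ment`: `ks_lab_comp`.   `entcard`: `Finset.card_image_le`, `#G ≤ K`, `card` (`Set.ncard` of a filter).   `entmem`: `lab`.   `entfit`: `k7f_entry` (with `z0 = z`) + `k7f_extrap`.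
Constants: `(p₂, C₂)` of `k7f_entry`;  `K/(r τ ρ) = 8 K⁴/(r ε ρ) ≤ 8 (K/(r ε ρ))⁴`. -/
theorem k7f_abs (d m : ℕ) (hd : 1 ≤ d) : ∃ (p : ℕ) (C : ℝ), 1 ≤ C ∧
    ∀ (c : K7bPar) (H : K7bHor) (T : K7fSh H) (K r ε ρ : ℝ) (E0 : Set (H.Lam × ℝ)), c.WF → 1 ≤ K → 0 < r → r ≤ 1 → 0 < ε → ε ≤ 1 → 0 < ρ → ρ + 2 * c.χ ≤ 1 →
      (c.G.card : ℝ) ≤ K → H.Ok0 c K → Measurable H.x0 → Measurable H.x1 → E0 ⊆ H.Sp → MeasurableSet E0 → T.Ok c K r d m E0 →
      512 * K ^ 8 * (ρ + 2 * c.χ) ^ c.S < ε ^ 2 →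
      (∀ s ∈ c.G, C * (K / (r * ε * ρ)) ^ p * (c.N ^ (-c.e0) / c.h s + T.eta) ≤ 1) →
      ∃ E ⊆ E0, MeasurableSet E ∧ H.lam (E0 \ E) ≤ ENNReal.ofReal ε ∧ (T.out m c E).OkE c (C * (K / (r * ε * ρ)) ^ p) := by
  obtain ⟨p₂, C₂, hC₂, hent⟩ := k7f_entry d m hd
  refine ⟨4 * p₂ + 4, 130 * C₂ * 8 ^ p₂, ?_, ?_⟩
  · have : (1 : ℝ) ≤ 8 ^ p₂ := one_le_pow₀ (by norm_num)
    nlinarith
  intro c H T K r ε ρ E0 hc hK hr hr1 hε hε1 hρ hρ1 hG h hx0 hx1 hE0 hm hT hsep hsm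
  have hρ1' : ρ ≤ 1 := by linarith [hc.χ0]
  have hK0 : 0 < K := by linarith
  obtain ⟨a1, a2, a3, a4⟩ := k7f_g4_arith p₂ C₂ K r ε ρ hC₂ hK hr hr1 hε hε1 hρ hρ1'
  obtain ⟨K', hK'⟩ : ∃ K' : ℝ, K' = 130 * C₂ * 8 ^ p₂ * (K / (r * ε * ρ)) ^ (4 * p₂ + 4) := ⟨_, rfl⟩
  rw [← hK'] at a1 a2 a3 a4 ⊢
  obtain ⟨τ, hτd⟩ : ∃ τ : ℝ, τ = ε / (8 * K ^ 3) := ⟨_, rfl⟩
  have hτ : 0 < τ := by rw [hτd]; positivity
  have hτ1 : τ ≤ 1 := by
    rw [hτd, div_le_one (by positivity)]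
    have : (1 : ℝ) ≤ K ^ 3 := one_le_pow₀ hK
    linarith
  obtain ⟨E, hEE0, hEm, hloss, hsel⟩ := k7f_sel c H T hc hK hε hε1 hρ hρ1 hG h hE0 hm hT hsep
  rw [← hτd] at hsel a1 a4
  refine ⟨E, hEE0, hEm, hloss, ?_⟩
  have hN : 0 < c.N := by linarith [hc.N1]
  have ha : ∀ s, 0 < c.a s := fun s => Real.rpow_pos_of_pos hN _
  have hh : ∀ s, 0 < c.h s := fun s => Real.rpow_pos_of_pos hN _
  exact
  { toOk0 := k7f_ok0_mono hc hK a3 (k7f_ok0_out T m h (hEE0.trans hE0) hEm)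
    mx0 := hx0
    mx1 := hx1
    ment := fun s hs => ks_lab_comp (hT.mse s hs) (fun σ => T.aff m c s σ)
    entcard := fun q => by
      classical
      have h1 : (((T.out m c E).ent q).card : ℝ) ≤ (c.G.card : ℝ) * ((Finset.univ.filter fun σ => T.lq σ = q).card : ℝ) := by
        have : ((T.out m c E).ent q).card ≤ (c.G ×ˢ Finset.univ.filter fun σ => T.lq σ = q).card := by
          unfold K7fSh.out
          simp only
          convert Finset.card_image_le using 2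
        rw [Finset.card_product] at this
        exact_mod_cast this
      have h2 : ((Finset.univ.filter fun σ => T.lq σ = q).card : ℝ) ≤ K := by
        have := hT.card q
        rw [Set.ncard_eq_toFinset_card'] at this
        convert this using 3
        ext σ
        simp
      calc (((T.out m c E).ent q).card : ℝ) ≤ (c.G.card : ℝ) * ((Finset.univ.filter fun σ => T.lq σ = q).card : ℝ) := h1
        _ ≤ K * K := mul_le_mul hG h2 (by positivity) hK0.le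
        _ = K ^ 2 := by ring
        _ ≤ K' := a2
    entmem := fun s hs z hz => by
      classical
      have hz' : z ∈ E := hz
      show T.aff m c s (T.se s z) ∈ (T.out m c E).ent (H.lab s z)
      unfold K7fSh.out
      simp only
      refine Finset.mem_image.2 ⟨(s, T.se s z), ?_, rfl⟩
      rw [Finset.mem_product]
      exact ⟨hs, Finset.mem_filter.2 ⟨Finset.mem_univ _, hT.lab s hs z (hEE0 hz')⟩⟩
    entfit := fun s hs z hz t ht => by
      have hz' : z ∈ E := hz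
      have hz0 : z ∈ E0 := hEE0 hz'
      obtain ⟨hL, hF⟩ := hsel s hs z hz'
      have heta : 0 ≤ T.eta := (norm_nonneg _).trans (hT.close s hs z hz0 z hz0 rfl)
      have hq0 : 0 ≤ c.N ^ (-c.e0) / c.h s + T.eta := by
        have : 0 < c.N ^ (-c.e0) / c.h s := div_pos (Real.rpow_pos_of_pos hN _) (hh s)
        linarith
      have hsm' : C₂ * (K / (r * τ * ρ)) ^ p₂ * (c.N ^ (-c.e0) / c.h s + T.eta) ≤ 1 :=
        (mul_le_mul_of_nonneg_right a1 hq0).trans (by rw [hK']; exact hsm s hs)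
      have hM := hent c H T K r τ ρ s E0 z hc hK hr hr1 hτ hτ1 hρ hρ1' h hE0 hT hs hz0 hF hsm'
      have key := k7f_extrap c H T hc hK hr hτ hτ1 h hE0 hT hs hz0 hL hM t ht
      show |H.Xt z.1 t - k7bAff (T.aff m c s (T.se s z)) (H.bs z.1 t)| ≤ K' * c.a s
      refine key.trans ?_
      have e : (1 + 8 / τ) * (K * c.a s + C₂ * (K / (r * τ * ρ)) ^ p₂ * c.a s)
          = (1 + 8 / τ) * (K + C₂ * (K / (r * τ * ρ)) ^ p₂) * c.a s := by ring
      rw [e]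
      exact mul_le_mul_of_nonneg_right a4 (ha s).le }

end

end Claimed.Agent.R252
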