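-- KEEP
import Claimed.Agent.R252.S7f.AbsContract
import Claimed.Agent.R252.S7b.Lift
import Claimed.Agent.R252.S7b.P4Remez

/-!
# Row 252, Sec. 7.5, post BP-252-S7b-S2, file 5: THE ADAPTOR `KsRef.Ok` + `K7bDat` ⟶ sheet entries, and the TOP `k7f_S2`.   CONTRACT: the `sorry`s are the leaves L-252-S7f-D1 .. D7      (sub-architect helper1; prefix `k7f_`)

07 l.1109-1116: "Use the stable-ball preparation for the hidden test sheet, choosing the branch on which the observed `w` lies within `K Δ`.  Above the high-curvature cutoff, the affine quadratic centre already gives the required fit.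
Below that cutoff, the discriminant bounds and simple-root stability give balls with inverse-subpower radii.  Passing from packet axes to the centred boxes costs only `K`, and the ball and branch choices number at most `K` per true label."
PAPER-FREE leaves: D1 (polynomials), D3 (`K7bHor`), D4 (`K7bHor`, `K7fSh`).   D2, D5, D6, D7 read `State/KsCore` (`KsRef`, `KsRef.Ok`: fields `ent_*`, `tst_*`, `box_mem`, `lab`, `inv`), `S7b/HorLink` (`K7bDat`, `X.hor`), `S7b/Lift` (`k7b_link_*`, `K7bDat.up`).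
Prove IN PLACE (replace your `sorry`, helper lemmas directly above your theorem, prefix `k7f_d<i>_`).   Statements are frozen; defects: one line to helper1.
CHAIN:  `k7f_light` (light labels) → `k7f_ad_ball` (`T.OkB`: stable on a cube of radius `2r` about every incidence) → `k7f_cub` (`T.cub`: cut into cubes of a grid, `T.Ok`) → `k7f_abs` → `k7f_upd_okE` → `k7f_S2`.
ENTRY OF S2 = `X.hor.Ok0 c K` (exit of S1) + `K7fLk X c K ξf fc` (link facts, to be supplied with S1).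
-/

set_option autoImplicit false

namespace Claimed.Agent.R252

open MeasureTheory
open scoped ENNReal BigOperators

noncomputable section

/-! ## Definitions -/

/-- a tangent base point from its vector `(t, Z, Y)` -/
def k7fTb (x : Fin 3 → ℝ) : ℝ × KbB KbVer.two := (x 0, ![x 1, x 2])

/-- the affine map `x ↦ b + A x` -/
def k7fAm (A : Matrix (Fin 3) (Fin 3) ℝ) (b : Fin 3 → ℝ) (x : Fin 3 → ℝ) : Fin 3 → ℝ := b + A.mulVec x

namespace K7fSh

variable {H : K7bHor} (T : K7fSh H)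

/-- **sheet entries before the cut into cubes**: the discriminant is stable on the cube of radius `2 r` about the centred base point of every incidence (`cc` is not used) -/
structure OkB (c : K7bPar) (K r : ℝ) (d m : ℕ) (E0 : Set (H.Lam × ℝ)) : Prop where
  mse : ∀ s ∈ c.G, KsLab (T.se s)
  mfc : ∀ s ∈ c.G, KsLab (T.fc s)
  lab : ∀ s ∈ c.G, ∀ z ∈ E0, T.lq (T.se s z) = H.lab s z
  card : ∀ q, (Set.ncard {σ | T.lq σ = q} : ℝ) ≤ K
  deg : ∀ s ∈ c.G, ∀ z ∈ E0, (T.al (T.se s z)).totalDegree ≤ d ∧ (T.be (T.se s z)).totalDegree ≤ d ∧ (T.Di (T.se s z)).totalDegree ≤ d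
  stabB : ∀ s ∈ c.G, ∀ z ∈ E0, ∀ x : Fin 3 → ℝ, (∀ i, |x i - k7fCb H c s z i| ≤ 2 * r) →
    1 / K ≤ MvPolynomial.eval x (T.Di (T.se s z)) ∧ MvPolynomial.eval x (T.Di (T.se s z)) ≤ K
  fit : ∀ s ∈ c.G, ∀ z ∈ E0, |H.X z - T.f m (T.se s z) (k7fCb H c s z)| ≤ K * c.a s
  close : ∀ s ∈ c.G, ∀ z ∈ E0, ∀ z' ∈ E0, T.fs s z = T.fs s z' → ‖k7fCb H c s z - k7fCb H c s z'‖ ≤ T.eta
  opt : ∀ s ∈ c.G, ∃ n : ℕ, (n : ℝ) ≤ K ∧ KsOpt (H.lam.restrict E0) H.eh (T.fs s) n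

end K7fSh

/-- the index of the cell of mesh `r/2` of a coordinate in `[-n0 r/2, n0 r/2)`, shifted by `n0` and clamped -/
def k7fIdx (n0 : ℕ) (r x : ℝ) : Fin (2 * n0 + 1) := ⟨min (⌊x / (r / 2)⌋ + n0).toNat (2 * n0), by omega⟩

/-- **the cut into cubes**: entries = (entry, cell of mesh `r/2` of the centred base point); cube = same centre, radius `r` -/
def K7fSh.cub {H : K7bHor} (T : K7fSh H) (c : K7bPar) (r : ℝ) (n0 : ℕ) : K7fSh H where
  Sg := T.Sg × (Fin 3 → Fin (2 * n0 + 1))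
  se := fun s z => (T.se s z, fun i => k7fIdx n0 r (k7fCb H c s z i))
  lq := fun σ => T.lq σ.1
  al := fun σ => T.al σ.1
  be := fun σ => T.be σ.1
  Di := fun σ => T.Di σ.1
  cc := fun σ i => (((σ.2 i : ℕ) : ℝ) - n0 + 1 / 2) * (r / 2)
  Fc := T.Fc
  fc := T.fc
  eta := T.eta

variable {R : KsRef KbVer.two}

/-- **the link facts which S2 needs besides `Ok0`** (to be supplied with the exit of S1).   `fc` = ANY countable fine position label of TANGENT incidences (cells of a fine mesh in any coordinates) of accuracy `ξf` in the NORMALISED base -/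
structure K7fLk (X : K7bDat R) (c : K7bPar) (K ξf : ℝ) {Fc : Type} (fc : R.L × ℝ → Fc) : Prop where
  N : c.N = R.N
  sub : X.Sp ⊆ R.Ev0
  dep : ∀ s ∈ c.G, X.r + s ∈ R.depths
  κ0 : X.κ ≠ 0
  mfc : KsLab fc
  close : ∀ p ∈ X.Sp, ∀ p' ∈ X.Sp, fc p = fc p' → |(X.nb (R.base p)).1 - (X.nb (R.base p')).1| ≤ ξf ∧
    |(X.nb (R.base p)).2.1 - (X.nb (R.base p')).2.1| ≤ ξf ∧ |(X.nb (R.base p)).2.2 - (X.nb (R.base p')).2.2| ≤ ξf
  /-- an end history leaves `≤ K` options for (graph entry of depth `r + s`, fine position) -/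
  opt : ∀ s ∈ c.G, ∃ n : ℕ, (n : ℝ) ≤ K ∧
    KsOpt (X.hor.lam.restrict X.hor.Sp) X.hor.eh (fun z => (R.ent (X.r + s) (X.inc z), fc (X.inc z))) n

/-- the same data with a smaller selection (given in NORMALISED incidences) and new affine entries (functions of NORMALISED incidences) -/
def K7bDat.upd (X : K7bDat R) (E : Set (R.L × ℝ)) (ent : R.Lab → Finset (ℝ × ℝ × ℝ × ℝ)) (entOf : ℝ → R.L × ℝ → ℝ × ℝ × ℝ × ℝ) : K7bDat R :=
  { X with
    Sp := X.up E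
    ent := ent
    entOf := fun s p => entOf s (p.1, (p.2 - X.t0) / X.q) }

theorem k7f_ad_eqns_cite : True := by
  have := @k7fTb.eq_1
  have := @k7fAm.eq_1
  have := @k7fIdx.eq_1
  have := @K7fSh.cub.eq_1
  have := @K7bDat.upd.eq_1
  trivial

/-! ## D1. Affine substitution in the class -/

theorem k7f_d1_deg {σ τ : Type*} [Fintype τ] (f : σ → MvPolynomial τ ℝ) (hf : ∀ i, (f i).totalDegree ≤ 1) (P : MvPolynomial σ ℝ) :
    (MvPolynomial.bind₁ f P).totalDegree ≤ P.totalDegree := by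
  classical
  conv_lhs => rw [P.as_sum]
  rw [map_sum]
  refine (MvPolynomial.totalDegree_finsetSum _ _).trans ?_
  refine Finset.sup_le ?_
  intro e he
  rw [MvPolynomial.bind₁_monomial]
  refine (MvPolynomial.totalDegree_mul _ _).trans ?_
  rw [MvPolynomial.totalDegree_C, zero_add]
  refine (MvPolynomial.totalDegree_finsetProd _ _).trans ?_
  have h1 : ∑ i ∈ e.support, (f i ^ e i).totalDegree ≤ ∑ i ∈ e.support, e i := by
    refine Finset.sum_le_sum ?_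
    intro i _
    refine (MvPolynomial.totalDegree_pow _ _).trans ?_
    calc e i * (f i).totalDegree ≤ e i * 1 := Nat.mul_le_mul_left _ (hf i)
      _ = e i := mul_one _
  refine h1.trans ?_
  exact MvPolynomial.le_totalDegree he

/-- **L-252-S7f-D1 (~200 l., Mathlib only).**   `P' := MvPolynomial.bind₁ (fun i => C (b i) + ∑ j, C (A i j) * X j) P`.   Evaluation: `MvPolynomial.eval₂Hom`/`aeval` of `bind₁` (`MvPolynomial.eval₂Hom_bind₁`, `aeval_bind₁`, or induction on `P`).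
Degree: induction (`MvPolynomial.induction_on`) does not control degrees directly; write `P = ∑ monomials` (`P.as_sum`), `bind₁` of a monomial is `C a * ∏ (affine)^(e i)`, `totalDegree_mul`, `totalDegree_finset_prod`, `totalDegree_pow`, `totalDegree_finset_sum`. -/
theorem k7f_poly_comp (P : MvPolynomial (Fin 3) ℝ) (A : Matrix (Fin 3) (Fin 3) ℝ) (b : Fin 3 → ℝ) :
    ∃ P' : MvPolynomial (Fin 3) ℝ, P'.totalDegree ≤ P.totalDegree ∧ ∀ x, MvPolynomial.eval x P' = MvPolynomial.eval (k7fAm A b x) P := by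
  refine ⟨MvPolynomial.bind₁ (fun i => MvPolynomial.C (b i) + ∑ j, MvPolynomial.C (A i j) * MvPolynomial.X j) P, k7f_d1_deg _ ?_ P, ?_⟩
  · intro i
    refine (MvPolynomial.totalDegree_add _ _).trans ?_
    rw [MvPolynomial.totalDegree_C]
    refine max_le (Nat.zero_le _) ?_
    refine (MvPolynomial.totalDegree_finsetSum _ _).trans ?_
    refine Finset.sup_le ?_
    intro j _
    refine (MvPolynomial.totalDegree_mul _ _).trans ?_
    rw [MvPolynomial.totalDegree_C, zero_add, MvPolynomial.totalDegree_X]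
  · intro x
    have h := MvPolynomial.eval₂Hom_bind₁ (RingHom.id ℝ) x (fun i => MvPolynomial.C (b i) + ∑ j, MvPolynomial.C (A i j) * MvPolynomial.X j) P
    have e : (fun i => MvPolynomial.eval₂Hom (RingHom.id ℝ) x (MvPolynomial.C (b i) + ∑ j, MvPolynomial.C (A i j) * MvPolynomial.X j)) = k7fAm A b x := by
      funext i
      simp [k7fAm, Matrix.mulVec, dotProduct]
    rw [e] at h
    exact h

/-- the class is invariant under affine substitutions (three times `k7f_poly_comp`) -/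
theorem k7f_val_comp (m : ℕ) (α β D : MvPolynomial (Fin 3) ℝ) (A : Matrix (Fin 3) (Fin 3) ℝ) (b : Fin 3 → ℝ) :
    ∃ α' β' D' : MvPolynomial (Fin 3) ℝ, α'.totalDegree ≤ α.totalDegree ∧ β'.totalDegree ≤ β.totalDegree ∧ D'.totalDegree ≤ D.totalDegree ∧
      (∀ x, MvPolynomial.eval x D' = MvPolynomial.eval (k7fAm A b x) D) ∧ ∀ x, sh2_val m α' β' D' x = sh2_val m α β D (k7fAm A b x) := by
  obtain ⟨α', a1, a2⟩ := k7f_poly_comp α A b
  obtain ⟨β', b1, b2⟩ := k7f_poly_comp β A b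
  obtain ⟨D', d1, d2⟩ := k7f_poly_comp D A b
  refine ⟨α', β', D', a1, b1, d1, d2, fun x => ?_⟩
  unfold sh2_val
  rw [a2, b2, d2]

/-! ## D2. The graph of an entry belongs to the class -/

theorem k7f_d2_dot (a y : KbB KbVer.two) : a ⬝ᵥ y = a (0 : Fin 2) * y (0 : Fin 2) + a (1 : Fin 2) * y (1 : Fin 2) :=
  Fin.sum_univ_two fun i : Fin 2 => a i * y i

theorem k7f_d2_mv (A : Matrix (Fin KbVer.two.j) (Fin KbVer.two.j) ℝ) (y : KbB KbVer.two) (i : Fin 2) :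
    A.mulVec y i = A i (0 : Fin 2) * y (0 : Fin 2) + A i (1 : Fin 2) * y (1 : Fin 2) :=
  Fin.sum_univ_two fun k : Fin 2 => A i k * y k

theorem k7f_d2_Cmul (a : ℝ) (p : MvPolynomial (Fin 3) ℝ) : (MvPolynomial.C a * p).totalDegree ≤ p.totalDegree := by
  refine (MvPolynomial.totalDegree_mul _ _).trans ?_
  rw [MvPolynomial.totalDegree_C, zero_add]

theorem k7f_d2_Xmul (i : Fin 3) {p : MvPolynomial (Fin 3) ℝ} (hp : p.totalDegree ≤ 1) : (MvPolynomial.X i * p).totalDegree ≤ 2 := by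
  refine (MvPolynomial.totalDegree_mul _ _).trans ?_
  rw [MvPolynomial.totalDegree_X]
  omega

theorem k7f_d2_lin (a0 a1 a2 a3 : ℝ) : ∃ p : MvPolynomial (Fin 3) ℝ, p.totalDegree ≤ 1 ∧
    ∀ x, MvPolynomial.eval x p = a0 + a1 * x 0 + a2 * x 1 + a3 * x 2 := by
  refine ⟨MvPolynomial.C a0 + MvPolynomial.C a1 * MvPolynomial.X 0 + MvPolynomial.C a2 * MvPolynomial.X 1
    + MvPolynomial.C a3 * MvPolynomial.X 2, ?_, fun x => by simp⟩
  have hX : ∀ (a : ℝ) (i : Fin 3), (MvPolynomial.C a * MvPolynomial.X i : MvPolynomial (Fin 3) ℝ).totalDegree ≤ 1 := by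
    intro a i
    refine (k7f_d2_Cmul _ _).trans ?_
    rw [MvPolynomial.totalDegree_X]
  refine (MvPolynomial.totalDegree_add _ _).trans (max_le ((MvPolynomial.totalDegree_add _ _).trans
    (max_le ((MvPolynomial.totalDegree_add _ _).trans (max_le ?_ (hX _ _))) (hX _ _))) (hX _ _))
  rw [MvPolynomial.totalDegree_C]
  exact Nat.zero_le _

/-- a quadratic test as a polynomial in `w` with polynomial coefficients in `x = (t, Z, Y)` -/
theorem k7f_d2_quad (Qd : KbQuad KbVer.two) : ∃ bP P0 : MvPolynomial (Fin 3) ℝ, bP.totalDegree ≤ 1 ∧ P0.totalDegree ≤ 2 ∧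
    ∀ (x : Fin 3 → ℝ) (w : ℝ), Qd.ev (k7fTb x).1 (k7fTb x).2 w = MvPolynomial.eval x P0 + MvPolynomial.eval x bP * w + Qd.cww * w ^ 2 := by
  obtain ⟨bP, hb1, hb2⟩ := k7f_d2_lin Qd.cw Qd.ctw (Qd.cyw (0 : Fin 2)) (Qd.cyw (1 : Fin 2))
  obtain ⟨L0, h01, h02⟩ := k7f_d2_lin Qd.c0 Qd.ct (Qd.cy (0 : Fin 2)) (Qd.cy (1 : Fin 2))
  obtain ⟨L1, h11, h12⟩ := k7f_d2_lin 0 Qd.ctt (Qd.cty (0 : Fin 2)) (Qd.cty (1 : Fin 2))
  obtain ⟨L2, h21, h22⟩ := k7f_d2_lin 0 0 (Qd.cyy (0 : Fin 2) (0 : Fin 2)) (Qd.cyy (0 : Fin 2) (1 : Fin 2))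
  obtain ⟨L3, h31, h32⟩ := k7f_d2_lin 0 0 (Qd.cyy (1 : Fin 2) (0 : Fin 2)) (Qd.cyy (1 : Fin 2) (1 : Fin 2))
  refine ⟨bP, L0 + MvPolynomial.X 0 * L1 + MvPolynomial.X 1 * L2 + MvPolynomial.X 2 * L3, hb1, ?_, fun x w => ?_⟩
  · exact (MvPolynomial.totalDegree_add _ _).trans (max_le ((MvPolynomial.totalDegree_add _ _).trans
      (max_le ((MvPolynomial.totalDegree_add _ _).trans (max_le (h01.trans (by norm_num)) (k7f_d2_Xmul _ h11))) (k7f_d2_Xmul _ h21)))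
      (k7f_d2_Xmul _ h31))
  · have e0 : (k7fTb x).2 (0 : Fin 2) = x 1 := rfl
    have e1 : (k7fTb x).2 (1 : Fin 2) = x 2 := rfl
    have e2 : (k7fTb x).1 = x 0 := rfl
    simp only [map_add, map_mul, MvPolynomial.eval_X, hb2, h02, h12, h22, h32]
    unfold KbQuad.ev
    rw [k7f_d2_dot Qd.cy, k7f_d2_dot Qd.cty, k7f_d2_dot Qd.cyw, k7f_d2_dot (k7fTb x).2, k7f_d2_mv, k7f_d2_mv, e0, e1, e2]
    ring

/-- unit coordinates and back -/
theorem k7f_d2_ofUnit {K : ℝ} (hR : R.Ok K) (Q : R.Lab) (z : ℝ × KbB KbVer.two) : R.ofUnit Q (R.unit Q z) = z := by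
  have hq : R.q Q ≠ 0 := (pow_pos (by norm_num : (0 : ℝ) < 1 / 2) _).ne'
  have h1 : R.t0 Q + R.q Q * ((z.1 - R.t0 Q) / R.q Q) = z.1 := by
    field_simp
    ring
  unfold KsRef.ofUnit KsRef.unit
  simp only
  rw [h1, Matrix.mulVec_mulVec, hR.inv, Matrix.one_mulVec]
  ext <;> simp

/-- the algebra of a simple root -/
theorem k7f_d2_root {K P0 b cww g σ : ℝ} (hK : 1 ≤ K) (hσ : σ = 1 ∨ σ = -1) (h0 : P0 + b * g + cww * g ^ 2 = 0)
    (h1 : 1 ≤ K * (σ * (b + 2 * cww * g))) (h2 : |b + 2 * cww * g| ≤ K) :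
    1 / K ^ 2 ≤ b ^ 2 - 4 * cww * P0 ∧ b ^ 2 - 4 * cww * P0 ≤ K ^ 2 ∧ Real.sqrt (b ^ 2 - 4 * cww * P0) = σ * (b + 2 * cww * g) ∧
      0 < σ * (b + 2 * cww * g) ∧ b ^ 2 - 4 * cww * P0 = (σ * (b + 2 * cww * g)) ^ 2 := by
  have hK0 : 0 < K := by linarith
  have hD : b ^ 2 - 4 * cww * P0 = (σ * (b + 2 * cww * g)) ^ 2 := by
    rcases hσ with rfl | rfl <;> linear_combination (-4 * cww) * h0
  have hs1 : 1 / K ≤ σ * (b + 2 * cww * g) := by
    rw [div_le_iff₀ hK0]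
    linarith
  have hs0 : 0 < σ * (b + 2 * cww * g) := lt_of_lt_of_le (by positivity) hs1
  have hs2 : σ * (b + 2 * cww * g) ≤ K := by
    refine le_trans ?_ h2
    rcases hσ with rfl | rfl
    · rw [one_mul]
      exact le_abs_self _
    · rw [neg_one_mul]
      exact neg_le_abs _
  refine ⟨?_, ?_, ?_, hs0, hD⟩
  · rw [hD, ← one_div_pow]
    exact pow_le_pow_left₀ (by positivity) hs1 2
  · rw [hD]
    exact pow_le_pow_left₀ hs0.le hs2 2
  · rw [hD]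
    exact Real.sqrt_sq hs0.le

/-- a centre entry of a used label has `cww ≠ 0` -/
theorem k7f_d2_ctr {K : ℝ} (hR : R.Ok K) (e : R.Ent) (hus : (R.Ev0 ∩ R.inc (R.eLab e)).Nonempty) (hk : R.eKind e = KsKind.centre)
    (Qd : KbQuad KbVer.two) (hQ : ∀ t y w, R.tst (R.eLab e) t y w = Qd.ev t y w) : Qd.cww ≠ 0 := by
  intro h0
  have hK0 : 0 < K := lt_of_lt_of_le one_pos hR.K_ge
  have hdw : ∀ t y w, kbDw (R.tst (R.eLab e)) t y w = Qd.cw + Qd.ctw * t + Qd.cyw ⬝ᵥ y := by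
    intro t y w
    unfold kbDw
    rw [hQ, hQ]
    unfold KbQuad.ev
    rw [h0]
    ring
  have hrad : 0 < R.eRad e := by
    have h1 := hR.ent_rad e
    by_contra h2
    have h3 : K * R.eRad e ≤ 0 := mul_nonpos_of_nonneg_of_nonpos hK0.le (not_lt.1 h2)
    linarith
  have hz : ∀ u ∈ R.eInt e, Qd.cw + Qd.ctw * (R.ofUnit (R.eLab e) u).1 + Qd.cyw ⬝ᵥ (R.ofUnit (R.eLab e) u).2 = 0 := by
    intro u hu
    have h1 := hR.ent_ctr e hk u hu
    unfold KsRef.onG at h1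
    rwa [hdw] at h1
  obtain ⟨p, hp⟩ := hus
  have hlo := hR.tst_lo (R.eLab e) p hp
  have hev : R.ev (kbDw (R.tst (R.eLab e))) p.1 p.2 = Qd.cw + Qd.ctw * p.2 + Qd.cyw ⬝ᵥ kbY (R.co p.1) p.2 := hdw _ _ _
  obtain ⟨d, hd⟩ : ∃ d, d = R.unit (R.eLab e) (p.2, kbY (R.co p.1) p.2) - R.eCtr e := ⟨_, rfl⟩
  have haff : ∃ A B : ℝ, ∀ s : ℝ, Qd.cw + Qd.ctw * (R.ofUnit (R.eLab e) (R.eCtr e + s • d)).1
      + Qd.cyw ⬝ᵥ (R.ofUnit (R.eLab e) (R.eCtr e + s • d)).2 = A + s * B := by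
    refine ⟨Qd.cw + Qd.ctw * (R.t0 (R.eLab e) + R.q (R.eLab e) * (R.eCtr e).1) + Qd.cyw ⬝ᵥ (R.ch (R.eLab e)).y0
        + (R.t0 (R.eLab e) + R.q (R.eLab e) * (R.eCtr e).1) * (Qd.cyw ⬝ᵥ (R.ch (R.eLab e)).y1)
        + Qd.cyw ⬝ᵥ (R.ch (R.eLab e)).D.mulVec (R.eCtr e).2,
      Qd.ctw * R.q (R.eLab e) * d.1 + R.q (R.eLab e) * d.1 * (Qd.cyw ⬝ᵥ (R.ch (R.eLab e)).y1)
        + Qd.cyw ⬝ᵥ (R.ch (R.eLab e)).D.mulVec d.2, fun s => ?_⟩
    unfold KsRef.ofUnit KbChart.yc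
    simp only [dotProduct_add, dotProduct_smul, Matrix.mulVec_add, Matrix.mulVec_smul, smul_eq_mul, Prod.fst_add, Prod.snd_add,
      Prod.smul_fst, Prod.smul_snd]
    ring
  obtain ⟨A, B, hAB⟩ := haff
  have hA : A = 0 := by
    have h1 := hAB 0
    rw [zero_smul, add_zero, zero_mul, add_zero] at h1
    rw [← h1]
    exact hz _ (Metric.mem_ball_self (by positivity))
  have hs0 : 0 < R.eRad e / (‖d‖ + 1) := by positivity
  have hB : B = 0 := by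
    have h1 := hAB (R.eRad e / (‖d‖ + 1))
    rw [hz, hA, zero_add] at h1
    · rcases mul_eq_zero.1 h1.symm with h2 | h2
      · exact absurd h2 hs0.ne'
      · exact h2
    · unfold KsRef.eInt
      rw [Metric.mem_ball, dist_eq_norm, add_sub_cancel_left, norm_smul, Real.norm_eq_abs, abs_of_pos hs0, div_mul_eq_mul_div,
        div_lt_iff₀ (by positivity)]
      nlinarith [norm_nonneg d]
  have h1 := hAB 1
  rw [one_smul, hd, add_sub_cancel, k7f_d2_ofUnit hR, hA, hB] at h1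
  rw [hev, h1] at hlo
  simp at hlo
  linarith

/-- **L-252-S7f-D2 (~400 l.).**   The graph `eG e` of an entry of a USED label, times a constant `lamb`, is `sh2_val 1 α β D` with degrees `≤ 2` over the used interior, and `K⁻² ≤ D ≤ K²` there.   TANGENT coordinates `x = (t, Z, Y)`.
PROOF.  `P = R.tst (R.eLab e) = Qd.ev` (`tst_adm`, `KbIsQuad`).   `b (x) := cw + ctw t + cyw · y` (`= kbDw P t y 0`), `P₀ (x) := P t y 0`, `kbDw P t y w = b + 2 cww w`, `kbDww P = 2 cww`;  `Dd := b² - 4 cww P₀` (degree `≤ 2`), as `MvPolynomial`s in `X 0, X 1, X 2`.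
For `u = R.unit Q (k7fTb x) ∈ eInt e`: `R.ofUnit Q u = k7fTb x` (`inv`: `D * Di = 1`; `R.q Q = kbQ _ > 0`), so `onG e T u = T t y (eG e (t, y))`.   Put `g = eG e (k7fTb x)`.
ROOT (`eKind e ≠ centre`, sign `σ = ±1`), `ent_root`: `P₀ + b g + cww g² = 0`, `1/K ≤ σ (b + 2 cww g) ≤ K`.   Then `Dd = (b + 2 cww g)²` lies in `[K⁻², K²]`, `√Dd = σ (b + 2 cww g)`.
  `cww ≠ 0`: `g = -b/(2 cww) + (σ/(2 cww)) Dd √Dd / Dd`:  `α = -lamb b/(2 cww)`, `β = lamb σ/(2 cww) Dd`.      `cww = 0`: `g = -P₀/b = -σ P₀ √Dd / Dd`:  `α = 0`, `β = -lamb σ P₀`.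
CENTRE, `ent_ctr`: `b + 2 cww g = 0`.   `cww ≠ 0`: `α = -lamb b/(2 cww)`, `β = 0`, `D = 1`.   `cww = 0` is impossible: `b ∘ ofUnit` is affine and vanishes on the ball `eInt e` (radius `2 eRad e > 0`, `ent_rad`), hence everywhere, against `tst_lo` at the incidence of `hus`. -/
theorem k7f_entry_class {K : ℝ} (hR : R.Ok K) (e : R.Ent) (hus : (R.Ev0 ∩ R.inc (R.eLab e)).Nonempty) (lamb : ℝ) :
    ∃ α β D : MvPolynomial (Fin 3) ℝ, α.totalDegree ≤ 2 ∧ β.totalDegree ≤ 2 ∧ D.totalDegree ≤ 2 ∧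
      ∀ x : Fin 3 → ℝ, R.unit (R.eLab e) (k7fTb x) ∈ R.eInt e →
        lamb * R.eG e (k7fTb x) = sh2_val 1 α β D x ∧ 1 / K ^ 2 ≤ MvPolynomial.eval x D ∧ MvPolynomial.eval x D ≤ K ^ 2 := by
  obtain ⟨Qd, hQ⟩ := (hR.tst_adm (R.eLab e)).1
  obtain ⟨bP, P0, hb1, hP1, hev⟩ := k7f_d2_quad Qd
  have hK := hR.K_ge
  have hK0 : 0 < K := by linarith
  have hG : ∀ (x : Fin 3 → ℝ) (T : KbTest KbVer.two),
      R.onG e T (R.unit (R.eLab e) (k7fTb x)) = T (k7fTb x).1 (k7fTb x).2 (R.eG e (k7fTb x)) := by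
    intro x T
    unfold KsRef.onG
    rw [k7f_d2_ofUnit hR]
  have hval : ∀ x w, R.tst (R.eLab e) (k7fTb x).1 (k7fTb x).2 w
      = MvPolynomial.eval x P0 + MvPolynomial.eval x bP * w + Qd.cww * w ^ 2 := fun x w => (hQ _ _ _).trans (hev x w)
  have hdw : ∀ x w, kbDw (R.tst (R.eLab e)) (k7fTb x).1 (k7fTb x).2 w = MvPolynomial.eval x bP + 2 * Qd.cww * w := by
    intro x w
    unfold kbDw
    rw [hval, hval]
    ring
  by_cases hk : R.eKind e = KsKind.centre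
  · have hc := k7f_d2_ctr hR e hus hk Qd hQ
    refine ⟨MvPolynomial.C (-lamb / (2 * Qd.cww)) * bP, 0, 1, (k7f_d2_Cmul _ _).trans (hb1.trans (by norm_num)), by simp, by simp,
      fun x hx => ⟨?_, ?_, ?_⟩⟩
    · have h1 := hR.ent_ctr e hk _ hx
      rw [hG, hdw] at h1
      unfold sh2_val
      simp only [map_mul, MvPolynomial.eval_C, map_zero, map_one, zero_mul, zero_div, add_zero]
      have h2 : MvPolynomial.eval x bP = -(2 * Qd.cww * R.eG e (k7fTb x)) := by linarith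
      rw [h2]
      field_simp
    · rw [map_one, div_le_one (by positivity)]
      exact one_le_pow₀ hK
    · rw [map_one]
      exact one_le_pow₀ hK
  · have hσ : (R.eKind e).sgn = 1 ∨ (R.eKind e).sgn = -1 := by
      cases h : R.eKind e with
      | plus => exact Or.inl rfl
      | minus => exact Or.inr rfl
      | centre => exact absurd h hk
    have hDdeg : (bP ^ 2 - MvPolynomial.C (4 * Qd.cww) * P0).totalDegree ≤ 2 := by
      refine (MvPolynomial.totalDegree_sub _ _).trans (max_le ?_ ((k7f_d2_Cmul _ _).trans hP1))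
      refine (MvPolynomial.totalDegree_pow _ _).trans ?_
      omega
    have hroot : ∀ x : Fin 3 → ℝ, R.unit (R.eLab e) (k7fTb x) ∈ R.eInt e →
        MvPolynomial.eval x P0 + MvPolynomial.eval x bP * R.eG e (k7fTb x) + Qd.cww * R.eG e (k7fTb x) ^ 2 = 0 ∧
        1 / K ^ 2 ≤ MvPolynomial.eval x bP ^ 2 - 4 * Qd.cww * MvPolynomial.eval x P0 ∧
        MvPolynomial.eval x bP ^ 2 - 4 * Qd.cww * MvPolynomial.eval x P0 ≤ K ^ 2 ∧
        Real.sqrt (MvPolynomial.eval x bP ^ 2 - 4 * Qd.cww * MvPolynomial.eval x P0)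
          = (R.eKind e).sgn * (MvPolynomial.eval x bP + 2 * Qd.cww * R.eG e (k7fTb x)) ∧
        0 < (R.eKind e).sgn * (MvPolynomial.eval x bP + 2 * Qd.cww * R.eG e (k7fTb x)) ∧
        MvPolynomial.eval x bP ^ 2 - 4 * Qd.cww * MvPolynomial.eval x P0
          = ((R.eKind e).sgn * (MvPolynomial.eval x bP + 2 * Qd.cww * R.eG e (k7fTb x))) ^ 2 := by
      intro x hx
      obtain ⟨h1, h2, h3⟩ := hR.ent_root e hk _ hx
      rw [hG, hval] at h1
      rw [hG, hdw] at h2 h3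
      exact ⟨h1, k7f_d2_root hK hσ h1 h2 h3⟩
    have hσ2 : (R.eKind e).sgn * (R.eKind e).sgn = 1 := by
      rcases hσ with h | h <;> rw [h] <;> norm_num
    by_cases hc : Qd.cww = 0
    · refine ⟨0, MvPolynomial.C (-lamb * (R.eKind e).sgn) * P0, bP ^ 2 - MvPolynomial.C (4 * Qd.cww) * P0, by simp,
        (k7f_d2_Cmul _ _).trans hP1, hDdeg, fun x hx => ?_⟩
      obtain ⟨h0, h1, h2, h3, h4, h5⟩ := hroot x hx
      simp only [map_sub, map_pow, map_mul, MvPolynomial.eval_C]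
      refine ⟨?_, h1, h2⟩
      unfold sh2_val
      simp only [map_sub, map_pow, map_mul, MvPolynomial.eval_C, map_zero, zero_add, pow_one]
      rw [h3, h5]
      rw [hc] at h0 h4 ⊢
      simp only [mul_zero, zero_mul, add_zero] at h0 h4 ⊢
      have hb : MvPolynomial.eval x bP ≠ 0 := by
        intro hb
        rw [hb, mul_zero] at h4
        exact lt_irrefl _ h4
      have hs : (R.eKind e).sgn ≠ 0 := by
        intro hs
        rw [hs, zero_mul] at h4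
        exact lt_irrefl _ h4
      have hP : MvPolynomial.eval x P0 = -(MvPolynomial.eval x bP * R.eG e (k7fTb x)) := by linarith
      rw [hP]
      field_simp
    · refine ⟨MvPolynomial.C (-lamb / (2 * Qd.cww)) * bP,
        MvPolynomial.C (lamb * (R.eKind e).sgn / (2 * Qd.cww)) * (bP ^ 2 - MvPolynomial.C (4 * Qd.cww) * P0),
        bP ^ 2 - MvPolynomial.C (4 * Qd.cww) * P0, (k7f_d2_Cmul _ _).trans (hb1.trans (by norm_num)),
        (k7f_d2_Cmul _ _).trans hDdeg, hDdeg, fun x hx => ?_⟩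
      obtain ⟨h0, h1, h2, h3, h4, h5⟩ := hroot x hx
      simp only [map_sub, map_pow, map_mul, MvPolynomial.eval_C]
      refine ⟨?_, h1, h2⟩
      unfold sh2_val
      simp only [map_sub, map_pow, map_mul, MvPolynomial.eval_C, pow_one]
      have hD0 : MvPolynomial.eval x bP ^ 2 - 4 * Qd.cww * MvPolynomial.eval x P0 ≠ 0 := by
        rw [h5]
        exact (pow_pos h4 2).ne'
      rw [mul_assoc, mul_div_assoc, mul_div_cancel_left₀ _ hD0, h3]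
      have e1 : lamb * (R.eKind e).sgn / (2 * Qd.cww) * ((R.eKind e).sgn * (MvPolynomial.eval x bP + 2 * Qd.cww * R.eG e (k7fTb x)))
          = lamb * ((R.eKind e).sgn * (R.eKind e).sgn) * (MvPolynomial.eval x bP + 2 * Qd.cww * R.eG e (k7fTb x)) / (2 * Qd.cww) := by ring
      rw [e1, hσ2]
      field_simp
      ring

/-! ## D3. Comparison of boxes -/

/-- **L-252-S7f-D3 (~200 l., paper-free).**   "Passing from packet axes to the centred boxes costs only `K`."   An affine function bounded by `B` on the whole pieces of a label which is not light is Lipschitz in the centred coordinates of the label.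
PROOF.  `W := H.base '' (Sp ∩ {lab s = q})` lies in `k7bBox .. (c.h s) K` (`labmem`, `box`), `|k7bAff L| ≤ B` on `W`, `volume W ≥ (τ/K³) h⁴` (`k7f_fill`).   `k7b_affine_remez` (`ρ = K`, `θ = τ/K³`, `R = 1`): `|k7bAff L| ≤ A₀ := 4 (1 + 8 K⁶/τ)³ B` on the unit box.
`k7b_affine_slopes`: `|α₁ - γ Zc| ≤ A₀/h`, `|α₂ + γ tc| ≤ A₀/h`, `|γ| ≤ A₀/h²`;   `k7bAff L u - k7bAff L u' = (α₁ - γ Zc) h Δ₀ + (α₂ + γ tc) h Δ₁ + γ h² Δ₂`, `Δ = k7fCen u - k7fCen u'`. -/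
theorem k7f_box_cmp (c : K7bPar) (H : K7bHor) {K τ s B : ℝ} (hc : c.WF) (hK : 1 ≤ K) (hτ : 0 < τ) (h : H.Ok0 c K) (hs : s ∈ c.G) {q : H.Q} (hq : q ∈ H.Qat s)
    (hfl : ENNReal.ofReal τ * H.mQ q ≤ H.lam (H.Sp ∩ {z | H.lab s z = q})) (L : ℝ × ℝ × ℝ × ℝ)
    (hL : ∀ l ∈ H.asg q, ∀ t ∈ H.blk q, |k7bAff L (H.bs l t)| ≤ B) (u u' : ℝ × ℝ × ℝ) :
    |k7bAff L u - k7bAff L u'| ≤ 12 * (1 + 8 * K ^ 6 / τ) ^ 3 * B * ‖k7fCenQ H c s q u - k7fCenQ H c s q u'‖ := by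
  have hN : 0 < c.N := by linarith [hc.N1]
  have hh : 0 < c.h s := Real.rpow_pos_of_pos hN _
  have hK0 : 0 < K := by linarith
  have hmem : ∀ z ∈ H.Sp ∩ {z | H.lab s z = q}, z.1 ∈ H.asg q ∧ z.2 ∈ H.blk q := by
    rintro z ⟨hz, hzq⟩
    have h1 := h.labmem s hs z hz
    have hzq' : H.lab s z = q := hzq
    rw [hzq'] at h1
    exact ⟨h1.2.2, h1.2.1⟩
  have hW : H.base '' (H.Sp ∩ {z | H.lab s z = q}) ⊆ k7bBox (H.ct q) (H.cZ q) (H.cY q) (c.h s) K := by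
    rintro _ ⟨z, hz, rfl⟩
    exact h.box s hs q hq z.1 (hmem z hz).1 z.2 (hmem z hz).2
  have hM : ∀ x ∈ H.base '' (H.Sp ∩ {z | H.lab s z = q}), |k7bAff L x| ≤ B := by
    rintro _ ⟨z, hz, rfl⟩
    exact hL z.1 (hmem z hz).1 z.2 (hmem z hz).2
  have hvol : ENNReal.ofReal (τ / K ^ 3 * c.h s ^ 4) ≤ volume (H.base '' (H.Sp ∩ {z | H.lab s z = q})) := by
    have := (k7f_fill c H hc hK hτ h hs hq _ subset_rfl hfl).1
    have e : τ / K ^ 3 * c.h s ^ 4 = τ * c.h s ^ 4 / K ^ 3 := by ring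
    rw [e]
    exact this
  have hrem := k7b_affine_remez (R := 1) hh hK (show 0 < τ / K ^ 3 by positivity) le_rfl L _ hW hvol hM
  obtain ⟨A0, hA0⟩ : ∃ A0 : ℝ, A0 = 4 * (1 + 8 * K ^ 6 / τ) ^ 3 * B := ⟨_, rfl⟩
  have e1 : 4 * 1 * (1 + 8 * K ^ 3 / (τ / K ^ 3)) ^ 3 * B = A0 := by
    rw [hA0]
    have : 8 * K ^ 3 / (τ / K ^ 3) = 8 * K ^ 6 / τ := by
      field_simp
    rw [this]
    ring
  rw [e1] at hrem
  obtain ⟨L0, L1, L2, L3⟩ := L
  obtain ⟨s1, s2, s3⟩ := k7b_affine_slopes (c := L0) (α1 := L1) (α2 := L2) (γ := L3) hh hrem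
  have hA : 0 ≤ A0 := by
    have := (abs_nonneg _).trans s3
    have h2 : 0 < c.h s ^ 2 := by positivity
    by_contra hneg
    push Not at hneg
    have : A0 / c.h s ^ 2 < 0 := div_neg_of_neg_of_pos hneg h2
    linarith
  obtain ⟨Δ, hΔ⟩ : ∃ Δ : Fin 3 → ℝ, Δ = k7fCenQ H c s q u - k7fCenQ H c s q u' := ⟨_, rfl⟩
  have hn : ∀ i, |Δ i| ≤ ‖Δ‖ := fun i => by
    have := norm_le_pi_norm Δ i
    rwa [Real.norm_eq_abs] at this
  have key : k7bAff (L0, L1, L2, L3) u - k7bAff (L0, L1, L2, L3) u' =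
      (L1 + L3 * (-H.cZ q)) * c.h s * Δ 0 + (L2 + L3 * H.ct q) * c.h s * Δ 1 + L3 * c.h s ^ 2 * Δ 2 := by
    rw [hΔ]
    simp only [k7bAff, k7fCenQ, k7fCen, Pi.sub_apply, Matrix.cons_val_zero, Matrix.cons_val_one, Matrix.cons_val]
    field_simp
    ring
  rw [← hΔ, key]
  have b1 : |(L1 + L3 * (-H.cZ q)) * c.h s * Δ 0| ≤ A0 * ‖Δ‖ := by
    rw [abs_mul, abs_mul, abs_of_pos hh]
    have : |L1 + L3 * (-H.cZ q)| * c.h s ≤ A0 := by
      rwa [le_div_iff₀ hh] at s1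
    exact mul_le_mul this (hn 0) (abs_nonneg _) hA
  have b2 : |(L2 + L3 * H.ct q) * c.h s * Δ 1| ≤ A0 * ‖Δ‖ := by
    rw [abs_mul, abs_mul, abs_of_pos hh]
    have : |L2 + L3 * H.ct q| * c.h s ≤ A0 := by
      rwa [le_div_iff₀ hh] at s2
    exact mul_le_mul this (hn 1) (abs_nonneg _) hA
  have b3 : |L3 * c.h s ^ 2 * Δ 2| ≤ A0 * ‖Δ‖ := by
    have h2 : 0 < c.h s ^ 2 := by positivity
    rw [abs_mul, abs_mul, abs_of_pos h2]
    have : |L3| * c.h s ^ 2 ≤ A0 := by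
      rwa [le_div_iff₀ h2] at s3
    exact mul_le_mul this (hn 2) (abs_nonneg _) hA
  have e2 : 12 * (1 + 8 * K ^ 6 / τ) ^ 3 * B * ‖Δ‖ = A0 * ‖Δ‖ + A0 * ‖Δ‖ + A0 * ‖Δ‖ := by
    rw [hA0]; ring
  rw [e2]
  exact (abs_add_three _ _ _).trans (add_le_add (add_le_add b1 b2) b3)

/-! ## D4. The cut into cubes -/

/-- the cell index is a measurable function of the coordinate -/
theorem k7f_d4_idx_meas (n0 : ℕ) (r : ℝ) : Measurable (k7fIdx n0 r) := by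
  have h1 : Measurable fun x : ℝ => ⌊x / (r / 2)⌋ := Int.measurable_floor.comp (measurable_id.div_const _)
  have h2 : Measurable fun j : ℤ => (⟨min (j + n0).toNat (2 * n0), by omega⟩ : Fin (2 * n0 + 1)) := measurable_from_top
  exact h2.comp h1

/-- the base point is measurable -/
theorem k7f_d4_base_meas {c : K7bPar} {H : K7bHor} {K : ℝ} (h : H.Ok0 c K) : Measurable H.base := by
  have hp : Measurable fun z : H.Lam × ℝ => H.p z.1 + z.2 * H.v z.1 :=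
    (h.mp.comp measurable_fst).add (measurable_snd.mul (h.mv.comp measurable_fst))
  have hy : Measurable fun z : H.Lam × ℝ => H.q0 z.1 + z.2 * H.y1 z.1 :=
    (h.mq0.comp measurable_fst).add (measurable_snd.mul (h.my1.comp measurable_fst))
  exact measurable_snd.prodMk (hp.prodMk hy)

/-- the centring map is measurable -/
theorem k7f_d4_cen_meas (tc Zc Yc h : ℝ) (i : Fin 3) : Measurable fun u : ℝ × ℝ × ℝ => k7fCen tc Zc Yc h u i := by
  have m1 : Measurable fun u : ℝ × ℝ × ℝ => u.1 := measurable_fst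
  have m2 : Measurable fun u : ℝ × ℝ × ℝ => u.2.1 := measurable_fst.comp measurable_snd
  have m3 : Measurable fun u : ℝ × ℝ × ℝ => u.2.2 := measurable_snd.comp measurable_snd
  match i with
  | 0 => exact (m1.sub_const _).div_const _
  | 1 => exact (m2.sub_const _).div_const _
  | 2 => exact (((m3.sub_const _).sub (((m1.sub_const _).const_mul _).add ((m2.sub_const _).const_mul _)))).div_const _

/-- the centred base point is measurable -/
theorem k7f_d4_cb_meas {c : K7bPar} {H : K7bHor} {K s : ℝ} (h : H.Ok0 c K) (hs : s ∈ c.G) (i : Fin 3) :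
    Measurable fun z => k7fCb H c s z i := by
  intro S hS
  have e : (fun z => k7fCb H c s z i) ⁻¹' S = ⋃ q, (H.lab s ⁻¹' {q} ∩ (fun z => k7fCenQ H c s q (H.base z) i) ⁻¹' S) := by
    ext z
    simp only [Set.mem_preimage, Set.mem_iUnion, Set.mem_inter_iff, Set.mem_singleton_iff]
    constructor
    · intro hz
      exact ⟨H.lab s z, rfl, hz⟩
    · rintro ⟨q, rfl, hz⟩
      exact hz
  rw [e]
  exact MeasurableSet.iUnion fun q => (h.mlab s hs q).inter (((k7f_d4_cen_meas _ _ _ _ i).comp (k7f_d4_base_meas h)) hS)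

/-- the cell of a coordinate in `[-K, K]` -/
theorem k7f_d4_idx_val {K r x : ℝ} {n0 : ℕ} (hr : 0 < r) (hn0 : K + 1 ≤ n0 * (r / 2)) (hx : |x| ≤ K) :
    |x - ((((k7fIdx n0 r x : Fin (2 * n0 + 1)) : ℕ) : ℝ) - n0 + 1 / 2) * (r / 2)| ≤ r / 4 := by
  have hr2 : 0 < r / 2 := by positivity
  obtain ⟨hx1, hx2⟩ := abs_le.1 hx
  have hlo : (-(n0 : ℤ)) ≤ ⌊x / (r / 2)⌋ := by
    rw [Int.le_floor, le_div_iff₀ hr2]
    push_cast
    linarith
  have hhi : ⌊x / (r / 2)⌋ < (n0 : ℤ) := by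
    rw [Int.floor_lt, div_lt_iff₀ hr2]
    push_cast
    linarith
  have hidx : (((k7fIdx n0 r x : Fin (2 * n0 + 1)) : ℕ) : ℤ) = ⌊x / (r / 2)⌋ + n0 := by
    unfold k7fIdx
    simp only
    omega
  have hidx' : (((k7fIdx n0 r x : Fin (2 * n0 + 1)) : ℕ) : ℝ) = (⌊x / (r / 2)⌋ : ℝ) + n0 := by
    have := congrArg (fun j : ℤ => (j : ℝ)) hidx
    simpa using this
  rw [hidx']
  have f1 : (⌊x / (r / 2)⌋ : ℝ) * (r / 2) ≤ x := by
    rw [← le_div_iff₀ hr2]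
    exact Int.floor_le _
  have f2 : x < ((⌊x / (r / 2)⌋ : ℝ) + 1) * (r / 2) := by
    rw [← div_lt_iff₀ hr2]
    exact Int.lt_floor_add_one _
  rw [abs_le]
  constructor <;> nlinarith

/-- **L-252-S7f-D4 (~400 l., paper-free).**
PROOF.  For `z ∈ E0`: `|k7fCb H c s z i| ≤ K` (`labmem`, `box`, `k7f_cen_box`), so `j = ⌊x/(r/2)⌋ ∈ [-n0, n0)` and `k7fIdx n0 r x = j + n0`; `cc = (j + 1/2) (r/2)`, `|x - cc| ≤ r/4` (`cube`).   The cube of radius `r` about `cc` lies in the cube of radius `2r` about the base point: `stab` with `D0 = 1`.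
`mse`: `{se s = (σ, ι)} = {T.se s = σ} ∩ ⋂ i {k7fIdx .. = ι i}`; on `{H.lab s = q}` (finitely many `q`, `mlab`) the map `z ↦ k7fCb H c s z i` is a measurable function of `H.base z` (`mp mv mq0 my1`), `k7fIdx` is measurable (`Int.floor`).
`card`: `{σ | lq σ = q} = {σ₁ | T.lq σ₁ = q} ×ˢ univ`.   `opt`: list `L' = {((σ, ι), φ) | (σ, φ) ∈ L}`, `#L' ≤ n (2 n0 + 1)³`; an entry outside `L'` is contained in a null entry.   The other fields are those of `OkB`. -/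
theorem k7f_cub (c : K7bPar) (H : K7bHor) (T : K7fSh H) {K r : ℝ} {d m n0 : ℕ} {E0 : Set (H.Lam × ℝ)} (hc : c.WF) (hK : 1 ≤ K) (hr : 0 < r) (h : H.Ok0 c K)
    (hE0 : E0 ⊆ H.Sp) (hT : T.OkB c K r d m E0) (hn0 : K + 1 ≤ n0 * (r / 2)) :
    (T.cub c r n0).Ok c (K * (2 * n0 + 1) ^ 3) r d m E0 := by
  classical
  have hN : 0 < c.N := by linarith [hc.N1]
  have hK0 : 0 < K := by linarith
  have hM1 : (1 : ℝ) ≤ (2 * n0 + 1) ^ 3 := by
    have : (1 : ℝ) ≤ 2 * n0 + 1 := by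
      have : (0 : ℝ) ≤ n0 := Nat.cast_nonneg _
      linarith
    exact one_le_pow₀ this
  have hKK : K ≤ K * (2 * n0 + 1) ^ 3 := le_mul_of_one_le_right hK0.le hM1
  have hbd : ∀ s ∈ c.G, ∀ z ∈ E0, ∀ i, |k7fCb H c s z i| ≤ K := by
    intro s hs z hz
    have h1 := h.labmem s hs z (hE0 hz)
    have h2 := h.box s hs _ h1.1 z.1 h1.2.2 z.2 h1.2.1
    exact (k7f_cen_box _ _ _ _ _ (Real.rpow_pos_of_pos hN _) _).1 h2
  have hcube : ∀ s ∈ c.G, ∀ z ∈ E0, ∀ i, |k7fCb H c s z i - (T.cub c r n0).cc ((T.cub c r n0).se s z) i| ≤ r / 4 :=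
    fun s hs z hz i => k7f_d4_idx_val hr hn0 (hbd s hs z hz i)
  refine ⟨?_, hT.mfc, hT.lab, ?_, hT.deg, ?_, hcube, ?_, ?_, ?_⟩
  · -- mse
    rintro s hs ⟨σ, ι⟩
    have e : (fun z => ((T.se s z, fun i => k7fIdx n0 r (k7fCb H c s z i)) : T.Sg × (Fin 3 → Fin (2 * n0 + 1)))) ⁻¹' {(σ, ι)}
        = T.se s ⁻¹' {σ} ∩ ⋂ i, (fun z => k7fIdx n0 r (k7fCb H c s z i)) ⁻¹' {ι i} := by
      ext z
      simp only [Set.mem_preimage, Set.mem_singleton_iff, Set.mem_inter_iff, Set.mem_iInter]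
      rw [Prod.mk.injEq, funext_iff]
    have hm : MeasurableSet ((fun z => ((T.se s z, fun i => k7fIdx n0 r (k7fCb H c s z i)) : T.Sg × (Fin 3 → Fin (2 * n0 + 1)))) ⁻¹' {(σ, ι)}) := by
      rw [e]
      exact (hT.mse s hs σ).inter (MeasurableSet.iInter fun i =>
        ((k7f_d4_idx_meas n0 r).comp (k7f_d4_cb_meas h hs i)) (measurableSet_singleton _))
    exact hm
  · -- card
    intro q
    have e : {σ : T.Sg × (Fin 3 → Fin (2 * n0 + 1)) | T.lq σ.1 = q} = {σ : T.Sg | T.lq σ = q} ×ˢ (Set.univ : Set (Fin 3 → Fin (2 * n0 + 1))) := by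
      ext σ
      simp only [Set.mem_ofPred_eq, Set.mem_prod, Set.mem_univ, and_true]
    have hcd : ((Set.ncard {σ : T.Sg × (Fin 3 → Fin (2 * n0 + 1)) | T.lq σ.1 = q} : ℕ) : ℝ) ≤ K * (2 * n0 + 1) ^ 3 := by
      rw [e, Set.ncard_prod, Set.ncard_univ, Nat.card_eq_fintype_card, Fintype.card_fun, Fintype.card_fin, Fintype.card_fin]
      push_cast
      exact mul_le_mul_of_nonneg_right (hT.card q) (by positivity)
    exact hcd
  · -- stab
    intro s hs z hz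
    refine ⟨1, one_pos, fun u hu => ?_⟩
    have h1 := hT.stabB s hs z hz u fun i => by
      have a1 := hcube s hs z hz i
      have a2 : |u i - (T.cub c r n0).cc ((T.cub c r n0).se s z) i| ≤ r := by
        rw [abs_le]
        have b1 := hu.1 i
        have b2 := hu.2 i
        constructor <;> linarith
      have a3 : u i - k7fCb H c s z i = (u i - (T.cub c r n0).cc ((T.cub c r n0).se s z) i)
          - (k7fCb H c s z i - (T.cub c r n0).cc ((T.cub c r n0).se s z) i) := by ring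
      rw [a3]
      have := abs_sub (u i - (T.cub c r n0).cc ((T.cub c r n0).se s z) i) (k7fCb H c s z i - (T.cub c r n0).cc ((T.cub c r n0).se s z) i)
      linarith
    refine ⟨le_trans ?_ h1.1, h1.2.trans (by rw [mul_one]; exact hKK)⟩
    exact one_div_le_one_div_of_le hK0 hKK
  · -- fit
    intro s hs z hz
    have ha : 0 < c.a s := Real.rpow_pos_of_pos hN _
    exact (hT.fit s hs z hz).trans (mul_le_mul_of_nonneg_right hKK ha.le)
  · -- close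
    intro s hs z hz z' hz' he
    refine hT.close s hs z hz z' hz' ?_
    have h1 : ((T.se s z, fun i => k7fIdx n0 r (k7fCb H c s z i)), T.fc s z)
        = ((T.se s z', fun i => k7fIdx n0 r (k7fCb H c s z' i)), T.fc s z') := he
    rw [Prod.mk.injEq, Prod.mk.injEq] at h1
    exact Prod.ext h1.1.1 h1.2
  · -- opt
    intro s hs
    obtain ⟨n, hn, hopt⟩ := hT.opt s hs
    refine ⟨n * (2 * n0 + 1) ^ 3, ?_, fun e => ?_⟩
    · push_cast
      exact mul_le_mul_of_nonneg_right hn (by positivity)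
    · obtain ⟨L, hL, hL0⟩ := hopt e
      refine ⟨(L ×ˢ (Finset.univ : Finset (Fin 3 → Fin (2 * n0 + 1)))).image fun x => ((x.1.1, x.2), x.1.2), ?_, ?_⟩
      · refine Finset.card_image_le.trans ?_
        rw [Finset.card_product, Finset.card_univ, Fintype.card_fun, Fintype.card_fin, Fintype.card_fin]
        exact Nat.mul_le_mul_right _ hL
      · rintro ⟨⟨σ, ι⟩, φ⟩ hd
        have h1 : (σ, φ) ∉ L := by
          intro hmem
          apply hd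
          rw [Finset.mem_image]
          exact ⟨((σ, φ), ι), Finset.mem_product.2 ⟨hmem, Finset.mem_univ _⟩, rfl⟩
        have h2 := hL0 _ h1
        refine le_antisymm (le_trans (measure_mono ?_) h2.le) bot_le
        intro z hz
        have h3 : (H.eh z, ((T.se s z, fun i => k7fIdx n0 r (k7fCb H c s z i)), T.fc s z)) = (e, ((σ, ι), φ)) := hz
        have h3a : H.eh z = e := congrArg Prod.fst h3
        have h3b : T.se s z = σ := congrArg (fun x => x.2.1.1) h3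
        have h3c : T.fc s z = φ := congrArg (fun x => x.2.2) h3
        exact Prod.ext h3a (Prod.ext h3b h3c)

/-! ## D5. Dictionary: unit coordinates of a label, centred coordinates, tangent coordinates -/

theorem k7f_d5_q (X : K7bDat R) : 0 < X.q := by
  unfold K7bDat.q KsRef.q kbQ
  positivity

/-- `nb` inverted -/
theorem k7f_d5_inv (X : K7bDat R) (hκ : X.κ ≠ 0) (z : ℝ × KbB KbVer.two) :
    z.1 = X.t0 + X.q * (X.nb z).1 ∧ ksZ z.2 = X.Z0 + X.q * (X.nb z).2.1 ∧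
      ksY z.2 = (X.nb z).2.2 / X.κ + X.y0 + X.y1 * (X.t0 + X.q * (X.nb z).1) + X.y2 * (X.Z0 + X.q * (X.nb z).2.1) := by
  have hq := (k7f_d5_q X).ne'
  unfold K7bDat.nb
  simp only
  refine ⟨?_, ?_, ?_⟩
  · field_simp
    ring
  · field_simp
    ring
  · field_simp
    ring

/-- **L-252-S7f-D5 (~300 l.).**   (a) the three unit coordinates of a label are affine functions of the NORMALISED base   (`nb` is an affine bijection: `t = t₀ + q u₁`, `Z = Z₀ + q u₂`, `Y = u₃/κ + y0 + y1 t + y2 Z`; `R.unit Q` is affine: `KbChart.yc`, `Matrix.mulVec`, `Fin.sum_univ_two`) -/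
theorem k7f_unit_aff (X : K7bDat R) (hκ : X.κ ≠ 0) (Q : R.Lab) : ∃ L : Fin 3 → ℝ × ℝ × ℝ × ℝ, ∀ z : ℝ × KbB KbVer.two,
    (R.unit Q z).1 = k7bAff (L 0) (X.nb z) ∧ (R.unit Q z).2 (0 : Fin 2) = k7bAff (L 1) (X.nb z) ∧ (R.unit Q z).2 (1 : Fin 2) = k7bAff (L 2) (X.nb z) := by
  obtain ⟨Di, hDi⟩ : ∃ Di, Di = (R.ch Q).Di := ⟨_, rfl⟩
  obtain ⟨c0, hc0⟩ : ∃ c0, c0 = (R.ch Q).y0 := ⟨_, rfl⟩
  obtain ⟨c1, hc1⟩ : ∃ c1, c1 = (R.ch Q).y1 := ⟨_, rfl⟩
  have row : ∀ i : Fin 2, ∃ L : ℝ × ℝ × ℝ × ℝ, ∀ z : ℝ × KbB KbVer.two,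
      Di i (0 : Fin 2) * (ksZ z.2 - ksZ c0 - z.1 * ksZ c1) + Di i (1 : Fin 2) * (ksY z.2 - ksY c0 - z.1 * ksY c1) = k7bAff L (X.nb z) := by
    intro i
    refine ⟨(Di i (0 : Fin 2) * (X.Z0 - ksZ c0 - X.t0 * ksZ c1)
          + Di i (1 : Fin 2) * (X.y0 + X.y1 * X.t0 + X.y2 * X.Z0 - ksY c0 - X.t0 * ksY c1),
        Di i (0 : Fin 2) * (-(X.q * ksZ c1)) + Di i (1 : Fin 2) * (X.y1 * X.q - X.q * ksY c1),
        Di i (0 : Fin 2) * X.q + Di i (1 : Fin 2) * (X.y2 * X.q),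
        Di i (1 : Fin 2) / X.κ), ?_⟩
    intro z
    obtain ⟨e1, e2, e3⟩ := k7f_d5_inv X hκ z
    rw [e3, e2, e1]
    unfold k7bAff
    simp only
    generalize (X.nb z).1 = u1
    generalize (X.nb z).2.1 = u2
    generalize (X.nb z).2.2 = u3
    ring
  obtain ⟨L1, hL1⟩ := row 0
  obtain ⟨L2, hL2⟩ := row 1
  refine ⟨![((X.t0 - R.t0 Q) / R.q Q, X.q / R.q Q, 0, 0), L1, L2], ?_⟩
  intro z
  obtain ⟨m1, m2⟩ := ksl7_mulVec Di (z.2 - (R.ch Q).yc z.1)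
  have hZ : ksZ (z.2 - (R.ch Q).yc z.1) = ksZ z.2 - ksZ c0 - z.1 * ksZ c1 := by
    rw [hc0, hc1]
    show ksZ z.2 - (ksZ (R.ch Q).y0 + z.1 * ksZ (R.ch Q).y1) = _
    ring
  have hY : ksY (z.2 - (R.ch Q).yc z.1) = ksY z.2 - ksY c0 - z.1 * ksY c1 := by
    rw [hc0, hc1]
    show ksY z.2 - (ksY (R.ch Q).y0 + z.1 * ksY (R.ch Q).y1) = _
    ring
  rw [hZ, hY] at m1 m2
  refine ⟨?_, ?_, ?_⟩
  · obtain ⟨e1, -, -⟩ := k7f_d5_inv X hκ z
    show (z.1 - R.t0 Q) / R.q Q = _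
    simp only [Matrix.cons_val_zero, k7bAff]
    rw [e1]
    ring
  · show ksZ ((R.ch Q).Di.mulVec (z.2 - (R.ch Q).yc z.1)) = k7bAff L1 (X.nb z)
    rw [← hDi, m1, hL1]
  · show ksY ((R.ch Q).Di.mulVec (z.2 - (R.ch Q).yc z.1)) = k7bAff L2 (X.nb z)
    rw [← hDi, m2, hL2]

/-- (b) centred coordinates ⟶ tangent coordinates is an affine map, inverse to `k7fCen ∘ nb` -/
theorem k7f_psi (X : K7bDat R) (hκ : X.κ ≠ 0) (tc Zc Yc h : ℝ) (hh : 0 < h) : ∃ (A : Matrix (Fin 3) (Fin 3) ℝ) (b : Fin 3 → ℝ),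
    (∀ z : ℝ × KbB KbVer.two, k7fTb (k7fAm A b (k7fCen tc Zc Yc h (X.nb z))) = z) ∧ ∀ x : Fin 3 → ℝ, k7fCen tc Zc Yc h (X.nb (k7fTb (k7fAm A b x))) = x := by
  have hq := (k7f_d5_q X).ne'
  have hh' := hh.ne'
  obtain ⟨A, hA⟩ : ∃ A : Matrix (Fin 3) (Fin 3) ℝ, A = !![X.q * h, 0, 0; 0, X.q * h, 0;
      -Zc * h / X.κ + X.y1 * (X.q * h), tc * h / X.κ + X.y2 * (X.q * h), h ^ 2 / X.κ] := ⟨_, rfl⟩
  obtain ⟨b, hb⟩ : ∃ b : Fin 3 → ℝ, b = ![X.t0 + X.q * tc, X.Z0 + X.q * Zc,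
      Yc / X.κ + X.y0 + X.y1 * (X.t0 + X.q * tc) + X.y2 * (X.Z0 + X.q * Zc)] := ⟨_, rfl⟩
  have h0 : ∀ x, k7fAm A b x 0 = X.t0 + X.q * (tc + h * x 0) := by
    intro x
    rw [hA, hb]
    simp [k7fAm, dotProduct, Fin.sum_univ_three]
    ring
  have h1 : ∀ x, k7fAm A b x 1 = X.Z0 + X.q * (Zc + h * x 1) := by
    intro x
    rw [hA, hb]
    simp [k7fAm, dotProduct, Fin.sum_univ_three]
    ring
  have h2 : ∀ x, k7fAm A b x 2 = (Yc - Zc * h * x 0 + tc * h * x 1 + h ^ 2 * x 2) / X.κ + X.y0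
      + X.y1 * (X.t0 + X.q * (tc + h * x 0)) + X.y2 * (X.Z0 + X.q * (Zc + h * x 1)) := by
    intro x
    rw [hA, hb]
    simp [k7fAm, dotProduct, Fin.sum_univ_three]
    ring
  refine ⟨A, b, ?_, ?_⟩
  · intro z
    obtain ⟨e1, e2, e3⟩ := k7f_d5_inv X hκ z
    generalize X.nb z = u at e1 e2 e3
    have c0 : tc + h * k7fCen tc Zc Yc h u 0 = u.1 := by
      simp only [k7fCen, Matrix.cons_val_zero]
      field_simp
      ring
    have c1 : Zc + h * k7fCen tc Zc Yc h u 1 = u.2.1 := by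
      simp only [k7fCen, Matrix.cons_val_one, Matrix.cons_val_zero]
      field_simp
      ring
    have c2 : Yc - Zc * h * k7fCen tc Zc Yc h u 0 + tc * h * k7fCen tc Zc Yc h u 1 + h ^ 2 * k7fCen tc Zc Yc h u 2 = u.2.2 := by
      simp only [k7fCen, Matrix.cons_val_one, Matrix.cons_val_zero, Matrix.cons_val]
      field_simp
      ring
    refine Prod.ext ?_ ?_
    · show k7fAm A b _ 0 = z.1
      rw [h0, c0, e1]
    · have hi : ∀ i : Fin 2, (![k7fAm A b (k7fCen tc Zc Yc h u) 1, k7fAm A b (k7fCen tc Zc Yc h u) 2] : Fin 2 → ℝ) i = z.2 i := by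
        rw [Fin.forall_fin_two]
        constructor
        · show k7fAm A b _ 1 = ksZ z.2
          rw [h1, c1, e2]
        · show k7fAm A b _ 2 = ksY z.2
          rw [h2, c0, c1, c2, e3]
      exact funext hi
  · intro x
    have hnb : X.nb (k7fTb (k7fAm A b x)) = (tc + h * x 0, Zc + h * x 1, Yc - Zc * h * x 0 + tc * h * x 1 + h ^ 2 * x 2) := by
      have : X.nb (k7fTb (k7fAm A b x)) = ((k7fAm A b x 0 - X.t0) / X.q, (k7fAm A b x 1 - X.Z0) / X.q,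
          X.κ * (k7fAm A b x 2 - (X.y0 + X.y1 * k7fAm A b x 0 + X.y2 * k7fAm A b x 1))) := rfl
      rw [this, h0, h1, h2]
      refine Prod.ext ?_ (Prod.ext ?_ ?_)
      · simp only
        field_simp
        ring
      · simp only
        field_simp
        ring
      · simp only
        field_simp
        ring
    rw [hnb]
    funext i
    fin_cases i
    · simp only [k7fCen, Fin.zero_eta, Fin.isValue, Matrix.cons_val_zero]
      field_simp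
      ring
    · simp only [k7fCen, Fin.mk_one, Fin.isValue, Matrix.cons_val_one, Matrix.cons_val_zero]
      field_simp
      ring
    · simp only [k7fCen, Fin.reduceFinMk, Fin.isValue, Matrix.cons_val]
      field_simp
      ring

/-! ## D6. The adaptor -/

/-- the normalised incidence map is measurable -/
theorem k7f_d6_inc_meas (X : K7bDat R) : Measurable X.inc := by
  unfold K7bDat.inc K7bDat.tOf
  exact measurable_fst.prodMk ((measurable_snd.const_mul _).const_add _)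

/-- labels of tangent incidences pull back to labels of normalised incidences -/
theorem k7f_d6_lab {S : Type*} (X : K7bDat R) {g : R.L × ℝ → S} (hg : KsLab g) : KsLab (fun z : R.L × ℝ => g (X.inc z)) := by
  intro s0
  exact k7f_d6_inc_meas X (hg s0)

/-- the base point of a normalised incidence -/
theorem k7f_d6_base (X : K7bDat R) (z : R.L × ℝ) : X.hor.base z = X.nb (R.base (X.inc z)) := by
  show X.hor.bs z.1 z.2 = _
  rw [k7b_link_bs]
  rfl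

/-- the residual for `L = 0` -/
theorem k7f_d6_X (X : K7bDat R) (hL : X.L = (0, 0, 0, 0)) (z : R.L × ℝ) : X.hor.X z = R.w (X.inc z).1 (X.inc z).2 / R.a X.r := by
  show X.hor.Xt z.1 z.2 = _
  rw [k7b_link_X]
  unfold K7bDat.xh
  rw [hL]
  simp [k7bAff, K7bDat.inc]

/-- options pass to a smaller measure -/
theorem k7f_d6_opt {Ω S D : Type*} [MeasurableSpace Ω] {μ μ' : Measure Ω} {s : Ω → S} {d : Ω → D} {n : ℕ} (h : KsOpt μ s d n) (hμ : μ' ≤ μ) : KsOpt μ' s d n := by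
  intro s0
  obtain ⟨L, h1, h2⟩ := h s0
  refine ⟨L, h1, fun d0 hd0 => ?_⟩
  exact le_antisymm ((hμ _).trans (h2 d0 hd0).le) bot_le

/-- the unit coordinates are bounded on the pieces of a label -/
theorem k7f_d6_unit_bd {K : ℝ} (hR : R.Ok K) (Q : R.Lab) {l : R.L} (hl : l ∈ R.asg Q) {t : ℝ} (ht : t ∈ R.blk Q) :
    |(R.unit Q (t, R.y l t)).1| ≤ K ∧ |(R.unit Q (t, R.y l t)).2 (0 : Fin 2)| ≤ K ∧ |(R.unit Q (t, R.y l t)).2 (1 : Fin 2)| ≤ K := by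
  have hb := hR.box_mem Q l hl t ht
  have h0 := (norm_le_pi_norm (R.unit Q (t, R.y l t)).2 (0 : Fin 2)).trans hb
  have h1 := (norm_le_pi_norm (R.unit Q (t, R.y l t)).2 (1 : Fin 2)).trans hb
  refine ⟨?_, h0, h1⟩
  have hq : 0 < kbQ (R.lev Q) := by unfold kbQ; positivity
  have ht' : t ∈ Set.Ico ((R.iv Q : ℝ) * kbQ (R.lev Q)) (((R.iv Q : ℝ) + 1) * kbQ (R.lev Q)) := ht
  show |(t - R.t0 Q) / R.q Q| ≤ K
  unfold KsRef.t0 KsRef.q
  rw [abs_le]
  constructor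
  · have : 0 ≤ (t - (R.iv Q : ℝ) * kbQ (R.lev Q)) / kbQ (R.lev Q) := div_nonneg (by linarith [ht'.1]) hq.le
    linarith [hR.K_ge]
  · have : (t - (R.iv Q : ℝ) * kbQ (R.lev Q)) / kbQ (R.lev Q) ≤ 1 := by
      rw [div_le_one hq]
      nlinarith [ht'.2]
    linarith [hR.K_ge]

/-- the sheet of an entry in an affine chart -/
theorem k7f_d6_sheet {K : ℝ} (hR : R.Ok K) (e : R.Ent) (hus : (R.Ev0 ∩ R.inc (R.eLab e)).Nonempty) (lamb : ℝ) (A : Matrix (Fin 3) (Fin 3) ℝ) (b : Fin 3 → ℝ) :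
    ∃ α β D : MvPolynomial (Fin 3) ℝ, α.totalDegree ≤ 2 ∧ β.totalDegree ≤ 2 ∧ D.totalDegree ≤ 2 ∧
      ∀ x : Fin 3 → ℝ, R.unit (R.eLab e) (k7fTb (k7fAm A b x)) ∈ R.eInt e →
        lamb * R.eG e (k7fTb (k7fAm A b x)) = sh2_val 1 α β D x ∧ 1 / K ^ 2 ≤ MvPolynomial.eval x D ∧ MvPolynomial.eval x D ≤ K ^ 2 := by
  obtain ⟨α, β, D, h1, h2, h3, h4⟩ := k7f_entry_class hR e hus lamb
  obtain ⟨α', β', D', g1, g2, g3, g4, g5⟩ := k7f_val_comp 1 α β D A b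
  refine ⟨α', β', D', g1.trans h1, g2.trans h2, g3.trans h3, fun x hx => ?_⟩
  obtain ⟨a1, a2, a3⟩ := h4 _ hx
  exact ⟨by rw [g5, a1], by rw [g4]; exact a2, by rw [g4]; exact a3⟩

/-- unit coordinates of a label which is not light are Lipschitz functions of its centred coordinates -/
theorem k7f_d6_lip {K τ s : ℝ} (hR : R.Ok K) (X : K7bDat R) (c : K7bPar) (hc : c.WF) (hκ : X.κ ≠ 0) (h0 : X.hor.Ok0 c K) (hτ : 0 < τ) (hs : s ∈ c.G)
    {Q : R.Lab} (hQ : Q ∈ X.hor.Qat s) (hfl : ENNReal.ofReal τ * X.hor.mQ Q ≤ X.hor.lam (X.hor.Sp ∩ {w | X.hor.lab s w = Q})) (z z' : ℝ × KbB KbVer.two) :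
    dist (R.unit Q z) (R.unit Q z') ≤ 12 * (1 + 8 * K ^ 6 / τ) ^ 3 * K * ‖k7fCenQ X.hor c s Q (X.nb z) - k7fCenQ X.hor c s Q (X.nb z')‖ := by
  obtain ⟨L, hL⟩ := k7f_unit_aff X hκ Q
  have hbd : ∀ l ∈ X.hor.asg Q, ∀ t ∈ X.hor.blk Q, |k7bAff (L 0) (X.hor.bs l t)| ≤ K ∧ |k7bAff (L 1) (X.hor.bs l t)| ≤ K ∧ |k7bAff (L 2) (X.hor.bs l t)| ≤ K := by
    intro l hl t ht
    have ht' := (k7b_link_blk X Q t).1 ht
    have hu := k7f_d6_unit_bd hR Q (l := l) hl ht'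
    have e := hL (X.tOf t, R.y l (X.tOf t))
    have hbs : X.hor.bs l t = X.nb (X.tOf t, R.y l (X.tOf t)) := k7b_link_bs X l t
    rw [hbs, ← e.1, ← e.2.1, ← e.2.2]
    exact hu
  have key : ∀ i : Fin 3, |k7bAff (L i) (X.nb z) - k7bAff (L i) (X.nb z')|
      ≤ 12 * (1 + 8 * K ^ 6 / τ) ^ 3 * K * ‖k7fCenQ X.hor c s Q (X.nb z) - k7fCenQ X.hor c s Q (X.nb z')‖ := by
    intro i
    refine k7f_box_cmp c X.hor hc hR.K_ge hτ h0 hs hQ hfl (L i) ?_ _ _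
    intro l hl t ht
    have := hbd l hl t ht
    fin_cases i
    · exact this.1
    · exact this.2.1
    · exact this.2.2
  have hnn : 0 ≤ 12 * (1 + 8 * K ^ 6 / τ) ^ 3 * K * ‖k7fCenQ X.hor c s Q (X.nb z) - k7fCenQ X.hor c s Q (X.nb z')‖ := (abs_nonneg _).trans (key 0)
  rw [Prod.dist_eq]
  refine max_le ?_ ?_
  · rw [Real.dist_eq, (hL z).1, (hL z').1]
    exact key 0
  · rw [dist_pi_le_iff hnn]
    intro i
    have hi : ∀ i : Fin 2, dist ((R.unit Q z).2 i) ((R.unit Q z').2 i)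
        ≤ 12 * (1 + 8 * K ^ 6 / τ) ^ 3 * K * ‖k7fCenQ X.hor c s Q (X.nb z) - k7fCenQ X.hor c s Q (X.nb z')‖ := by
      intro i
      fin_cases i
      · show dist ((R.unit Q z).2 (0 : Fin 2)) ((R.unit Q z').2 (0 : Fin 2)) ≤ _
        rw [Real.dist_eq, (hL z).2.1, (hL z').2.1]
        exact key 1
      · show dist ((R.unit Q z).2 (1 : Fin 2)) ((R.unit Q z').2 (1 : Fin 2)) ≤ _
        rw [Real.dist_eq, (hL z).2.2, (hL z').2.2]
        exact key 2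
    exact hi i

/-- arithmetic of the constants -/
theorem k7f_d6_arith {K τ : ℝ} (hK : 1 ≤ K) (hτ : 0 < τ) (hτ1 : τ ≤ 1) :
    K ≤ 34992 * (K / τ) ^ 20 ∧ K ^ 2 ≤ 34992 * (K / τ) ^ 20 ∧ 4 * (12 * (1 + 8 * K ^ 6 / τ) ^ 3 * K) * K ≤ 34992 * (K / τ) ^ 20 := by
  have hK0 : 0 < K := lt_of_lt_of_le one_pos hK
  obtain ⟨y, hy⟩ : ∃ y : ℝ, y = K / τ := ⟨_, rfl⟩
  have hKy : K ≤ y := by
    rw [hy, le_div_iff₀ hτ]
    nlinarith
  have hy1 : 1 ≤ y := hK.trans hKy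
  have hy0 : 0 < y := lt_of_lt_of_le one_pos hy1
  rw [← hy]
  have e1 : 8 * K ^ 6 / τ = 8 * K ^ 5 * y := by rw [hy]; ring
  have h5 : K ^ 5 ≤ y ^ 5 := pow_le_pow_left₀ hK0.le hKy 5
  have h6 : 1 + 8 * K ^ 6 / τ ≤ 9 * y ^ 6 := by
    rw [e1]
    have a1 : 8 * K ^ 5 * y ≤ 8 * y ^ 5 * y := by
      apply mul_le_mul_of_nonneg_right _ hy0.le
      linarith
    have a2 : (1 : ℝ) ≤ y ^ 6 := one_le_pow₀ hy1
    nlinarith
  have h60 : 0 ≤ 1 + 8 * K ^ 6 / τ := by positivity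
  have h18 : (1 + 8 * K ^ 6 / τ) ^ 3 ≤ 729 * y ^ 18 := by
    calc (1 + 8 * K ^ 6 / τ) ^ 3 ≤ (9 * y ^ 6) ^ 3 := pow_le_pow_left₀ h60 h6 3
      _ = 729 * y ^ 18 := by ring
  have p1 : y ≤ y ^ 20 := by
    calc y = y ^ 1 := (pow_one y).symm
      _ ≤ y ^ 20 := pow_le_pow_right₀ hy1 (by norm_num)
  have p2 : y ^ 2 ≤ y ^ 20 := pow_le_pow_right₀ hy1 (by norm_num)
  have hy20 : 0 < y ^ 20 := by positivity
  refine ⟨by nlinarith, ?_, ?_⟩
  · have : K ^ 2 ≤ y ^ 2 := pow_le_pow_left₀ hK0.le hKy 2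
    nlinarith
  · have hKK : K * K ≤ y * y := mul_le_mul hKy hKy hK0.le hy0.le
    calc 4 * (12 * (1 + 8 * K ^ 6 / τ) ^ 3 * K) * K = 48 * ((1 + 8 * K ^ 6 / τ) ^ 3 * (K * K)) := by ring
      _ ≤ 48 * ((729 * y ^ 18) * (y * y)) := by
          apply mul_le_mul_of_nonneg_left _ (by norm_num)
          exact mul_le_mul h18 hKK (by positivity) (by positivity)
      _ = 34992 * y ^ 20 := by ring

/-- **L-252-S7f-D6 (glue, ~500 l.).**   `H = X.hor`, `X.L = 0`.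
`T.Sg = R.Ent`, `T.se s z = R.ent (X.r + s) (X.inc z)`, `T.lq = R.eLab` (`H.lab s z = R.labAt (X.r + s) (X.inc z)` by definition), `T.fc s z = fc (X.inc z)`, `T.eta = 6 K ξf/hm²`.
Sheet of `e` (label `Q = eLab e`, `s_e = R.dep Q - X.r`, `h = c.h s_e`): if `Q` is used, `k7f_entry_class` with `lamb = 1/R.a X.r`, then `k7f_val_comp` with `(A, b)` of `k7f_psi X _ (X.ct Q) (X.cZ Q) (X.cY Q) h`; otherwise `0, 0, 1` (`Classical.choose`).
Let `z ∈ E0`, `s ∈ G`, `p = X.inc z ∈ X.Sp ⊆ Ev0`, `e = R.ent (X.r + s) p`, `Q = eLab e`; `R.dep Q = X.r + s`, `p ∈ R.inc Q` (`hR.lab`), so `s_e = s`.   `H.base z = X.nb (R.base p)` (`k7b_link_bs`), `k7fAm A b (k7fCb z)` is the vector of `R.base p`.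
`fit`: `ent_cov` (`R.base p ∈ core e ⊆` preimage of `eInt e`, since `0 < eRad e`), `H.X z = R.w p.1 p.2 / R.a X.r` (`k7b_link_X`, `X.L = 0`), `R.a (X.r + s) = R.a X.r * c.a s` (`Real.rpow_add`, `c.N = R.N`).
`stabB`: `A₁ := 12 (1 + 8 K⁶/τ)³ K`;  the unit coordinates `k7bAff (L i) ∘ nb` (`k7f_unit_aff`) are bounded by `K` on the pieces of `Q` (`box_mem`; time coordinate in `[0,1)`; `k7b_link_blk`, `k7b_link_bs`), `k7f_box_cmp`:  `dist (unit (Ψ x)) (unit (base p)) ≤ A₁ ‖x - k7fCb z‖ ≤ 2 A₁ r < 1/K ≤ eRad e` for `r = 1/(4 A₁ K)`.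
`close`: `K7fLk.close` + `k7f_cen_close`, `|ct Q| ≤ 1 + K`, `|cZ Q| ≤ 3 K` (`box`, `time`, `bdd` at `z`), `hm ≤ c.h s ≤ 1`.   `opt`: `K7fLk.opt`, smaller measure.   `card`: `ent_card`.   `mse`, `mfc`: preimages under the measurable map `X.inc`. -/
theorem k7f_ad_ball : ∃ (p : ℕ) (C : ℝ), 1 ≤ C ∧
    ∀ (R : KsRef KbVer.two) (X : K7bDat R) (c : K7bPar) (K τ ξf hm : ℝ) (Fc : Type) [Countable Fc] (fc : R.L × ℝ → Fc) (E0 : Set (R.L × ℝ)),
      c.WF → R.Ok K → X.L = (0, 0, 0, 0) → X.hor.Ok0 c K → K7fLk X c K ξf fc → 0 < τ → τ ≤ 1 → 0 < hm → (∀ s ∈ c.G, hm ≤ c.h s) → E0 ⊆ X.hor.Sp →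
      (∀ s ∈ c.G, ∀ z ∈ E0, ENNReal.ofReal τ * X.hor.mQ (X.hor.lab s z) ≤ X.hor.lam (X.hor.Sp ∩ {w | X.hor.lab s w = X.hor.lab s z})) →
      ∃ T : K7fSh X.hor, T.OkB c (C * (K / τ) ^ p) (1 / (C * (K / τ) ^ p)) 2 1 E0 ∧ T.eta = 6 * K * ξf / hm ^ 2 := by
  refine ⟨20, 34992, by norm_num, ?_⟩
  intro R X c K τ ξf hm Fc _ fc E0 hc hR hL h0 lk hτ hτ1 hhm hhmle hE0 hfl
  have hK := hR.K_ge
  have hK0 : 0 < K := lt_of_lt_of_le one_pos hK
  have hN : 0 < c.N := lt_of_lt_of_le one_pos hc.N1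
  have hhpos : ∀ s : ℝ, 0 < c.h s := fun s => by unfold K7bPar.h; exact Real.rpow_pos_of_pos hN _
  obtain ⟨hk0, hk1, hk2⟩ := k7f_d6_arith hK hτ hτ1
  obtain ⟨K', hK'⟩ : ∃ K' : ℝ, K' = 34992 * (K / τ) ^ 20 := ⟨_, rfl⟩
  rw [← hK'] at hk0 hk1 hk2 ⊢
  have hK'0 : 0 < K' := lt_of_lt_of_le hK0 hk0
  -- charts
  have hpsi := fun Q : R.Lab => k7f_psi X lk.κ0 (X.ct Q) (X.cZ Q) (X.cY Q) (c.h (R.dep Q - X.r)) (hhpos _)
  choose A b hA1 hA2 using hpsi
  -- sheets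
  have hsh : ∀ e : R.Ent, ∃ α β D : MvPolynomial (Fin 3) ℝ, (R.Ev0 ∩ R.inc (R.eLab e)).Nonempty →
      (α.totalDegree ≤ 2 ∧ β.totalDegree ≤ 2 ∧ D.totalDegree ≤ 2 ∧
      ∀ x : Fin 3 → ℝ, R.unit (R.eLab e) (k7fTb (k7fAm (A (R.eLab e)) (b (R.eLab e)) x)) ∈ R.eInt e →
        1 / R.a X.r * R.eG e (k7fTb (k7fAm (A (R.eLab e)) (b (R.eLab e)) x)) = sh2_val 1 α β D x ∧ 1 / K ^ 2 ≤ MvPolynomial.eval x D ∧ MvPolynomial.eval x D ≤ K ^ 2) := by
    intro e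
    by_cases hus : (R.Ev0 ∩ R.inc (R.eLab e)).Nonempty
    · obtain ⟨α, β, D, h⟩ := k7f_d6_sheet hR e hus (1 / R.a X.r) (A (R.eLab e)) (b (R.eLab e))
      exact ⟨α, β, D, fun _ => h⟩
    · exact ⟨0, 0, 1, fun h => absurd h hus⟩
  choose al be Di hP using hsh
  -- the common facts at an incidence
  have hfacts : ∀ s ∈ c.G, ∀ z ∈ E0, X.inc z ∈ X.Sp ∧ X.inc z ∈ R.Ev0 ∧ R.dep (R.eLab (R.ent (X.r + s) (X.inc z))) - X.r = s ∧
      X.inc z ∈ R.inc (R.eLab (R.ent (X.r + s) (X.inc z))) ∧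
      k7fCb X.hor c s z = k7fCen (X.ct (R.eLab (R.ent (X.r + s) (X.inc z)))) (X.cZ (R.eLab (R.ent (X.r + s) (X.inc z)))) (X.cY (R.eLab (R.ent (X.r + s) (X.inc z)))) (c.h s)
        (X.nb (R.base (X.inc z))) ∧
      k7fTb (k7fAm (A (R.eLab (R.ent (X.r + s) (X.inc z)))) (b (R.eLab (R.ent (X.r + s) (X.inc z)))) (k7fCb X.hor c s z)) = R.base (X.inc z) ∧
      dist (R.unit (R.eLab (R.ent (X.r + s) (X.inc z))) (R.base (X.inc z))) (R.eCtr (R.ent (X.r + s) (X.inc z))) ≤ R.eRad (R.ent (X.r + s) (X.inc z)) ∧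
      |R.w (X.inc z).1 (X.inc z).2 - R.eG (R.ent (X.r + s) (X.inc z)) (R.base (X.inc z))| ≤ K * R.a (X.r + s) := by
    intro s hs z hz
    have h1 : X.inc z ∈ X.Sp := hE0 hz
    have h2 : X.inc z ∈ R.Ev0 := lk.sub h1
    have h3 := hR.lab (X.r + s) (lk.dep s hs) _ h2
    have h4 : R.dep (R.eLab (R.ent (X.r + s) (X.inc z))) - X.r = s := by
      have : R.dep (R.eLab (R.ent (X.r + s) (X.inc z))) = X.r + s := h3.1
      rw [this]; ring
    have h5 : k7fCb X.hor c s z = k7fCen (X.ct (R.eLab (R.ent (X.r + s) (X.inc z)))) (X.cZ (R.eLab (R.ent (X.r + s) (X.inc z)))) (X.cY (R.eLab (R.ent (X.r + s) (X.inc z)))) (c.h s)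
        (X.nb (R.base (X.inc z))) := by
      unfold k7fCb k7fCenQ
      rw [k7f_d6_base]
      rfl
    have h6 := hR.ent_cov (X.r + s) (lk.dep s hs) _ h2
    refine ⟨h1, h2, h4, h3.2, h5, ?_, h6.1.2, h6.2⟩
    rw [h5]
    have := hA1 (R.eLab (R.ent (X.r + s) (X.inc z))) (R.base (X.inc z))
    rwa [h4] at this
  have hrad : ∀ e : R.Ent, 1 / K ≤ R.eRad e := by
    intro e
    rw [div_le_iff₀ hK0]
    linarith [hR.ent_rad e]
  have hint : ∀ s ∈ c.G, ∀ z ∈ E0, R.unit (R.eLab (R.ent (X.r + s) (X.inc z))) (R.base (X.inc z)) ∈ R.eInt (R.ent (X.r + s) (X.inc z)) := by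
    intro s hs z hz
    have h7 := (hfacts s hs z hz).2.2.2.2.2.2.1
    have := hrad (R.ent (X.r + s) (X.inc z))
    have hpos : 0 < R.eRad (R.ent (X.r + s) (X.inc z)) := lt_of_lt_of_le (by positivity) this
    unfold KsRef.eInt
    rw [Metric.mem_ball]
    linarith
  have hused : ∀ s ∈ c.G, ∀ z ∈ E0, (R.Ev0 ∩ R.inc (R.eLab (R.ent (X.r + s) (X.inc z)))).Nonempty :=
    fun s hs z hz => ⟨X.inc z, (hfacts s hs z hz).2.1, (hfacts s hs z hz).2.2.2.1⟩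
  refine ⟨{ Sg := R.Ent, se := fun s z => R.ent (X.r + s) (X.inc z), lq := R.eLab, al := al, be := be, Di := Di, cc := fun _ => 0, Fc := Fc,
            fc := fun _ z => fc (X.inc z), eta := 6 * K * ξf / hm ^ 2 }, ?_, rfl⟩
  refine ⟨?_, ?_, ?_, ?_, ?_, ?_, ?_, ?_, ?_⟩
  · -- mse
    intro s _
    exact k7f_d6_lab X (hR.m_ent (X.r + s))
  · -- mfc
    intro s _
    exact k7f_d6_lab X lk.mfc
  · -- lab
    intro s _ z _
    rfl
  · -- card
    intro q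
    exact (hR.ent_card q).trans hk0
  · -- deg
    intro s hs z hz
    have := hP _ (hused s hs z hz)
    exact ⟨this.1, this.2.1, this.2.2.1⟩
  · -- stabB
    intro s hs z hz x hx
    obtain ⟨f1, f2, f3, f4, f5, f6, f7, f8⟩ := hfacts s hs z hz
    have hQ : R.eLab (R.ent (X.r + s) (X.inc z)) ∈ X.hor.Qat s := (h0.labmem s hs z (hE0 hz)).1
    have hlip := k7f_d6_lip hR X c hc lk.κ0 h0 hτ hs hQ (hfl s hs z hz)
      (k7fTb (k7fAm (A (R.eLab (R.ent (X.r + s) (X.inc z)))) (b (R.eLab (R.ent (X.r + s) (X.inc z)))) x)) (R.base (X.inc z))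
    have e1 : k7fCenQ X.hor c s (R.eLab (R.ent (X.r + s) (X.inc z)))
        (X.nb (k7fTb (k7fAm (A (R.eLab (R.ent (X.r + s) (X.inc z)))) (b (R.eLab (R.ent (X.r + s) (X.inc z)))) x))) = x := by
      have := hA2 (R.eLab (R.ent (X.r + s) (X.inc z))) x
      rwa [f3] at this
    have e2 : k7fCenQ X.hor c s (R.eLab (R.ent (X.r + s) (X.inc z))) (X.nb (R.base (X.inc z))) = k7fCb X.hor c s z := f5.symm
    rw [e1, e2] at hlip
    have hn : ‖x - k7fCb X.hor c s z‖ ≤ 2 * (1 / K') := by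
      rw [pi_norm_le_iff_of_nonneg (by positivity)]
      intro i
      exact hx i
    have hA0 : 0 ≤ 12 * (1 + 8 * K ^ 6 / τ) ^ 3 * K := by positivity
    have hsmall : 12 * (1 + 8 * K ^ 6 / τ) ^ 3 * K * (2 * (1 / K')) < 1 / K := by
      rw [lt_div_iff₀ hK0]
      have : 12 * (1 + 8 * K ^ 6 / τ) ^ 3 * K * (2 * (1 / K')) * K = (4 * (12 * (1 + 8 * K ^ 6 / τ) ^ 3 * K) * K) / K' / 2 := by
        field_simp
        ring
      rw [this]
      have : 4 * (12 * (1 + 8 * K ^ 6 / τ) ^ 3 * K) * K / K' ≤ 1 := by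
        rw [div_le_one hK'0]; exact hk2
      linarith
    have hmem : R.unit (R.eLab (R.ent (X.r + s) (X.inc z))) (k7fTb (k7fAm (A (R.eLab (R.ent (X.r + s) (X.inc z)))) (b (R.eLab (R.ent (X.r + s) (X.inc z)))) x))
        ∈ R.eInt (R.ent (X.r + s) (X.inc z)) := by
      unfold KsRef.eInt
      rw [Metric.mem_ball]
      have t1 := dist_triangle (R.unit (R.eLab (R.ent (X.r + s) (X.inc z))) (k7fTb (k7fAm (A (R.eLab (R.ent (X.r + s) (X.inc z)))) (b (R.eLab (R.ent (X.r + s) (X.inc z)))) x)))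
        (R.unit (R.eLab (R.ent (X.r + s) (X.inc z))) (R.base (X.inc z))) (R.eCtr (R.ent (X.r + s) (X.inc z)))
      have t2 : 12 * (1 + 8 * K ^ 6 / τ) ^ 3 * K * ‖x - k7fCb X.hor c s z‖ ≤ 12 * (1 + 8 * K ^ 6 / τ) ^ 3 * K * (2 * (1 / K')) :=
        mul_le_mul_of_nonneg_left hn hA0
      have t3 := hrad (R.ent (X.r + s) (X.inc z))
      linarith
    have := (hP _ (hused s hs z hz)).2.2.2 x hmem
    refine ⟨le_trans ?_ this.2.1, this.2.2.trans hk1⟩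
    exact one_div_le_one_div_of_le (by positivity) hk1
  · -- fit
    intro s hs z hz
    obtain ⟨f1, f2, f3, f4, f5, f6, f7, f8⟩ := hfacts s hs z hz
    have hi := hint s hs z hz
    rw [← f6] at hi
    have := ((hP _ (hused s hs z hz)).2.2.2 _ hi).1
    rw [f6] at this
    show |X.hor.X z - sh2_val 1 (al (R.ent (X.r + s) (X.inc z))) (be (R.ent (X.r + s) (X.inc z))) (Di (R.ent (X.r + s) (X.inc z))) (k7fCb X.hor c s z)| ≤ K' * c.a s
    have hX : X.hor.X z = R.w (X.inc z).1 (X.inc z).2 / R.a X.r := k7f_d6_X X hL z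
    rw [← this, hX]
    have hRN : 0 < R.N := by rw [← lk.N]; exact hN
    have har : 0 < R.a X.r := by unfold KsRef.a; exact Real.rpow_pos_of_pos hRN _
    have hadd : R.a (X.r + s) = R.a X.r * c.a s := by
      unfold KsRef.a K7bPar.a
      rw [lk.N, ← Real.rpow_add hRN]
      congr 1
      ring
    have e : R.w (X.inc z).1 (X.inc z).2 / R.a X.r - 1 / R.a X.r * R.eG (R.ent (X.r + s) (X.inc z)) (R.base (X.inc z))
        = (R.w (X.inc z).1 (X.inc z).2 - R.eG (R.ent (X.r + s) (X.inc z)) (R.base (X.inc z))) / R.a X.r := by ring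
    rw [e, abs_div, abs_of_pos har, div_le_iff₀ har]
    have has : 0 < c.a s := by unfold K7bPar.a; exact Real.rpow_pos_of_pos hN _
    calc _ ≤ K * R.a (X.r + s) := f8
      _ = K * c.a s * R.a X.r := by rw [hadd]; ring
      _ ≤ K' * c.a s * R.a X.r := by
          apply mul_le_mul_of_nonneg_right _ har.le
          exact mul_le_mul_of_nonneg_right hk0 has.le
  · -- close
    intro s hs z hz z' hz' hfs
    obtain ⟨f1, f2, f3, f4, f5, f6, f7, f8⟩ := hfacts s hs z hz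
    obtain ⟨g1, g2, g3, g4, g5, g6, g7, g8⟩ := hfacts s hs z' hz'
    have hse : R.ent (X.r + s) (X.inc z) = R.ent (X.r + s) (X.inc z') := congrArg Prod.fst hfs
    have hfc : fc (X.inc z) = fc (X.inc z') := congrArg Prod.snd hfs
    obtain ⟨c1, c2, c3⟩ := lk.close _ f1 _ g1 hfc
    rw [f5, g5, ← hse]
    have hh1 : c.h s ≤ 1 := by
      unfold K7bPar.h
      refine Real.rpow_le_one_of_one_le_of_nonpos hc.N1 ?_
      have := mul_nonneg hc.k0.le (hc.G0 s hs)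
      linarith
    refine (k7f_cen_close _ _ _ _ ξf (hhpos s) hh1 _ _ c1 c2 c3).trans ?_
    have hξ : 0 ≤ ξf := (abs_nonneg _).trans c1
    -- bounds of the centre
    obtain ⟨l1, l2, l3⟩ := h0.labmem s hs z (hE0 hz)
    have hb := h0.box s hs _ l1 z.1 l3 z.2 l2
    obtain ⟨b1, b2, -⟩ := hb
    have ht := h0.time z (hE0 hz)
    obtain ⟨d1, d2, -, -⟩ := h0.bdd z (hE0 hz)
    have hKh : K * c.h s ≤ K := by nlinarith [hhpos s]
    have hct : |X.ct (R.eLab (R.ent (X.r + s) (X.inc z)))| ≤ 1 + K := by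
      have b1' : |z.2 - X.ct (R.eLab (R.ent (X.r + s) (X.inc z)))| ≤ K * c.h s := b1
      have := abs_le.1 b1'
      rw [abs_le]
      constructor <;> linarith [this.1, this.2, ht.1, ht.2]
    have hcZ : |X.cZ (R.eLab (R.ent (X.r + s) (X.inc z)))| ≤ 3 * K := by
      have b2' : |(X.hor.p z.1 + z.2 * X.hor.v z.1) - X.cZ (R.eLab (R.ent (X.r + s) (X.inc z)))| ≤ K * c.h s := b2
      have := abs_le.1 b2'
      have a1 := abs_le.1 d1
      have a2 := abs_le.1 d2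
      have hv : |z.2 * X.hor.v z.1| ≤ K := by
        rw [abs_mul, abs_of_nonneg ht.1]
        calc z.2 * |X.hor.v z.1| ≤ 1 * K := mul_le_mul ht.2 d2 (abs_nonneg _) (by norm_num)
          _ = K := one_mul K
      have a3 := abs_le.1 hv
      rw [abs_le]
      constructor <;> linarith [this.1, this.2, a1.1, a1.2, a3.1, a3.2]
    have hsum : 1 + |X.cZ (R.eLab (R.ent (X.r + s) (X.inc z)))| + |X.ct (R.eLab (R.ent (X.r + s) (X.inc z)))| ≤ 6 * K := by linarith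
    have hsq : hm ^ 2 ≤ c.h s ^ 2 := pow_le_pow_left₀ hhm.le (hhmle s hs) 2
    show _ ≤ 6 * K * ξf / hm ^ 2
    calc (1 + |X.cZ (R.eLab (R.ent (X.r + s) (X.inc z)))| + |X.ct (R.eLab (R.ent (X.r + s) (X.inc z)))|) * ξf / c.h s ^ 2
        ≤ 6 * K * ξf / c.h s ^ 2 := by
          apply div_le_div_of_nonneg_right _ (by positivity)
          exact mul_le_mul_of_nonneg_right hsum hξ
      _ ≤ 6 * K * ξf / hm ^ 2 := div_le_div_of_nonneg_left (by positivity) (by positivity) hsq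
  · -- opt
    intro s hs
    obtain ⟨n, hn, hopt⟩ := lk.opt s hs
    have hle : X.hor.lam.restrict E0 ≤ X.hor.lam.restrict X.hor.Sp := Measure.restrict_mono hE0 (le_refl X.hor.lam)
    exact ⟨n, hn.trans hk0, k7f_d6_opt hopt hle⟩

/-! ## D8. A supplier of the link facts -/

/-- the dyadic base bins of mesh `a_M` of a tangent incidence (= the point state `R.pt M r` without the bin of the native signal) -/
def KsRef.k7fBp (R : KsRef KbVer.two) (M : ℝ) (p : R.L × ℝ) : ℤ × (Fin KbVer.two.j → ℤ) :=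
  (kbBin (R.a M) p.2, fun i => kbBin (R.a M) (R.y p.1 p.2 i))

/-- **what the exit of S1 has to carry besides `Ok0`**: crude bound `Bc` of the chart, end histories refine the states of `R` -/
structure K7fPre (X : K7bDat R) (c : K7bPar) (Bc : ℝ) : Prop where
  N : c.N = R.N
  sub : X.Sp ⊆ R.Ev0 ∩ R.inc X.Qr
  pos : R.νQ X.Qr ≠ 0
  dep : ∀ s ∈ c.G, X.r + s ∈ R.depths
  κ0 : X.κ ≠ 0
  chq : 1 / X.q ≤ Bc
  chκ : |X.κ| * (1 + |X.y1| + |X.y2|) ≤ Bc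
  ref : ∃ g : X.Eh → R.Par × R.Hist, ∀ p ∈ X.Sp, R.st p = g (X.eh p)

theorem k7f_d8_eqns_cite : True := by
  have := @KsRef.k7fBp.eq_1
  trivial

theorem k7f_d8_dy {x : ℝ} (hx : 0 < x) : 0 < kbDy x ∧ kbDy x < 2 * x := by
  refine ⟨by unfold kbDy; positivity, ?_⟩
  unfold kbDy
  rw [← Real.rpow_intCast]
  calc (2 : ℝ) ^ ((⌈Real.logb 2 x⌉ : ℤ) : ℝ) < (2 : ℝ) ^ (Real.logb 2 x + 1) :=
        Real.rpow_lt_rpow_of_exponent_lt (by norm_num) (Int.ceil_lt_add_one _)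
    _ = 2 * x := by
        rw [Real.rpow_add (by norm_num), Real.rpow_logb (by norm_num) (by norm_num) hx, Real.rpow_one, mul_comm]

theorem k7f_d8_bin_close {σ x x' : ℝ} (hσ : 0 < σ) (h : kbBin σ x = kbBin σ x') : |x - x'| ≤ 2 * σ := by
  obtain ⟨hD, hD2⟩ := k7f_d8_dy hσ
  unfold kbBin at h
  have a1 := Int.floor_le (x / kbDy σ)
  have a2 := Int.lt_floor_add_one (x / kbDy σ)
  have b1 := Int.floor_le (x' / kbDy σ)
  have b2 := Int.lt_floor_add_one (x' / kbDy σ)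
  rw [h] at a1 a2
  have e : x - x' = (x / kbDy σ - x' / kbDy σ) * kbDy σ := by field_simp
  have h1 : |x / kbDy σ - x' / kbDy σ| ≤ 1 := by
    rw [abs_le]
    constructor <;> linarith
  rw [e, abs_mul, abs_of_pos hD]
  calc |x / kbDy σ - x' / kbDy σ| * kbDy σ ≤ 1 * kbDy σ := mul_le_mul_of_nonneg_right h1 hD.le
    _ ≤ 2 * σ := by linarith

theorem k7f_d8_bin_meas (σ : ℝ) : Measurable (kbBin σ) := by
  unfold kbBin
  exact Int.measurable_floor.comp (measurable_id.div_const _)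

/-- the base bins are a label -/
theorem k7f_d8_lab {K : ℝ} (hR : R.Ok K) (M : ℝ) : KsLab (R.k7fBp M) := by
  have hm : Measurable (R.k7fBp M) := by
    unfold KsRef.k7fBp
    refine ((k7f_d8_bin_meas _).comp measurable_snd).prodMk ?_
    rw [measurable_pi_iff]
    intro i
    refine (k7f_d8_bin_meas _).comp ?_
    have h1 : Measurable fun p : R.L × ℝ => R.co p.1 := hR.m_co.comp measurable_fst
    have h2 : Measurable fun p : R.L × ℝ => (R.co p.1).1 i := (measurable_pi_apply i).comp (measurable_fst.comp h1)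
    have h3 : Measurable fun p : R.L × ℝ => (R.co p.1).2.1 i := (measurable_pi_apply i).comp (measurable_fst.comp (measurable_snd.comp h1))
    have e : (fun p : R.L × ℝ => R.y p.1 p.2 i) = fun p : R.L × ℝ => (R.co p.1).1 i + p.2 * (R.co p.1).2.1 i := by
      funext p
      simp [KsRef.y, kbY]
    rw [e]
    exact h2.add (measurable_snd.mul h3)
  intro s0
  exact hm (measurableSet_singleton s0)

theorem k7f_d8_q_pos (X : K7bDat R) : 0 < X.q := by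
  unfold K7bDat.q KsRef.q kbQ
  positivity

/-- null sets of the prepared law are null for the horizontal law -/
theorem k7f_d8_null {K Bc : ℝ} (hR : R.Ok K) (X : K7bDat R) {c : K7bPar} (hX : K7fPre X c Bc) (hmS : MeasurableSet X.hor.Sp) {N : Set (R.L × ℝ)}
    (hN : R.lam0 N = 0) : (X.hor.lam.restrict X.hor.Sp) (X.inc ⁻¹' N) = 0 := by
  obtain ⟨N', hNN', hN'm, hN'0⟩ := exists_measurable_superset_of_null hN
  have hq := k7f_d8_q_pos X
  have hC : MeasurableSet (X.inc ⁻¹' N' ∩ X.SpN) := (k7f_d6_inc_meas X hN'm).inter hmS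
  have link := k7b_link_mass hR X hX.pos (fun p hp => (hX.sub hp).2) (X.inc ⁻¹' N' ∩ X.SpN) hC Set.inter_subset_right
  have hup : X.up (X.inc ⁻¹' N' ∩ X.SpN) ⊆ N' ∩ R.Ev0 := by
    intro p hp
    have e : X.inc (p.1, (p.2 - X.t0) / X.q) = p := by
      unfold K7bDat.inc K7bDat.tOf
      ext
      · rfl
      · show X.t0 + X.q * ((p.2 - X.t0) / X.q) = p.2
        field_simp
        ring
    have h1 : X.inc (p.1, (p.2 - X.t0) / X.q) ∈ N' := hp.1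
    have h2 : X.inc (p.1, (p.2 - X.t0) / X.q) ∈ X.Sp := hp.2
    rw [e] at h1 h2
    exact ⟨h1, (hX.sub h2).1⟩
  have h0 : R.prior (X.up (X.inc ⁻¹' N' ∩ X.SpN)) = 0 := by
    refine le_antisymm ((measure_mono hup).trans ?_) bot_le
    have : R.lam0 N' = R.prior (N' ∩ R.Ev0) := by
      unfold KsRef.lam0 KsRef.law
      exact Measure.restrict_apply hN'm
    rw [← this, hN'0]
  rw [h0] at link
  have hl : X.hor.lam (X.inc ⁻¹' N' ∩ X.SpN) = 0 := by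
    rcases mul_eq_zero.1 link.symm with h | h
    · rcases mul_eq_zero.1 h with h | h
      · exact absurd (ENNReal.ofReal_eq_zero.1 h) (not_le.2 hq)
      · exact absurd h hX.pos
    · exact h
  refine le_antisymm ((measure_mono (Set.preimage_mono hNN')).trans ?_) bot_le
  have e1 : (X.hor.lam.restrict X.hor.Sp) (X.inc ⁻¹' N') = X.hor.lam (X.inc ⁻¹' N' ∩ X.hor.Sp) := Measure.restrict_apply' hmS
  rw [e1]
  exact hl.le

/-- **L-252-S7f-D8**: the link facts from `K7fPre` and items 4 of `R.Ok` (`opt_ent`, `opt_pt`), with `fc` = the dyadic base bins of a required mesh `a_M` -/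
theorem k7f_lk_of {K Bc M r0 : ℝ} (hR : R.Ok K) (X : K7bDat R) (c : K7bPar) (hX : K7fPre X c Bc) (hM : M ∈ R.meshes) (hr0 : r0 ∈ R.widths)
    (hmS : MeasurableSet X.hor.Sp) : K7fLk X c (K ^ 2) (2 * Bc * R.a M) (R.k7fBp M) := by
  have hq := k7f_d8_q_pos X
  have hRN : 0 < R.N := by linarith [hR.N_ge]
  have haM : 0 < R.a M := by unfold KsRef.a; exact Real.rpow_pos_of_pos hRN _
  refine ⟨hX.N, fun p hp => (hX.sub hp).1, hX.dep, hX.κ0, k7f_d8_lab hR M, ?_, ?_⟩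
  · -- close
    intro p _ p' _ hfc
    have h1 : kbBin (R.a M) p.2 = kbBin (R.a M) p'.2 := congrArg Prod.fst hfc
    have h2 : ∀ i, kbBin (R.a M) (R.y p.1 p.2 i) = kbBin (R.a M) (R.y p'.1 p'.2 i) := fun i => congrFun (congrArg Prod.snd hfc) i
    have d1 := k7f_d8_bin_close haM h1
    have d2 : |ksZ (R.y p.1 p.2) - ksZ (R.y p'.1 p'.2)| ≤ 2 * R.a M := k7f_d8_bin_close haM (h2 (0 : Fin 2))
    have d3 : |ksY (R.y p.1 p.2) - ksY (R.y p'.1 p'.2)| ≤ 2 * R.a M := k7f_d8_bin_close haM (h2 (1 : Fin 2))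
    have hBc : 0 ≤ Bc := le_trans (by positivity) hX.chq
    have hdiv : ∀ x : ℝ, |x| ≤ 2 * R.a M → |x / X.q| ≤ 2 * Bc * R.a M := by
      intro x hx
      rw [abs_div, abs_of_pos hq, div_eq_mul_one_div]
      calc |x| * (1 / X.q) ≤ (2 * R.a M) * Bc := mul_le_mul hx hX.chq (by positivity) (by positivity)
        _ = 2 * Bc * R.a M := by ring
    refine ⟨?_, ?_, ?_⟩
    · have e : (X.nb (R.base p)).1 - (X.nb (R.base p')).1 = (p.2 - p'.2) / X.q := by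
        simp only [K7bDat.nb, KsRef.base]
        ring
      rw [e]
      exact hdiv _ d1
    · have e : (X.nb (R.base p)).2.1 - (X.nb (R.base p')).2.1 = (ksZ (R.y p.1 p.2) - ksZ (R.y p'.1 p'.2)) / X.q := by
        simp only [K7bDat.nb, KsRef.base, KsRef.y]
        ring
      rw [e]
      exact hdiv _ d2
    · have e : (X.nb (R.base p)).2.2 - (X.nb (R.base p')).2.2
          = X.κ * ((ksY (R.y p.1 p.2) - ksY (R.y p'.1 p'.2)) - X.y1 * (p.2 - p'.2) - X.y2 * (ksZ (R.y p.1 p.2) - ksZ (R.y p'.1 p'.2))) := by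
        simp only [K7bDat.nb, KsRef.base, KsRef.y]
        ring
      rw [e, abs_mul]
      have h3 : |(ksY (R.y p.1 p.2) - ksY (R.y p'.1 p'.2)) - X.y1 * (p.2 - p'.2) - X.y2 * (ksZ (R.y p.1 p.2) - ksZ (R.y p'.1 p'.2))|
          ≤ (1 + |X.y1| + |X.y2|) * (2 * R.a M) := by
        have t1 : |X.y1 * (p.2 - p'.2)| ≤ |X.y1| * (2 * R.a M) := by
          rw [abs_mul]; exact mul_le_mul_of_nonneg_left d1 (abs_nonneg _)
        have t2 : |X.y2 * (ksZ (R.y p.1 p.2) - ksZ (R.y p'.1 p'.2))| ≤ |X.y2| * (2 * R.a M) := by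
          rw [abs_mul]; exact mul_le_mul_of_nonneg_left d2 (abs_nonneg _)
        calc _ ≤ |ksY (R.y p.1 p.2) - ksY (R.y p'.1 p'.2)| + |X.y1 * (p.2 - p'.2)| + |X.y2 * (ksZ (R.y p.1 p.2) - ksZ (R.y p'.1 p'.2))| := by
              refine (abs_sub _ _).trans ?_
              exact add_le_add_left (abs_sub _ _) _
          _ ≤ (1 + |X.y1| + |X.y2|) * (2 * R.a M) := by nlinarith
      calc |X.κ| * _ ≤ |X.κ| * ((1 + |X.y1| + |X.y2|) * (2 * R.a M)) := mul_le_mul_of_nonneg_left h3 (abs_nonneg _)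
        _ = (|X.κ| * (1 + |X.y1| + |X.y2|)) * (2 * R.a M) := by ring
        _ ≤ Bc * (2 * R.a M) := mul_le_mul_of_nonneg_right hX.chκ (by positivity)
        _ = 2 * Bc * R.a M := by ring
  · -- opt
    intro s hs
    classical
    obtain ⟨n1, hn1, ho1⟩ := hR.opt_ent (X.r + s) (hX.dep s hs)
    obtain ⟨n2, hn2, ho2⟩ := hR.opt_pt M hM r0 hr0
    obtain ⟨g, hg⟩ := hX.ref
    refine ⟨n1 * n2, ?_, ?_⟩
    · push_cast
      have : (0 : ℝ) ≤ n2 := Nat.cast_nonneg _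
      have h0 : (0 : ℝ) ≤ n1 := Nat.cast_nonneg _
      nlinarith [hR.K_ge]
    intro e0
    obtain ⟨L1, hL1, hz1⟩ := ho1 (g e0)
    obtain ⟨L2, hL2, hz2⟩ := ho2 (g e0)
    refine ⟨L1 ×ˢ L2.image (fun x => (x.1, x.2.1)), ?_, ?_⟩
    · rw [Finset.card_product]
      exact Nat.mul_le_mul hL1 (Finset.card_image_le.trans hL2)
    rintro ⟨e, bp⟩ hd0
    rw [Finset.mem_product, not_and_or] at hd0
    -- the event, inside the selection
    have hsub : ∀ N : Set (R.L × ℝ), (∀ p ∈ X.Sp, X.eh p = e0 → R.ent (X.r + s) p = e → R.k7fBp M p = bp → p ∈ N) → R.lam0 N = 0 →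
        ksMass (X.hor.lam.restrict X.hor.Sp) (ksPair X.hor.eh fun z => (R.ent (X.r + s) (X.inc z), R.k7fBp M (X.inc z))) (e0, (e, bp)) = 0 := by
      intro N hN hN0
      have h1 := k7f_d8_null hR X hX hmS hN0
      unfold ksMass
      rw [Measure.restrict_apply' hmS]
      rw [Measure.restrict_apply' hmS] at h1
      refine le_antisymm ((measure_mono ?_).trans h1.le) bot_le
      rintro z ⟨hz1', hz2'⟩
      refine ⟨?_, hz2'⟩
      have hz3 : (X.eh (X.inc z), (R.ent (X.r + s) (X.inc z), R.k7fBp M (X.inc z))) = (e0, (e, bp)) := hz1'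
      have hz4 := Prod.mk.inj hz3
      have hz5 := Prod.mk.inj hz4.2
      exact hN _ hz2' hz4.1 hz5.1 hz5.2
    rcases hd0 with h | h
    · refine hsub (ksPair R.st (R.ent (X.r + s)) ⁻¹' {(g e0, e)}) ?_ (hz1 e h)
      intro p hp h1 h2 _
      show (R.st p, R.ent (X.r + s) p) = (g e0, e)
      rw [hg p hp, h1, h2]
    · refine hsub (⋃ k : ℤ, ksPair R.st (R.pt M r0) ⁻¹' {(g e0, (bp.1, bp.2, k))}) ?_ ?_
      · intro p hp h1 _ h3
        rw [Set.mem_iUnion]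
        refine ⟨kbBin (R.a r0) (R.X p.1 p.2), ?_⟩
        show (R.st p, R.pt M r0 p) = (g e0, (bp.1, bp.2, kbBin (R.a r0) (R.X p.1 p.2)))
        rw [hg p hp, h1, ← h3]
        rfl
      · rw [measure_iUnion_null_iff]
        intro k
        refine hz2 _ ?_
        intro hk
        exact h (Finset.mem_image.2 ⟨_, hk, rfl⟩)

/-! ## D7. The top -/

/-- `OkE` passes to the law restricted to the selection and to a smaller list of used labels -/
theorem k7f_d7_res (H : K7bHor) {c : K7bPar} {K : ℝ} (h : H.OkE c K) (Qat' : ℝ → Finset H.Q) (hQ : ∀ s, Qat' s ⊆ H.Qat s)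
    (hlab : ∀ s ∈ c.G, ∀ z ∈ H.Sp, H.lab s z ∈ Qat' s) (hle : (H.ν.prod k7bTime).restrict H.Sp ≤ H.lam) :
    ({ H with lam := (H.ν.prod k7bTime).restrict H.Sp, Qat := Qat' } : K7bHor).OkE c K :=
  { mp := h.mp
    mv := h.mv
    mq0 := h.mq0
    my1 := h.my1
    mSp := h.mSp
    meh := h.meh
    mlab := h.mlab
    masg := h.masg
    νle := h.νle
    νprob := h.νprob
    palle := h.palle
    dom := hle.trans h.dom
    lamres := ⟨H.Sp, h.mSp, rfl⟩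
    time := h.time
    bdd := h.bdd
    heq := h.heq
    palcap := h.palcap
    ehdom := ks_dom_mono h.ehdom (Measure.restrict_mono le_rfl hle) (fun _ _ => le_rfl) (fun _ => le_rfl) le_rfl
    refsum := h.refsum
    refQ := fun s hs q hq F hF => h.refQ s hs q (hQ s hq) F hF
    capQ := fun s hs q hq C hC => (hle _).trans (h.capQ s hs q (hQ s hq) C hC)
    ehlab := h.ehlab
    labmem := fun s hs z hz => ⟨hlab s hs z hz, (h.labmem s hs z hz).2⟩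
    bllen := fun s hs q hq => h.bllen s hs q (hQ s hq)
    blkdisj := fun s hs q hq q' hq' => h.blkdisj s hs q (hQ s hq) q' (hQ s hq')
    dyad := fun s hs => by
      obtain ⟨lev, hl⟩ := h.dyad s hs
      exact ⟨lev, fun q hq => hl q (hQ s hq)⟩
    asgdisj := fun s hs q hq q' hq' => h.asgdisj s hs q (hQ s hq) q' (hQ s hq')
    νQ := fun s hs q hq => h.νQ s hs q (hQ s hq)
    budget := fun s hs => (Finset.sum_le_sum_of_subset (hQ s)).trans (h.budget s hs)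
    box := fun s hs q hq => h.box s hs q (hQ s hq)
    nest := h.nest
    anc := h.anc
    mx0 := h.mx0
    mx1 := h.mx1
    ment := h.ment
    entcard := h.entcard
    entmem := h.entmem
    entfit := h.entfit }

theorem k7f_d7_back (X : K7bDat R) (z : R.L × ℝ) : ((X.inc z).1, ((X.inc z).2 - X.t0) / X.q) = z := by
  have hq := (k7blk1_q_pos X).ne'
  refine Prod.ext rfl ?_
  show (X.t0 + X.q * z.2 - X.t0) / X.q = z.2
  field_simp
  ring

theorem k7f_d7_SpN (X : K7bDat R) (E : Set (R.L × ℝ)) (ent : R.Lab → Finset (ℝ × ℝ × ℝ × ℝ)) (entOf : ℝ → R.L × ℝ → ℝ × ℝ × ℝ × ℝ) :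
    (X.upd E ent entOf).SpN = E :=
  Set.ext fun z : R.L × ℝ => iff_of_eq (congrArg (fun y => y ∈ E) (k7f_d7_back X z))

theorem k7f_d7_entOf (X : K7bDat R) (E : Set (R.L × ℝ)) (ent : R.Lab → Finset (ℝ × ℝ × ℝ × ℝ)) (entOf : ℝ → R.L × ℝ → ℝ × ℝ × ℝ × ℝ) :
    (fun (s : ℝ) (z : R.L × ℝ) => (X.upd E ent entOf).entOf s ((X.upd E ent entOf).inc z)) = entOf :=
  funext fun s => funext fun z : R.L × ℝ => congrArg (entOf s) (k7f_d7_back X z)

open Classical in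
/-- the horizontal record of the updated data, written out (NO occurrence of `X.hor`: the kernel must never compare `(X.upd ..).hor` with `X.hor`) -/
theorem k7f_d7_hor (X : K7bDat R) (E : Set (R.L × ℝ)) (ent : R.Lab → Finset (ℝ × ℝ × ℝ × ℝ)) (entOf : ℝ → R.L × ℝ → ℝ × ℝ × ℝ × ℝ) :
    (X.upd E ent entOf).hor =
    { Lam := R.L
      mL := R.mL
      ν := X.νf
      lam := (X.νf.prod k7bTime).restrict E
      Sp := E
      pal := X.pal
      p := fun l => (X.nbs l 0).2.1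
      v := fun l => ksZ (R.V l)
      q0 := fun l => (X.nbs l 0).2.2
      y1 := fun l => (X.nbs l 1).2.2 - (X.nbs l 0).2.2
      x0 := fun l => X.xh l 0
      x1 := fun l => X.xh l 1 - X.xh l 0
      Eh := X.Eh
      fE := X.fE
      eh := fun z => X.eh (X.inc z)
      Ref := X.Ref
      Q := R.Lab
      fQ := R.fLab
      Qat := fun s => Finset.univ.filter fun Q => R.dep Q = X.r + s ∧ R.Desc Q X.Qr ∧ ∃ p ∈ X.up E, R.labAt (X.r + s) p = Q
      lab := fun s z => R.labAt (X.r + s) (X.inc z)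
      bt := fun Q => (R.t0 Q - X.t0) / X.q
      bl := fun Q => R.q Q / X.q
      asg := fun Q => R.asg Q
      ct := X.ct
      cZ := X.cZ
      cY := X.cY
      ent := ent
      entOf := entOf } := by
  have key : ∀ (Sp' : Set (R.L × ℝ)) (eo : ℝ → R.L × ℝ → ℝ × ℝ × ℝ × ℝ), Sp' = E → eo = entOf →
      ({ Lam := R.L
         mL := R.mL
         ν := X.νf
         lam := (X.νf.prod k7bTime).restrict Sp'
         Sp := Sp'
         pal := X.pal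
         p := fun l => (X.nbs l 0).2.1
         v := fun l => ksZ (R.V l)
         q0 := fun l => (X.nbs l 0).2.2
         y1 := fun l => (X.nbs l 1).2.2 - (X.nbs l 0).2.2
         x0 := fun l => X.xh l 0
         x1 := fun l => X.xh l 1 - X.xh l 0
         Eh := X.Eh
         fE := X.fE
         eh := fun z => X.eh (X.inc z)
         Ref := X.Ref
         Q := R.Lab
         fQ := R.fLab
         Qat := fun s => Finset.univ.filter fun Q => R.dep Q = X.r + s ∧ R.Desc Q X.Qr ∧ ∃ p ∈ X.up E, R.labAt (X.r + s) p = Q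
         lab := fun s z => R.labAt (X.r + s) (X.inc z)
         bt := fun Q => (R.t0 Q - X.t0) / X.q
         bl := fun Q => R.q Q / X.q
         asg := fun Q => R.asg Q
         ct := X.ct
         cZ := X.cZ
         cY := X.cY
         ent := ent
         entOf := eo } : K7bHor) =
      { Lam := R.L
        mL := R.mL
        ν := X.νf
        lam := (X.νf.prod k7bTime).restrict E
        Sp := E
        pal := X.pal
        p := fun l => (X.nbs l 0).2.1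
        v := fun l => ksZ (R.V l)
        q0 := fun l => (X.nbs l 0).2.2
        y1 := fun l => (X.nbs l 1).2.2 - (X.nbs l 0).2.2
        x0 := fun l => X.xh l 0
        x1 := fun l => X.xh l 1 - X.xh l 0
        Eh := X.Eh
        fE := X.fE
        eh := fun z => X.eh (X.inc z)
        Ref := X.Ref
        Q := R.Lab
        fQ := R.fLab
        Qat := fun s => Finset.univ.filter fun Q => R.dep Q = X.r + s ∧ R.Desc Q X.Qr ∧ ∃ p ∈ X.up E, R.labAt (X.r + s) p = Q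
        lab := fun s z => R.labAt (X.r + s) (X.inc z)
        bt := fun Q => (R.t0 Q - X.t0) / X.q
        bl := fun Q => R.q Q / X.q
        asg := fun Q => R.asg Q
        ct := X.ct
        cZ := X.cZ
        cY := X.cY
        ent := ent
        entOf := entOf } := by
    rintro _ _ rfl rfl
    rfl
  exact key _ _ (k7f_d7_SpN X E ent entOf) (k7f_d7_entOf X E ent entOf)

open Classical in
theorem k7f_d7_Qat (X : K7bDat R) (E : Set (R.L × ℝ)) (hE : E ⊆ X.hor.Sp) (s : ℝ) :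
    (Finset.univ.filter fun Q => R.dep Q = X.r + s ∧ R.Desc Q X.Qr ∧ ∃ p ∈ X.up E, R.labAt (X.r + s) p = Q) ⊆ X.hor.Qat s := by
  intro Q hQ
  obtain ⟨a1, a2, p, hp, a3⟩ := (Finset.mem_filter.1 hQ).2
  refine Finset.mem_filter.2 ⟨Finset.mem_univ _, a1, a2, p, ?_, a3⟩
  have h2 : X.inc (p.1, (p.2 - X.t0) / X.q) ∈ X.Sp := hE hp
  have e : X.inc (p.1, (p.2 - X.t0) / X.q) = p := Prod.ext rfl (k7blk3_tOf X p.2)
  rwa [e] at h2

open Classical in
theorem k7f_d7_Qmem (X : K7bDat R) (E : Set (R.L × ℝ)) (s : ℝ) (z : R.L × ℝ) (hz : z ∈ E) (h : X.hor.lab s z ∈ X.hor.Qat s) :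
    X.hor.lab s z ∈ Finset.univ.filter fun Q => R.dep Q = X.r + s ∧ R.Desc Q X.Qr ∧ ∃ p ∈ X.up E, R.labAt (X.r + s) p = Q := by
  have b1 : R.dep (R.labAt (X.r + s) (X.inc z)) = X.r + s ∧ R.Desc (R.labAt (X.r + s) (X.inc z)) X.Qr ∧ ∃ p ∈ X.Sp, R.labAt (X.r + s) p = R.labAt (X.r + s) (X.inc z) :=
    (Finset.mem_filter.1 h).2
  refine Finset.mem_filter.2 ⟨Finset.mem_univ _, b1.1, b1.2.1, X.inc z, ?_, rfl⟩
  show ((X.inc z).1, ((X.inc z).2 - X.t0) / X.q) ∈ E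
  exact Set.mem_of_eq_of_mem (k7f_d7_back X z) hz

/-- the output record of `k7f_abs` is the horizontal record of the updated data, up to the restriction of the law to the new selection (all fields which mention `lam` are upper bounds).
PROOF.  `X' = X.upd E ent entOf`.   `X'.SpN = E` (`X.q = kbQ _ > 0`), `X'.hor.entOf = entOf`, `X'.hor.lam = (X.νf.prod k7bTime).restrict E ≤ X.hor.lam` since `E ⊆ X.SpN`, `(X'.hor.lam).restrict E = X.hor.lam.restrict E`; `lamres` with `Ev0 = E`.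
HorLink v2: `X'.hor.Qat s ⊆ X.hor.Qat s` (USED children: labels occurring on `X.up E ⊆ X.Sp`): all fields `∀ q ∈ Qat s` and `budget` pass to the subset; `labmem`: `lab s z ∈ X'.hor.Qat s` with the witness `p = X.inc z ∈ X.up E`.   All other data of `X'.hor` and `T.out m c E` coincide. -/
theorem k7f_upd_okE (X : K7bDat R) (T : K7fSh X.hor) (m : ℕ) {c : K7bPar} {K : ℝ} {E : Set (R.L × ℝ)} (hE : E ⊆ X.hor.Sp) (h : (T.out m c E).OkE c K) :
    (X.upd E (T.out m c E).ent (T.out m c E).entOf).hor.OkE c K := by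
  classical
  refine Eq.mpr (congrArg (fun H : K7bHor => H.OkE c K) (k7f_d7_hor X E (T.out m c E).ent (T.out m c E).entOf)) ?_
  exact k7f_d7_res (T.out m c E) h (fun s => Finset.univ.filter fun Q => R.dep Q = X.r + s ∧ R.Desc Q X.Qr ∧ ∃ p ∈ X.up E, R.labAt (X.r + s) p = Q)
    (k7f_d7_Qat X E hE) (fun s hs z hz => k7f_d7_Qmem X E s z hz (h.labmem s hs z hz).1) (Measure.restrict_mono hE (le_refl (X.hor.ν.prod k7bTime)))

/-- the number of cells -/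
theorem k7f_d7_n0 (K₁ : ℝ) (hK11 : 1 ≤ K₁) : ∃ n0 : ℕ, K₁ + 1 ≤ n0 * ((1 / K₁) / 2) ∧ 1 ≤ K₁ * (2 * (n0 : ℝ) + 1) ^ 3 ∧
    K₁ * (2 * (n0 : ℝ) + 1) ^ 3 ≤ 1331 * K₁ ^ 7 := by
  have hK10 : 0 < K₁ := by linarith
  obtain ⟨n0, hn0⟩ : ∃ n0 : ℕ, n0 = ⌈2 * (K₁ + 1) * K₁⌉₊ := ⟨_, rfl⟩
  have hn1 : 2 * (K₁ + 1) * K₁ ≤ n0 := by
    rw [hn0]
    exact Nat.le_ceil _
  have hn2 : (n0 : ℝ) ≤ 5 * K₁ ^ 2 := by
    have := Nat.ceil_lt_add_one (show 0 ≤ 2 * (K₁ + 1) * K₁ by positivity)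
    rw [← hn0] at this
    nlinarith
  have hn3 : 2 * (n0 : ℝ) + 1 ≤ 11 * K₁ ^ 2 := by nlinarith
  have hn4 : (1 : ℝ) ≤ 2 * (n0 : ℝ) + 1 := by
    have : (0 : ℝ) ≤ n0 := Nat.cast_nonneg _
    linarith
  refine ⟨n0, ?_, ?_, ?_⟩
  · have e : (n0 : ℝ) * ((1 / K₁) / 2) = n0 / (2 * K₁) := by
      field_simp
    rw [e, le_div_iff₀ (by positivity)]
    linarith
  · have : (1 : ℝ) ≤ (2 * (n0 : ℝ) + 1) ^ 3 := one_le_pow₀ hn4
    nlinarith
  · calc K₁ * (2 * (n0 : ℝ) + 1) ^ 3 ≤ K₁ * (11 * K₁ ^ 2) ^ 3 :=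
          mul_le_mul_of_nonneg_left (pow_le_pow_left₀ (by linarith) hn3 3) hK10.le
      _ = 1331 * K₁ ^ 7 := by ring

/-- separation -/
theorem k7f_d7_numA (A₁ B K K₂ ε c8 : ℝ) (a₁ q : ℕ) (hA1 : 1 ≤ A₁) (hB1 : 1 ≤ B) (hK : 1 ≤ K) (hBε : B * ε = K) (hK20 : 0 ≤ K₂)
    (hK2u : K₂ ≤ c8 * (A₁ * B ^ a₁) ^ 7) (D₂ : ℝ) (hD2 : 0 ≤ D₂) :
    4096 * K₂ ^ 8 ≤ (4096 * c8 ^ 8 * A₁ ^ 56 + D₂) * B ^ ((56 * a₁ + 2) + q) * ε ^ 2 := by
  have hB0 : 0 < B := by linarith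
  have hc8 : 0 ≤ c8 := by
    by_contra h
    push Not at h
    have : 0 < (A₁ * B ^ a₁) ^ 7 := by positivity
    nlinarith
  have h1 : K₂ ^ 8 ≤ c8 ^ 8 * A₁ ^ 56 * B ^ (56 * a₁) := by
    calc K₂ ^ 8 ≤ (c8 * (A₁ * B ^ a₁) ^ 7) ^ 8 := pow_le_pow_left₀ hK20 hK2u 8
      _ = c8 ^ 8 * A₁ ^ 56 * B ^ (56 * a₁) := by ring
  have h2 : 1 ≤ B ^ 2 * ε ^ 2 := by
    have : B ^ 2 * ε ^ 2 = K ^ 2 := by rw [← hBε]; ring
    rw [this]
    nlinarith
  have hp : B ^ (56 * a₁ + 2) ≤ B ^ ((56 * a₁ + 2) + q) := pow_le_pow_right₀ hB1 (Nat.le_add_right _ _)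
  calc 4096 * K₂ ^ 8 ≤ 4096 * (c8 ^ 8 * A₁ ^ 56 * B ^ (56 * a₁)) := by linarith
    _ = 4096 * c8 ^ 8 * A₁ ^ 56 * B ^ (56 * a₁) * 1 := by ring
    _ ≤ 4096 * c8 ^ 8 * A₁ ^ 56 * B ^ (56 * a₁) * (B ^ 2 * ε ^ 2) := mul_le_mul_of_nonneg_left h2 (by positivity)
    _ = 4096 * c8 ^ 8 * A₁ ^ 56 * B ^ (56 * a₁ + 2) * ε ^ 2 := by ring
    _ ≤ (4096 * c8 ^ 8 * A₁ ^ 56 + D₂) * B ^ ((56 * a₁ + 2) + q) * ε ^ 2 := by
        refine mul_le_mul_of_nonneg_right ?_ (by positivity)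
        exact mul_le_mul (by linarith) hp (by positivity) (by positivity)

/-- final slack -/
theorem k7f_d7_numB (c0 A₁ B Γ K K₂ ε ρ C₂ : ℝ) (a₁ p₂ q : ℕ) (hc0 : 1 ≤ c0) (hA1 : 1 ≤ A₁) (hB1 : 1 ≤ B) (hBΓ : B ≤ Γ) (hK : 0 ≤ K) (hKΓ : K ≤ Γ) (hC₂ : 1 ≤ C₂)
    (hε : 0 < ε) (hρ : 0 < ρ) (h1Γ : 1 / (ε * ρ) ≤ Γ) (hK20 : 0 ≤ K₂) (hK2u : K₂ ≤ 1331 * (A₁ * B ^ a₁) ^ 7) (D₁ : ℝ) (hD1 : 0 ≤ D₁) :
    c0 * K * (C₂ * (K₂ / ((1 / (A₁ * B ^ a₁)) * (ε / 2) * ρ)) ^ p₂) ≤ (D₁ + c0 * C₂ * (2662 * A₁ ^ 8) ^ p₂) * Γ ^ (q + ((8 * a₁ + 1) * p₂ + 1)) := by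
  have hB0 : 0 < B := by linarith
  have hΓ1 : 1 ≤ Γ := hB1.trans hBΓ
  have hΓ0 : 0 < Γ := by linarith
  have hK10 : 0 < A₁ * B ^ a₁ := by positivity
  have e : K₂ / ((1 / (A₁ * B ^ a₁)) * (ε / 2) * ρ) = 2 * K₂ * (A₁ * B ^ a₁) * (1 / (ε * ρ)) := by
    field_simp
  have hM : K₂ / ((1 / (A₁ * B ^ a₁)) * (ε / 2) * ρ) ≤ 2662 * A₁ ^ 8 * Γ ^ (8 * a₁ + 1) := by
    rw [e]
    have h1 : 2 * K₂ * (A₁ * B ^ a₁) ≤ 2662 * A₁ ^ 8 * Γ ^ (8 * a₁) := by
      calc 2 * K₂ * (A₁ * B ^ a₁) ≤ 2 * (1331 * (A₁ * B ^ a₁) ^ 7) * (A₁ * B ^ a₁) :=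
            mul_le_mul_of_nonneg_right (by linarith) hK10.le
        _ = 2662 * A₁ ^ 8 * B ^ (8 * a₁) := by ring
        _ ≤ 2662 * A₁ ^ 8 * Γ ^ (8 * a₁) := mul_le_mul_of_nonneg_left (pow_le_pow_left₀ hB0.le hBΓ _) (by positivity)
    calc 2 * K₂ * (A₁ * B ^ a₁) * (1 / (ε * ρ)) ≤ 2662 * A₁ ^ 8 * Γ ^ (8 * a₁) * Γ := mul_le_mul h1 h1Γ (by positivity) (by positivity)
      _ = 2662 * A₁ ^ 8 * Γ ^ (8 * a₁ + 1) := by ring
  have hM0 : 0 ≤ K₂ / ((1 / (A₁ * B ^ a₁)) * (ε / 2) * ρ) := by positivity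
  have hp : Γ ^ ((8 * a₁ + 1) * p₂ + 1) ≤ Γ ^ (q + ((8 * a₁ + 1) * p₂ + 1)) := pow_le_pow_right₀ hΓ1 (Nat.le_add_left _ _)
  calc c0 * K * (C₂ * (K₂ / ((1 / (A₁ * B ^ a₁)) * (ε / 2) * ρ)) ^ p₂) ≤ c0 * Γ * (C₂ * (2662 * A₁ ^ 8 * Γ ^ (8 * a₁ + 1)) ^ p₂) := by
        refine mul_le_mul (mul_le_mul_of_nonneg_left hKΓ (by linarith)) ?_ (by positivity) (by positivity)
        exact mul_le_mul_of_nonneg_left (pow_le_pow_left₀ hM0 hM p₂) (by linarith)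
    _ = c0 * C₂ * (2662 * A₁ ^ 8) ^ p₂ * Γ ^ ((8 * a₁ + 1) * p₂ + 1) := by
        rw [mul_pow (2662 * A₁ ^ 8), ← pow_mul]
        ring
    _ ≤ (D₁ + c0 * C₂ * (2662 * A₁ ^ 8) ^ p₂) * Γ ^ (q + ((8 * a₁ + 1) * p₂ + 1)) :=
        mul_le_mul (by linarith) hp (by positivity) (by positivity)

/-- the constants of `k7f_S2` -/
theorem k7f_d7_num (c0 C₁ C₂ : ℝ) (p₁ p₂ : ℕ) (hc0 : 1 ≤ c0) (hC₁ : 1 ≤ C₁) (hC₂ : 1 ≤ C₂) : ∃ (p : ℕ) (C : ℝ), 1 ≤ C ∧
    ∀ K ε ρ : ℝ, 1 ≤ K → 0 < ε → ε ≤ 1 → 0 < ρ → ρ ≤ 1 → ∃ (K₁ : ℝ) (n0 : ℕ), 1 ≤ K₁ ∧ K ≤ K₁ ∧ C₁ * (K / (ε / (4 * K))) ^ p₁ ≤ K₁ ∧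
      K₁ + 1 ≤ n0 * ((1 / K₁) / 2) ∧ 4096 * (K₁ * (2 * n0 + 1) ^ 3) ^ 8 ≤ C * (K / ε) ^ p * ε ^ 2 ∧
      1 ≤ K₁ * (2 * n0 + 1) ^ 3 ∧
      c0 * K * (C₂ * (K₁ * (2 * n0 + 1) ^ 3 / ((1 / K₁) * (ε / 2) * ρ)) ^ p₂) ≤ C * (K / (ε * ρ)) ^ p := by
  obtain ⟨a₁, ha₁⟩ : ∃ a₁ : ℕ, a₁ = 2 * (p₁ + 1) := ⟨_, rfl⟩
  obtain ⟨A₁, hA₁⟩ : ∃ A₁ : ℝ, A₁ = C₁ * 4 ^ (p₁ + 1) := ⟨_, rfl⟩
  have hA1 : 1 ≤ A₁ := by
    rw [hA₁]
    have : (1 : ℝ) ≤ 4 ^ (p₁ + 1) := one_le_pow₀ (by norm_num)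
    nlinarith
  have hD1 : (1 : ℝ) ≤ 4096 * (1331 : ℝ) ^ 8 * A₁ ^ 56 := by
    have h1 : (1 : ℝ) ≤ A₁ ^ 56 := one_le_pow₀ hA1
    have h2 : (1 : ℝ) ≤ (1331 : ℝ) ^ 8 := one_le_pow₀ (by norm_num)
    calc (1 : ℝ) = 1 * 1 * 1 := by norm_num
      _ ≤ 4096 * (1331 : ℝ) ^ 8 * A₁ ^ 56 := mul_le_mul (mul_le_mul (by norm_num) h2 (by norm_num) (by norm_num)) h1 (by norm_num) (by positivity)
  have hD2 : (0 : ℝ) ≤ c0 * C₂ * (2662 * A₁ ^ 8) ^ p₂ := by positivity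
  refine ⟨(56 * a₁ + 2) + ((8 * a₁ + 1) * p₂ + 1), 4096 * (1331 : ℝ) ^ 8 * A₁ ^ 56 + c0 * C₂ * (2662 * A₁ ^ 8) ^ p₂, by linarith, ?_⟩
  intro K ε ρ hK hε hε1 hρ hρ1
  have hK0 : 0 < K := by linarith
  obtain ⟨B, hB⟩ : ∃ B : ℝ, B = K / ε := ⟨_, rfl⟩
  obtain ⟨Γ, hΓ⟩ : ∃ Γ : ℝ, Γ = K / (ε * ρ) := ⟨_, rfl⟩
  have hερ : 0 < ε * ρ := mul_pos hε hρ
  have hKB : K ≤ B := by
    rw [hB, le_div_iff₀ hε]
    nlinarith
  have hB1 : 1 ≤ B := hK.trans hKB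
  have hB0 : 0 < B := by linarith
  have hBε : B * ε = K := by
    rw [hB]
    field_simp
  have hBΓ : B ≤ Γ := by
    rw [hB, hΓ]
    exact div_le_div_of_nonneg_left hK0.le hερ (by nlinarith)
  have h1Γ : 1 / (ε * ρ) ≤ Γ := by
    rw [hΓ]
    exact div_le_div_of_nonneg_right hK hερ.le
  rw [← hB, ← hΓ]
  have hBa : 1 ≤ B ^ a₁ := one_le_pow₀ hB1
  have hK11 : 1 ≤ A₁ * B ^ a₁ := by nlinarith
  obtain ⟨n0, hn1, hn2, hn3⟩ := k7f_d7_n0 (A₁ * B ^ a₁) hK11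
  refine ⟨A₁ * B ^ a₁, n0, hK11, ?_, ?_, hn1, ?_, hn2, ?_⟩
  · have h1 : B ≤ B ^ a₁ := by
      calc B = B ^ 1 := (pow_one B).symm
        _ ≤ B ^ a₁ := pow_le_pow_right₀ hB1 (by omega)
    nlinarith
  · have e1 : K / (ε / (4 * K)) = 4 * (K * B) := by
      rw [hB]
      field_simp
    have h1 : K / (ε / (4 * K)) ≤ 4 * B ^ 2 := by
      rw [e1]
      nlinarith
    have h0 : 0 ≤ K / (ε / (4 * K)) := by positivity
    have h4 : (1 : ℝ) ≤ 4 * B ^ 2 := by nlinarith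
    calc C₁ * (K / (ε / (4 * K))) ^ p₁ ≤ C₁ * (4 * B ^ 2) ^ (p₁ + 1) := by
          refine mul_le_mul_of_nonneg_left ?_ (by linarith)
          exact (pow_le_pow_left₀ h0 h1 p₁).trans (pow_le_pow_right₀ h4 (Nat.le_succ _))
      _ = A₁ * B ^ a₁ := by
          rw [hA₁, ha₁, mul_pow, ← pow_mul]
          ring
  · exact k7f_d7_numA A₁ B K _ ε 1331 a₁ _ hA1 hB1 hK hBε (by linarith) hn3 _ hD2
  · exact k7f_d7_numB c0 A₁ B Γ K _ ε ρ C₂ a₁ p₂ _ hc0 hA1 hB1 hBΓ hK0.le (hKB.trans hBΓ) hC₂ hε hρ h1Γ (by linarith) hn3 _ (by linarith)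

/-- `OkB` is monotone in the slack and antitone in the radius -/
theorem k7f_d7_okB_mono {H : K7bHor} (T : K7fSh H) {c : K7bPar} {K K' r r' : ℝ} {d m : ℕ} {E0 : Set (H.Lam × ℝ)} (hc : c.WF) (hK : 0 < K) (hKK : K ≤ K')
    (hr : r' ≤ r) (h : T.OkB c K r d m E0) : T.OkB c K' r' d m E0 where
  mse := h.mse
  mfc := h.mfc
  lab := h.lab
  card := fun q => (h.card q).trans hKK
  deg := h.deg
  stabB := fun s hs z hz x hx => by
    obtain ⟨a, b⟩ := h.stabB s hs z hz x (fun i => (hx i).trans (by linarith))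
    exact ⟨(one_div_le_one_div_of_le hK hKK).trans a, b.trans hKK⟩
  fit := fun s hs z hz => (h.fit s hs z hz).trans (mul_le_mul_of_nonneg_right hKK (Real.rpow_nonneg (by linarith [hc.N1]) _))
  close := h.close
  opt := fun s hs => by
    obtain ⟨n, hn, ho⟩ := h.opt s hs
    exact ⟨n, hn.trans hKK, ho⟩

/-- `OkE` is monotone in the slack -/
theorem k7f_d7_okE_mono {H : K7bHor} {c : K7bPar} {K K' : ℝ} (hc : c.WF) (hK : 1 ≤ K) (hKK : K ≤ K') (h : H.OkE c K) : H.OkE c K' :=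
  { k7f_ok0_mono hc hK hKK h.toOk0 with
    mx0 := h.mx0
    mx1 := h.mx1
    ment := h.ment
    entcard := fun q => (h.entcard q).trans hKK
    entmem := h.entmem
    entfit := fun s hs z hz t ht => (h.entfit s hs z hz t ht).trans (mul_le_mul_of_nonneg_right hKK (Real.rpow_nonneg (by linarith [hc.N1]) _)) }

/-- the residual is measurable (`L = 0`) -/
theorem k7f_d7_mxh {K : ℝ} (hR : R.Ok K) (X : K7bDat R) (hL : X.L = (0, 0, 0, 0)) (τ : ℝ) : Measurable fun l => X.xh l τ := by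
  have e : (fun l => X.xh l τ) = fun l => (∑ i, (R.co l).2.2 i * X.tOf τ ^ (i : ℕ)) / R.a X.r := by
    funext l
    unfold K7bDat.xh
    rw [hL]
    simp only [k7bAff, zero_mul, add_zero, sub_zero]
    rfl
  rw [e]
  refine Measurable.div_const (Finset.measurable_sum _ fun i _ => Measurable.mul_const ?_ _) _
  exact (measurable_pi_apply i).comp (measurable_snd.comp (measurable_snd.comp hR.m_co))

/-- smallness of the accuracies -/
theorem k7f_d7_small {c0 c₂ K G P Ps x : ℝ} (hc0 : 1 ≤ c0) (hc₂ : 0 ≤ c₂) (hK : 1 ≤ K) (hG : c0 * K * c₂ ≤ G) (hP : 0 ≤ P) (hPs : Ps ≤ P) (h : G * (P + x) ≤ 1) :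
    c₂ * (Ps + c0 * K * x) ≤ 1 := by
  have h1 : c₂ * (Ps + c0 * K * x) ≤ c₂ * (P + c0 * K * x) := mul_le_mul_of_nonneg_left (by linarith) hc₂
  refine h1.trans ?_
  have h51 : 1 ≤ c0 * K := by nlinarith
  have h5 : c₂ ≤ c0 * K * c₂ := by nlinarith
  rcases le_total 0 x with hx | hx
  · have h2 : c₂ * (P + c0 * K * x) ≤ c0 * K * c₂ * (P + x) := by
      have : 0 ≤ c₂ * P := mul_nonneg hc₂ hP
      nlinarith
    exact h2.trans ((mul_le_mul_of_nonneg_right hG (by linarith)).trans h)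
  · have h2 : c₂ * (P + c0 * K * x) ≤ c₂ * (P + x) := mul_le_mul_of_nonneg_left (by nlinarith) hc₂
    refine h2.trans ?_
    rcases le_total (P + x) 0 with hw | hw
    · exact (mul_nonpos_of_nonneg_of_nonpos hc₂ hw).trans zero_le_one
    · exact (mul_le_mul_of_nonneg_right (h5.trans hG) hw).trans h

/-- **L-252-S7f-D7 = `a06:horizontal-affine-approximation`, ONE SCALE** (glue, ~350 l. with `k7f_upd_okE`).   Entry: `R.Ok K`, `X.L = 0`, `X.hor.Ok0 c K`, link facts.   Exit: a selection `E` of `X.hor.Sp`, loss `≤ ε`, affine entries, `OkE` with slack `C (K/(ε ρ))^p`.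
`ρ` = separation of the velocity witnesses (`hsep`: reciprocal subpower, needs `c.χ` small);  `hsm`: the horizontal accuracy `N^(-e₀)` and the accuracy `ξf` of the fine positions are small against `h_s`, `hm²`.
PROOF.  `τ = ε/(4 K)`:  `k7f_light` (`Y = H.Q`, `y = H.lab`, `ly = id`, `n = 1`) gives `E0 ⊆ Sp`, loss `≤ #G τ ≤ ε/4`, labels not light.   `k7f_ad_ball` gives `T`, slack `K₁ = C₁ (K/τ)^p₁`, radius `r = 1/K₁`.   `n0 := ⌈2 (K₁ + 1)/r⌉₊`; `k7f_cub`: `(T.cub c r n0).Ok c K₂ r 2 1 E0`, `K₂ = K₁ (2 n0 + 1)³`.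
`k7f_ok0_mono` to `K₂`.   `k7f_abs 2 1` with `ε/2`.   `k7f_upd_okE`. -/
theorem k7f_S2 : ∃ (p : ℕ) (C : ℝ), 1 ≤ C ∧
    ∀ (R : KsRef KbVer.two) (X : K7bDat R) (c : K7bPar) (K ε ρ ξf hm : ℝ) (Fc : Type) [Countable Fc] (fc : R.L × ℝ → Fc),
      c.WF → R.Ok K → X.L = (0, 0, 0, 0) → X.hor.Ok0 c K → K7fLk X c K ξf fc → (c.G.card : ℝ) ≤ K → 0 < ε → ε ≤ 1 → 0 < ρ → ρ + 2 * c.χ ≤ 1 →
      0 < hm → (∀ s ∈ c.G, hm ≤ c.h s) →
      C * (K / ε) ^ p * (ρ + 2 * c.χ) ^ c.S ≤ 1 →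
      C * (K / (ε * ρ)) ^ p * (c.N ^ (-c.e0) / hm + ξf / hm ^ 2) ≤ 1 →
      ∃ (E : Set (R.L × ℝ)) (ent : R.Lab → Finset (ℝ × ℝ × ℝ × ℝ)) (entOf : ℝ → R.L × ℝ → ℝ × ℝ × ℝ × ℝ), E ⊆ X.hor.Sp ∧ MeasurableSet E ∧
        X.hor.lam (X.hor.Sp \ E) ≤ ENNReal.ofReal ε ∧ (X.upd E ent entOf).hor.OkE c (C * (K / (ε * ρ)) ^ p) := by
  obtain ⟨p₁, C₁, hC₁, had⟩ := k7f_ad_ball
  obtain ⟨p₂, C₂, hC₂, habs⟩ := k7f_abs 2 1 (by norm_num)
  obtain ⟨p, C, hC, hnum⟩ := k7f_d7_num 6 C₁ C₂ p₁ p₂ (by norm_num) hC₁ hC₂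
  refine ⟨p, C, hC, ?_⟩
  intro R X c K ε ρ ξf hm Fc _ fc hc hR hL h0 hlk hG hε hε1 hρ hρχ hhm hhs hsep hsm
  have hK : 1 ≤ K := hR.K_ge
  have hK0 : 0 < K := by linarith
  have hρ1 : ρ ≤ 1 := by linarith [hc.χ0]
  obtain ⟨K₁, n0, hK11, hKK₁, hadK, hn0, hA, hK21, hB⟩ := hnum K ε ρ hK hε hε1 hρ hρ1
  have hK₁0 : 0 < K₁ := by linarith
  obtain ⟨τ, hτ⟩ : ∃ τ : ℝ, τ = ε / (4 * K) := ⟨_, rfl⟩
  have hτ0 : 0 < τ := by rw [hτ]; positivity
  have hτ1 : τ ≤ 1 := by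
    rw [hτ, div_le_one (by positivity)]
    linarith
  rw [← hτ] at hadK
  -- light labels
  obtain ⟨E0, hE0s, hE0m, hE0l, hE0f⟩ := k7f_light c X.hor X.hor.lab id (n := 1) hτ0.le h0 (le_refl X.hor.Sp) h0.mSp h0.mlab (fun s _ z _ => rfl)
    (fun q => by simp)
  -- the adaptor
  obtain ⟨T, hT, hTeta⟩ := had R X c K τ ξf hm Fc fc E0 hc hR hL h0 hlk hτ0 hτ1 hhm hhs hE0s hE0f
  have hTK : 0 < C₁ * (K / τ) ^ p₁ := by positivity
  have hT1 : T.OkB c K₁ (1 / K₁) 2 1 E0 := k7f_d7_okB_mono T hc hTK hadK (one_div_le_one_div_of_le hTK hadK) hT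
  -- the cubes
  have hr0 : 0 < 1 / K₁ := by positivity
  have hr1 : 1 / K₁ ≤ 1 := by
    rw [div_le_one hK₁0]
    exact hK11
  have h01 : X.hor.Ok0 c K₁ := k7f_ok0_mono hc hK hKK₁ h0
  have hcub := k7f_cub c X.hor T hc hK11 hr0 h01 hE0s hT1 hn0
  obtain ⟨K₂, hK₂⟩ : ∃ K₂ : ℝ, K₂ = K₁ * (2 * (n0 : ℝ) + 1) ^ 3 := ⟨_, rfl⟩
  rw [← hK₂] at hcub hA hK21 hB
  have hK12 : K₁ ≤ K₂ := by
    have h1 : (1 : ℝ) ≤ (2 * (n0 : ℝ) + 1) ^ 3 := one_le_pow₀ (by have : (0 : ℝ) ≤ n0 := Nat.cast_nonneg _; linarith)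
    rw [hK₂]
    nlinarith
  have h02 : X.hor.Ok0 c K₂ := k7f_ok0_mono hc hK11 hK12 h01
  have mx0 : Measurable X.hor.x0 := k7f_d7_mxh hR X hL 0
  have mx1 : Measurable X.hor.x1 := (k7f_d7_mxh hR X hL 1).sub (k7f_d7_mxh hR X hL 0)
  obtain ⟨c₂, hc₂⟩ : ∃ c₂ : ℝ, c₂ = C₂ * (K₂ / (1 / K₁ * (ε / 2) * ρ)) ^ p₂ := ⟨_, rfl⟩
  rw [← hc₂] at hB
  have hden : 0 < 1 / K₁ * (ε / 2) * ρ := by positivity
  have hM1 : 1 ≤ K₂ / (1 / K₁ * (ε / 2) * ρ) := by
    rw [le_div_iff₀ hden, one_mul]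
    have h2 : 1 / K₁ * (ε / 2) * ρ ≤ 1 * 1 * 1 := mul_le_mul (mul_le_mul hr1 (by linarith) (by positivity) (by norm_num)) hρ1 hρ.le (by norm_num)
    linarith
  have hc₂1 : 1 ≤ c₂ := by
    rw [hc₂]
    have : (1 : ℝ) ≤ (K₂ / (1 / K₁ * (ε / 2) * ρ)) ^ p₂ := one_le_pow₀ hM1
    nlinarith
  have hsep' : 512 * K₂ ^ 8 * (ρ + 2 * c.χ) ^ c.S < (ε / 2) ^ 2 := by
    have hX : 0 < (ρ + 2 * c.χ) ^ c.S := Real.rpow_pos_of_pos (by linarith [hc.χ0]) _
    calc 512 * K₂ ^ 8 * (ρ + 2 * c.χ) ^ c.S = (4096 * K₂ ^ 8) * (ρ + 2 * c.χ) ^ c.S / 8 := by ring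
      _ ≤ (C * (K / ε) ^ p * ε ^ 2) * (ρ + 2 * c.χ) ^ c.S / 8 := by
          exact div_le_div_of_nonneg_right (mul_le_mul_of_nonneg_right hA hX.le) (by norm_num)
      _ = (C * (K / ε) ^ p * (ρ + 2 * c.χ) ^ c.S) * ε ^ 2 / 8 := by ring
      _ ≤ 1 * ε ^ 2 / 8 := div_le_div_of_nonneg_right (mul_le_mul_of_nonneg_right hsep (by positivity)) (by norm_num)
      _ < (ε / 2) ^ 2 := by nlinarith
  have hsm' : ∀ s ∈ c.G, C₂ * (K₂ / (1 / K₁ * (ε / 2) * ρ)) ^ p₂ * (c.N ^ (-c.e0) / c.h s + (T.cub c (1 / K₁) n0).eta) ≤ 1 := by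
    intro s hs
    have e1 : (T.cub c (1 / K₁) n0).eta = 6 * K * (ξf / hm ^ 2) := by
      show T.eta = _
      rw [hTeta]
      ring
    rw [← hc₂, e1]
    have hN0 : 0 ≤ c.N ^ (-c.e0) := Real.rpow_nonneg (by linarith [hc.N1]) _
    exact k7f_d7_small (by norm_num) (by linarith) hK hB (div_nonneg hN0 hhm.le) (div_le_div_of_nonneg_left hN0 hhm (hhs s hs)) hsm
  obtain ⟨E, hEs, hEm, hEl, hEok⟩ := habs c X.hor (T.cub c (1 / K₁) n0) K₂ (1 / K₁) (ε / 2) ρ E0 hc hK21 hr0 hr1 (by positivity) (by linarith) hρ hρχ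
    (hG.trans (hKK₁.trans hK12)) h02 mx0 mx1 hE0s hE0m hcub hsep' hsm'
  rw [← hc₂] at hEok
  have hle : c₂ ≤ C * (K / (ε * ρ)) ^ p := by
    refine le_trans ?_ hB
    nlinarith
  refine ⟨E, ((T.cub c (1 / K₁) n0).out 1 c E).ent, ((T.cub c (1 / K₁) n0).out 1 c E).entOf, hEs.trans hE0s, hEm, ?_,
    k7f_upd_okE X (T.cub c (1 / K₁) n0) 1 (hEs.trans hE0s) (k7f_d7_okE_mono hc hc₂1 hle hEok)⟩
  have hsub : X.hor.Sp \ E ⊆ (X.hor.Sp \ E0) ∪ (E0 \ E) := by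
    intro z hz
    by_cases h : z ∈ E0
    · exact Or.inr ⟨h, hz.2⟩
    · exact Or.inl ⟨hz.1, h⟩
  have hτG : (c.G.card : ℝ) * 1 * τ ≤ ε / 4 := by
    have e : ε / 4 = K * τ := by
      rw [hτ]
      field_simp
    rw [e, mul_one]
    exact mul_le_mul_of_nonneg_right hG hτ0.le
  calc X.hor.lam (X.hor.Sp \ E) ≤ X.hor.lam (X.hor.Sp \ E0) + X.hor.lam (E0 \ E) := (measure_mono hsub).trans (measure_union_le _ _)
    _ ≤ ENNReal.ofReal (ε / 4) + ENNReal.ofReal (ε / 2) := add_le_add (hE0l.trans (ENNReal.ofReal_le_ofReal hτG)) hEl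
    _ = ENNReal.ofReal (ε / 4 + ε / 2) := (ENNReal.ofReal_add (by positivity) (by positivity)).symm
    _ ≤ ENNReal.ofReal ε := ENNReal.ofReal_le_ofReal (by linarith)

end

end Claimed.Agent.R252
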